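import Vale.Agent.P047.Disproof.KeyStep
import Mathlib.Analysis.SpecificLimits.Normed

/-!
The key theorem: on the torus of polynomials of degree `< 11 q` on the `30 q`-cube the Gaussian
integral exceeds the Gaussian integral over real polynomials by an arbitrarily small exponential
factor.
-/

namespace Vale.Agent.P047.Disproof

open MeasureTheory Filter Finset
open scoped ENNReal Topology


/-- The bound at the root. -/
lemma root_bound {n p k : ℕ} {P0 c : ℝ} (H : Par n p P0) (hc : 0 < c) (hc1 : c ≤ 1)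
    (hP : 3 ^ k * (2 / 3 : ℝ) ^ n ≤ P0 * c) :
    ∫ θ : Torus n k, Real.exp (-c * tenergy n k θ) ≤
      Real.exp ((2 ^ (n + 1) - 1) * errX n p P0) * G n k c := by
  set ψ : UnitAddCircle → ℝ≥0∞ := fun b => ee (-c * ‖b‖ ^ 2) with hψ
  have hψm : Measurable ψ := by
    rw [hψ]
    exact (ENNReal.continuous_ofReal.comp
      (Real.continuous_exp.comp (continuous_const.mul (continuous_norm.pow 2)))).measurable
  have hW : Weight n p 0 c 0 ψ := by
    refine ⟨hψm, le_rfl, by simp [slack], fun s hs => ?_, fun b => ?_⟩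
    · have hr : rad n 0 = 1 / 8 := by simp [rad]
      rw [hψ, zero_mul, add_zero]
      simp only
      rw [norm_coe_of_le (hs.trans (by rw [hr]; norm_num)), sq_abs]
    · simp [hψ, slack]
  have hb := nodeBound H n k 0 c 0 ψ (by omega) hc (by simpa using hc1) hP hW
  have heq : cubeInt n k (fun _ => ψ) =
      ∫⁻ θ : Torus n k, ENNReal.ofReal (Real.exp (-c * tenergy n k θ)) := by
    refine lintegral_congr fun θ => ?_
    rw [hψ, ee_sum, ← Finset.mul_sum]
    rfl
  have hm : Measurable fun θ : Torus n k => Real.exp (-c * tenergy n k θ) :=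
    Real.measurable_exp.comp (measurable_const.mul (Finset.measurable_fun_sum _ fun x _ =>
      ((measurable_ev n k x).norm).pow_const 2))
  rw [integral_eq_lintegral_of_nonneg_ae (Eventually.of_forall fun _ => (Real.exp_pos _).le)
    hm.aestronglyMeasurable, ← heq]
  refine (ENNReal.toReal_mono (ee_ne_top _) hb).trans (le_of_eq ?_)
  rw [ee, ENNReal.toReal_ofReal (Real.exp_pos _).le, Real.exp_add, Real.exp_log (G_pos n k hc)]

/-- The base of the exponential decay of `3 ^ k * (2 / 3) ^ n / c`. -/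
noncomputable def decay : ℝ := 3 ^ 11 * (2 / 3) ^ 30 * Real.exp (1 / 2000)

lemma decay_bounds : 1 / 2 ≤ decay ∧ decay ≤ 93 / 100 := by
  have h1 : (1 : ℝ) ≤ Real.exp (1 / 2000) := Real.one_le_exp (by norm_num)
  have h2 : Real.exp (1 / 2000) ≤ 2000 / 1999 := by
    have h := Real.add_one_le_exp (-(1 / 2000) : ℝ)
    rw [Real.exp_neg] at h
    have hpos := Real.exp_pos (1 / 2000 : ℝ)
    have := mul_le_mul_of_nonneg_left h hpos.le
    rw [mul_inv_cancel₀ hpos.ne'] at this
    linarith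
  unfold decay
  constructor <;> nlinarith

/-- The key theorem. -/
theorem keyTheorem : KeyTheorem := by
  intro L
  obtain ⟨hd0, hd1⟩ := decay_bounds
  have hd : 0 < decay := by linarith
  set L' := max L 0 with hL'
  obtain ⟨e, he⟩ := exists_pow_lt_of_lt_one
    (show (0 : ℝ) < 1 / (8 ^ 30 * Real.exp L') by positivity) (show decay < 1 by linarith)
  obtain ⟨p, hp⟩ : ∃ p, p = e + 3 := ⟨_, rfl⟩
  set ρ := 8 ^ 30 * decay ^ (p - 1) * Real.exp L' with hρ
  have hρ1 : ρ < 1 := by
    have h : decay ^ (p - 1) ≤ decay ^ e := pow_le_pow_of_le_one hd.le (by linarith) (by omega)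
    rw [lt_div_iff₀ (by positivity)] at he
    calc ρ = decay ^ (p - 1) * (8 ^ 30 * Real.exp L') := by rw [hρ]; ring
      _ ≤ decay ^ e * (8 ^ 30 * Real.exp L') := mul_le_mul_of_nonneg_right h (by positivity)
      _ < 1 := he
  have hρ0 : 0 ≤ ρ := by positivity
  obtain ⟨M, hM⟩ : ∃ M, M = 2 * p + 3 * p * (p - 1) := ⟨_, rfl⟩
  set Kc : ℝ := 4 * 256 ^ p * 4 ^ p * (4 ^ p) ^ (p - 1) * 30 ^ M with hKc
  have lim : ∀ (K : ℝ) (a : ℕ) (r : ℝ), 0 ≤ r → r < 1 → ∀ ε > 0,
      ∀ᶠ q : ℕ in atTop, K * (q : ℝ) ^ a * r ^ q ≤ ε := by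
    intro K a r hr0 hr1 ε hε
    have h := (tendsto_pow_const_mul_const_pow_of_abs_lt_one a
      (by rwa [abs_of_nonneg hr0] : |r| < 1)).const_mul K
    rw [mul_zero] at h
    filter_upwards [h.eventually (eventually_le_nhds hε)] with q hq
    linarith [hq]
  have ev1 := lim (4 ^ p * 30 ^ (3 * p)) (3 * p) decay hd.le (by linarith) (1 / 256) (by norm_num)
  have ev2 := lim (4000 * 30 ^ (6 * p + 3)) (6 * p + 3) decay hd.le (by linarith) 1 one_pos
  have ev3 := lim Kc M ρ hρ0 hρ1 1 one_pos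
  have ev0 : ∀ᶠ q : ℕ in atTop, (1024 : ℝ) ^ p ≤ q ∧ ((p : ℝ) + 32) ≤ q :=
    (tendsto_natCast_atTop_atTop.eventually_ge_atTop _).and
      (tendsto_natCast_atTop_atTop.eventually_ge_atTop _)
  filter_upwards [ev0, ev1, ev2, ev3] with q ⟨hq0, hqp⟩ hq1 hq2 hq3 c hc0 hc1
  have hc : 0 < c := lt_of_lt_of_le (Real.exp_pos _) hc0
  set n := 30 * q with hn
  set P0 := decay ^ q with hP0
  have hP0pos : 0 < P0 := pow_pos hd q
  have hnR : (n : ℝ) = 30 * q := by rw [hn]; push_cast; ring
  have hq : (32 : ℝ) ≤ q := le_trans (le_add_of_nonneg_left (Nat.cast_nonneg p)) hqp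
  have hn1 : (1 : ℝ) ≤ n := by rw [hnR]; linarith
  have hsig : sigsq n p P0 = 4 ^ p * 30 ^ (3 * p) * (q : ℝ) ^ (3 * p) * decay ^ q := by
    rw [sigsq, hnR, mul_pow, hP0]; ring
  have hX : errX n p P0 = 4 ^ n * 256 ^ p * (4 ^ p * (n : ℝ) ^ (2 * p)) * sigsq n p P0 ^ (p - 1) := by
    rw [errX, errC, show (4 : ℝ) ^ n = 2 ^ n * 2 ^ n by rw [← mul_pow]; norm_num]; ring
  have H : Par n p P0 := by
    refine ⟨by omega, hq0.trans (by rw [hnR]; linarith), hP0pos, by rw [hsig]; exact hq1, ?_, ?_⟩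
    · rw [hnR, mul_pow, hP0]; linarith [hq2]
    · have hXlow : (1 / 2 : ℝ) ^ (q * (p - 1)) ≤ errX n p P0 := by
        rw [pow_mul, hX]
        calc ((1 / 2 : ℝ) ^ q) ^ (p - 1) ≤ sigsq n p P0 ^ (p - 1) := by
              refine pow_le_pow_left₀ (by positivity) ?_ _
              calc (1 / 2 : ℝ) ^ q ≤ P0 * 1 * 1 := by
                    rw [mul_one, mul_one, hP0]; exact pow_le_pow_left₀ (by norm_num) hd0 q
                _ ≤ _ := by
                    unfold sigsq
                    gcongr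
                    · exact one_le_pow₀ (by norm_num)
                    · exact one_le_pow₀ hn1
          _ ≤ _ := le_mul_of_one_le_left (by unfold sigsq; positivity)
              (one_le_mul_of_one_le_of_one_le
                (one_le_mul_of_one_le_of_one_le (one_le_pow₀ (by norm_num)) (one_le_pow₀ (by norm_num)))
                (one_le_mul_of_one_le_of_one_le (one_le_pow₀ (by norm_num)) (one_le_pow₀ hn1)))
      refine le_trans ?_ (div_le_div_of_nonneg_right hXlow zero_le_two)
      rw [one_div_pow, div_div, le_div_iff₀ (by positivity), mul_assoc, ← pow_succ, ← pow_add]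
      have h2e : ∀ m : ℕ, (2 : ℝ) ^ m ≤ Real.exp m := fun m => by
        rw [← mul_one (m : ℝ), Real.exp_nat_mul]
        exact pow_le_pow_left₀ zero_le_two (by linarith [Real.add_one_le_exp (1 : ℝ)]) m
      refine (mul_le_mul_of_nonneg_left (h2e _) (Real.exp_pos _).le).trans ?_
      rw [← Real.exp_add, ← Real.exp_zero]
      refine Real.exp_le_exp.2 ?_
      have h3 : (n : ℝ) ^ 3 ≤ (n : ℝ) ^ (3 * p) := pow_le_pow_right₀ hn1 (by omega)
      have h4 : ((q * (p - 1) : ℕ) : ℝ) ≤ q * p := by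
        exact_mod_cast Nat.mul_le_mul_left q (Nat.sub_le p 1)
      have h5 : (q : ℝ) * p ≤ q * q := mul_le_mul_of_nonneg_left (by linarith) (by linarith)
      rw [hnR] at h3 ⊢
      push_cast
      push_cast at h4
      nlinarith [mul_le_mul_of_nonneg_left hq (mul_nonneg (by linarith : (0 : ℝ) ≤ q) (by linarith : (0 : ℝ) ≤ q))]
  have hPc : 3 ^ (11 * q) * (2 / 3 : ℝ) ^ (30 * q) ≤ P0 * c := by
    refine le_trans (le_of_eq ?_) (mul_le_mul_of_nonneg_left hc0 hP0pos.le)
    rw [hP0, decay, mul_pow _ (Real.exp _), mul_pow, ← pow_mul, ← pow_mul, ← Real.exp_nat_mul,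
      mul_assoc (_ * _) (Real.exp _), ← Real.exp_add,
      show (q : ℝ) * (1 / 2000) + -(q : ℝ) / 2000 = 0 by ring, Real.exp_zero, mul_one]
  refine (root_bound H hc hc1 hPc).trans (mul_le_mul_of_nonneg_right ?_ (G_pos _ _ hc).le)
  set δ := (2 ^ (n + 1) - 1) * errX n p P0 with hδ
  have hδ0 : 0 ≤ δ := mul_nonneg (sub_nonneg.2 (one_le_pow₀ one_le_two)) H.errX_nonneg
  have hδle : δ ≤ Real.exp (-L' * q) / 2 := by
    have h1 : δ * (2 * Real.exp (L' * q)) ≤ Kc * (q : ℝ) ^ M * ρ ^ q := by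
      calc δ * (2 * Real.exp (L' * q)) ≤ 2 ^ (n + 1) * errX n p P0 * (2 * Real.exp (L' * q)) := by
            refine mul_le_mul_of_nonneg_right (mul_le_mul_of_nonneg_right ?_ H.errX_nonneg) (by positivity)
            linarith
        _ = _ := by
            rw [hX, hsig, hn, hM, hKc, hρ, hM, Nat.cast_mul, Nat.cast_ofNat, mul_pow (30 : ℝ) (q : ℝ),
              pow_succ, pow_mul (2 : ℝ) 30 q, pow_mul (4 : ℝ) 30 q,
              mul_comm L' (q : ℝ), Real.exp_nat_mul]
            simp only [mul_pow, ← pow_mul, pow_add]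
            ring_nf
            rw [show ((8 : ℝ) ^ (q * 30)) = 2 ^ (q * 30) * 4 ^ (q * 30) by rw [← mul_pow]; norm_num]
            ring
    rw [le_div_iff₀ two_pos, neg_mul, Real.exp_neg, ← one_div, le_div_iff₀ (Real.exp_pos _)]
    linarith
  have hexp : Real.exp (-L' * q) ≤ Real.exp (-L * q) := by
    refine Real.exp_le_exp.2 ?_
    have := mul_le_mul_of_nonneg_right (le_max_left L 0) (Nat.cast_nonneg (α := ℝ) q)
    rw [← hL'] at this; linarith
  have hδ1 : δ ≤ 1 / 2 := by
    refine hδle.trans ?_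
    gcongr
    rw [Real.exp_le_one_iff]
    have : 0 ≤ L' * (q : ℝ) := mul_nonneg (le_max_right _ _) (Nat.cast_nonneg _)
    linarith
  calc Real.exp δ ≤ 1 / (1 - δ) := by
        rw [le_div_iff₀ (by linarith)]
        have h := Real.add_one_le_exp (-δ)
        rw [Real.exp_neg] at h
        have := mul_le_mul_of_nonneg_left h (Real.exp_pos δ).le
        rw [mul_inv_cancel₀ (Real.exp_pos δ).ne'] at this
        linarith
    _ ≤ 1 + 2 * δ := by
        rw [div_le_iff₀ (by linarith)]; nlinarith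
    _ ≤ _ := by linarith

end Vale.Agent.P047.Disproof
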