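import Vale.Agent.P047.Disproof.Cover
import Mathlib.MeasureTheory.Group.Integral
import Mathlib.Analysis.SpecificLimits.Normed
import Mathlib.Analysis.Complex.ExponentialBounds

/-!
Coverings of the torus of polynomials with small exponential sums, from the key theorem.

Every polynomial away from zero has a nearby centre on whose neighbourhood the energy is stable;
neighbourhoods of separated centres are packed in the Gaussian integral on the torus.
-/

namespace Vale.Agent.P047.Disproof

open MeasureTheory Filter Finset Set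
open scoped Topology

variable {n k : ℕ}

section circle

lemma norm_coe_le_abs_sub (a : ℝ) (z : ℤ) : ‖(a : UnitAddCircle)‖ ≤ |a - z| := by
  rw [UnitAddCircle.norm_eq]; exact round_le a z

lemma norm_coe_le_abs (a : ℝ) : ‖(a : UnitAddCircle)‖ ≤ |a| := by
  simpa using norm_coe_le_abs_sub a 0

/-- Every point of the circle has a representative of the same length. -/
lemma exists_short_lift (t : UnitAddCircle) : ∃ a : ℝ, (a : UnitAddCircle) = t ∧ |a| = ‖t‖ := by
  obtain ⟨a, rfl⟩ := QuotientAddGroup.mk_surjective t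
  refine ⟨a - round a, ?_, (UnitAddCircle.norm_eq (x := a)).symm⟩
  rw [QuotientAddGroup.eq_iff_sub_mem, AddSubgroup.mem_zmultiples_iff]
  exact ⟨-round a, by simp⟩

/-- A torus polynomial with tiny values has a real lift with the same tiny values. -/
lemma exists_small_lift : ∀ (n k : ℕ) (θ : Torus n k) (e : ℝ),
    (∀ x, ‖ev n k θ x‖ ≤ e) → (2 : ℝ) ^ k * e < 1 / 4 →
      ∃ u, toT n k u = θ ∧ ∀ x, |ev n k u x| ≤ e
  | n, 0, θ, e, h, _ => by
    have : IsEmpty (Idx n 0) := Fintype.card_eq_zero_iff.1 (card_idx_k_zero n)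
    refine ⟨0, Subsingleton.elim _ _, fun x => ?_⟩
    simpa using h x
  | 0, k + 1, θ, e, h, _ => by
    obtain ⟨a, ha, ha'⟩ := exists_short_lift (θ ())
    refine ⟨fun _ => a, funext fun i => ?_, fun x => ?_⟩
    · rw [show i = () from rfl]; exact ha
    · simpa [ha'] using h x
  | n + 1, k + 1, θ, e, h, he => by
    obtain ⟨a, D, rfl⟩ : ∃ a D, θ = Sum.elim a D := ⟨_, _, (Sum.elim_comp_inl_inr θ).symm⟩
    have ha : ∀ y, ‖ev n (k + 1) a y‖ ≤ e := fun y => by
      simpa using h (Fin.cons false y)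
    have hs : ∀ y, ‖ev n (k + 1) a y + ev n k D y‖ ≤ e := fun y => by
      simpa using h (Fin.cons true y)
    have hD : ∀ y, ‖ev n k D y‖ ≤ 2 * e := fun y => by
      rw [show ev n k D y = ev n (k + 1) a y + ev n k D y - ev n (k + 1) a y by abel, two_mul]
      exact (norm_sub_le _ _).trans (add_le_add (hs y) (ha y))
    obtain ⟨a', rfl, ha'⟩ := exists_small_lift n (k + 1) a e ha he
    obtain ⟨D', rfl, hD'⟩ :=
      exists_small_lift n k D (2 * e) hD (by rw [← mul_assoc, ← pow_succ]; exact he)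
    refine ⟨Sum.elim a' D', funext fun i => by cases i <;> rfl, fun x => ?_⟩
    obtain ⟨b, y, rfl⟩ : ∃ b y, x = Fin.cons b y := ⟨x 0, Fin.tail x, (Fin.cons_self_tail x).symm⟩
    cases b
    · simpa using ha' y
    · rw [ev_elim_true]
      have h3 : |ev n (k + 1) a' y + ev n k D' y| ≤ 3 * e :=
        (abs_add_le _ _).trans (by linarith [ha' y, hD' y])
      have he0 : 0 ≤ e := (abs_nonneg _).trans (ha' y)
      have h8 : 2 * e < 1 / 4 := by
        refine lt_of_le_of_lt ?_ he
        exact mul_le_mul_of_nonneg_right (le_self_pow₀ one_le_two (Nat.succ_ne_zero k)) he0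
      rw [← (AddCircle.norm_coe_eq_abs_iff (p := (1 : ℝ)) one_ne_zero).2
        (by rw [abs_one]; linarith), AddCircle.coe_add, ← ev_toT, ← ev_toT]
      exact hs y

lemma tenergy_le_two_pow (θ : Torus n k) : tenergy n k θ ≤ 2 ^ n := by
  refine le_trans (sum_le_sum fun x _ => (?_ : ‖ev n k θ x‖ ^ 2 ≤ (1 : ℝ))) (le_of_eq (by simp))
  obtain ⟨a, ha⟩ := QuotientAddGroup.mk_surjective (ev n k θ x)
  rw [← ha, UnitAddCircle.norm_eq]
  nlinarith [abs_sub_round a, abs_nonneg (a - round a)]

lemma tenergy_zero : tenergy n k 0 = 0 := by simp [tenergy]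

/-- The energy on the torus is below the energy of any shifted lift. -/
lemma tenergy_add_toT_le (P : Torus n k) (p : Cube n → ℝ)
    (hp : ∀ x, (p x : UnitAddCircle) = ev n k P x) (u : Idx n k → ℝ) :
    tenergy n k (P + toT n k u) ≤ ∑ x, (p x + ev n k u x) ^ 2 := by
  refine sum_le_sum fun x _ => ?_
  rw [ev_add, ev_toT, ← hp x, ← AddCircle.coe_add, ← sq_abs (p x + _)]
  exact pow_le_pow_left₀ (norm_nonneg _) (norm_coe_le_abs _) 2

end circle

section gauss

/-- Evaluation at a point is represented by a polynomial of squared length at most `N / 2 ^ n`. -/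
lemma exists_dual (n k : ℕ) (x : Cube n) : ∃ v : Idx n k → ℝ,
    (∀ u, ∑ y, ev n k u y * ev n k v y = ev n k u x) ∧
      energy n k v ≤ Fintype.card (Idx n k) / (2 : ℝ) ^ n := by
  let Φ : (Idx n k → ℝ) →ₗ[ℝ] Idx n k → ℝ :=
    LinearMap.pi fun i => ∑ y, evLin n k (Pi.single i 1) y • (LinearMap.proj y).comp (evLin n k)
  have hΦ : ∀ v i, Φ v i = ∑ y, ev n k (Pi.single i 1) y * ev n k v y := fun v i => by
    simp [Φ, LinearMap.sum_apply]
  have hexp : ∀ (u : Idx n k → ℝ) y,
      ev n k u y = ∑ i, u i * ev n k (Pi.single i 1) y := fun u y => by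
    conv_lhs => rw [pi_eq_sum_univ' u]
    rw [← evLin_apply, map_sum, Finset.sum_apply]
    exact sum_congr rfl fun i _ => by rw [map_smul]; rfl
  have hpair : ∀ u v, ∑ y, ev n k u y * ev n k v y = ∑ i, u i * Φ v i := fun u v => by
    simp only [hΦ, mul_sum]
    rw [sum_comm]
    refine sum_congr rfl fun y _ => ?_
    rw [hexp u y, sum_mul]
    exact sum_congr rfl fun i _ => by ring
  have hinj : Function.Injective Φ := by
    refine LinearMap.ker_eq_bot.1 (LinearMap.ker_eq_bot'.2 fun v hv => energy_eq_zero ?_)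
    simp only [energy, sq, hpair v v, hv, Pi.zero_apply, mul_zero, sum_const_zero]
  obtain ⟨v, hv⟩ := LinearMap.injective_iff_surjective.1 hinj fun i => ev n k (Pi.single i 1) x
  have h : ∀ u, ∑ y, ev n k u y * ev n k v y = ev n k u x := fun u => by
    rw [hpair, hv, hexp u x]
  refine ⟨v, h, ?_⟩
  have h1 : energy n k v = ev n k v x := by simp only [energy, sq]; exact h v
  have h2 := sq_ev_le n k v x
  rw [← h1] at h2
  have hnn : 0 ≤ energy n k v := sum_nonneg fun y _ => sq_nonneg _
  rcases hnn.eq_or_lt with h0 | h0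
  · rw [← h0]; positivity
  · exact le_of_mul_le_mul_right (by rwa [← sq]) h0

/-- Most of the Gaussian integral lives on the box. -/
lemma gauss_box_ge {c t : ℝ} (hc : 0 < c) (hk : 0 < Fintype.card (Idx n k)) (ht : 0 ≤ t) :
    (1 - 2 ^ (n + 1) * Real.exp (-(c * t ^ 2 / (Fintype.card (Idx n k) / (2 : ℝ) ^ n)))) * G n k c ≤
      ∫ u in box n k t, Real.exp (-c * energy n k u) := by
  set R : ℝ := Fintype.card (Idx n k) / (2 : ℝ) ^ n with hR
  have hR0 : 0 < R := div_pos (Nat.cast_pos.2 hk) (by positivity)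
  choose v hv hvR using exists_dual n k
  have hexp : ∀ x u (b : ℝ), energy n k (u + b • v x) =
      energy n k u + 2 * b * ev n k u x + b ^ 2 * energy n k (v x) := by
    intro x u b
    rw [← hv x u]
    simp only [energy, ev_add, ev_smul, mul_sum, ← sum_add_distrib]
    exact sum_congr rfl fun y _ => by ring
  set f := fun u : Idx n k → ℝ => Real.exp (-c * energy n k u) with hf
  set g := fun u => Real.exp (-(c * t ^ 2 / R)) *
    ∑ x, (f (u + (t / R) • v x) + f (u + (-(t / R)) • v x)) with hg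
  have hfi : Integrable f := integrable_gauss n k hc
  have hfi' : ∀ w, Integrable fun u => f (u + w) := fun w => hfi.comp_add_right w
  have hgi : Integrable g :=
    (integrable_finsetSum _ fun x _ => (hfi' _).add (hfi' _)).const_mul _
  have hg0 : ∀ u, 0 ≤ g u := fun u => by
    simp only [hg, hf]; positivity
  have hgint : ∫ u, g u = 2 ^ (n + 1) * Real.exp (-(c * t ^ 2 / R)) * G n k c := by
    simp only [hg]
    rw [integral_const_mul, integral_finsetSum _ fun x _ => (hfi' _).fun_add (hfi' _)]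
    simp_rw [integral_add (hfi' _) (hfi' _), integral_add_right_eq_self f]
    simp only [hf, integral_gauss n k hc]
    simp [pow_succ]
    ring
  have hpt : ∀ u ∈ (box n k t)ᶜ, f u ≤ g u := by
    intro u hu
    simp only [box, Set.mem_compl_iff, Set.mem_ofPred_eq, not_forall, not_le] at hu
    obtain ⟨x, hx⟩ := hu
    have hkey : ∀ b : ℝ, b ^ 2 = (t / R) ^ 2 → 2 * b * ev n k u x ≤ -(2 * (t / R) * t) →
        f u ≤ Real.exp (-(c * t ^ 2 / R)) * f (u + b • v x) := by
      intro b hb hb'
      simp only [hf]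
      rw [← Real.exp_add, Real.exp_le_exp, hexp, hb]
      have h1 : (t / R) ^ 2 * energy n k (v x) ≤ (t / R) ^ 2 * R :=
        mul_le_mul_of_nonneg_left (hvR x) (sq_nonneg _)
      have h2 : (t / R) ^ 2 * R = t / R * t := by field_simp
      have h3 : c * t ^ 2 / R = c * (t / R * t) := by ring
      rw [h3]
      nlinarith
    have htR : 0 ≤ t / R := div_nonneg ht hR0.le
    have hsingle : Real.exp (-(c * t ^ 2 / R)) * (f (u + (t / R) • v x) + f (u + (-(t / R)) • v x))
        ≤ g u := by
      simp only [hg]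
      refine mul_le_mul_of_nonneg_left ?_ (Real.exp_pos _).le
      exact single_le_sum (f := fun x => f (u + (t / R) • v x) + f (u + (-(t / R)) • v x))
        (fun y _ => by simp only [hf]; positivity) (Finset.mem_univ x)
    refine le_trans ?_ hsingle
    have p1 : 0 ≤ Real.exp (-(c * t ^ 2 / R)) * f (u + (t / R) • v x) := by
      simp only [hf]; positivity
    have p2 : 0 ≤ Real.exp (-(c * t ^ 2 / R)) * f (u + (-(t / R)) • v x) := by
      simp only [hf]; positivity
    rw [mul_add]
    rcases lt_abs.1 hx with h | h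
    · have := hkey (-(t / R)) (by ring)
        (by nlinarith [mul_le_mul_of_nonneg_left h.le htR])
      linarith
    · have := hkey (t / R) rfl (by nlinarith [mul_le_mul_of_nonneg_left h.le htR])
      linarith
  have hB : MeasurableSet (box n k t) := (isCompact_box t).isClosed.measurableSet
  have h1 : ∫ u in (box n k t)ᶜ, f u ≤ ∫ u, g u :=
    (setIntegral_mono_on hfi.integrableOn hgi.integrableOn hB.compl hpt).trans
      (setIntegral_le_integral hgi (.of_forall hg0))
  have h2 := integral_add_compl hB hfi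
  simp only [hf, integral_gauss n k hc] at h2
  simp only [hf, hgint] at h1
  linarith

/-- The Gaussian weight of a neighbourhood on the torus. -/
lemma setIntegral_nb_ge (P : Torus n k) {c t : ℝ} (hc : 0 < c) (ht : 2 * t < 1) :
    Real.exp (-c * tenergy n k P) * ∫ u in box n k t, Real.exp (-c * energy n k u) ≤
      ∫ θ in nb n k P t, Real.exp (-c * tenergy n k θ) := by
  rw [setIntegral_nb P ht (g := fun θ => Real.exp (-c * tenergy n k θ))
    (Real.continuous_exp.comp (continuous_const.mul continuous_tenergy))]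
  choose p hp hp' using fun x => exists_short_lift (ev n k P x)
  have hW : tenergy n k P = ∑ x, p x ^ 2 :=
    sum_congr rfl fun x _ => by rw [← hp' x, sq_abs]
  set f := fun u => Real.exp (-c * tenergy n k (P + toT n k u)) with hf
  set h := fun u : Idx n k → ℝ => Real.exp (-c * tenergy n k P) * Real.exp (-c * energy n k u)
    with hh
  have hfc : Continuous f := Real.continuous_exp.comp
    (continuous_const.mul (continuous_tenergy.comp (continuous_const.add continuous_toT)))
  have hhc : Continuous h :=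
    continuous_const.mul (Real.continuous_exp.comp (continuous_const.mul (continuous_energy n k)))
  have hK := isCompact_box (n := n) (k := k) t
  have hneg : ∫ u in box n k t, f (-u) = ∫ u in box n k t, f u := by
    have h' := (Measure.measurePreserving_neg (volume : Measure (Idx n k → ℝ))).setIntegral_preimage_emb
      (MeasurableEquiv.neg _).measurableEmbedding f (box n k t)
    have hpre : (fun u : Idx n k → ℝ => -u) ⁻¹' box n k t = box n k t := Set.ext fun u =>
      ⟨fun hu => by simpa using neg_mem_box hu, fun hu => neg_mem_box hu⟩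
    simpa [hpre] using h'
  have hpt : ∀ u, 2 * h u ≤ f u + f (-u) := by
    intro u
    set S := ∑ x, p x * ev n k u x with hS
    have hq : ∀ σ : ℝ, σ ^ 2 = 1 → tenergy n k (P + toT n k (σ • u)) ≤
        tenergy n k P + energy n k u + 2 * σ * S := by
      intro σ hσ
      refine (tenergy_add_toT_le P p hp _).trans (le_of_eq ?_)
      simp only [hW, energy, hS, mul_sum, ← sum_add_distrib, ev_smul]
      exact sum_congr rfl fun x _ => by rw [add_sq, mul_pow, hσ]; ring
    have h1 := hq 1 (by norm_num)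
    have h2 := hq (-1) (by norm_num)
    rw [one_smul] at h1
    rw [neg_one_smul] at h2
    have e1 : h u * Real.exp (-(2 * c * S)) ≤ f u := by
      simp only [hh, hf]
      rw [← Real.exp_add, ← Real.exp_add, Real.exp_le_exp]
      nlinarith [mul_le_mul_of_nonneg_left h1 hc.le]
    have e2 : h u * Real.exp (2 * c * S) ≤ f (-u) := by
      simp only [hh, hf]
      rw [← Real.exp_add, ← Real.exp_add, Real.exp_le_exp]
      nlinarith [mul_le_mul_of_nonneg_left h2 hc.le]
    have e3 : 2 ≤ Real.exp (-(2 * c * S)) + Real.exp (2 * c * S) := by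
      linarith [Real.add_one_le_exp (-(2 * c * S)), Real.add_one_le_exp (2 * c * S)]
    have e4 : 0 ≤ h u := by simp only [hh]; positivity
    nlinarith
  have hint : IntegrableOn f (box n k t) := hfc.continuousOn.integrableOn_compact hK
  have hint' : IntegrableOn (fun u => f (-u)) (box n k t) :=
    (hfc.comp continuous_neg).continuousOn.integrableOn_compact hK
  have key := setIntegral_mono_on (((continuous_const.mul hhc : Continuous fun u => 2 * h u)).continuousOn.integrableOn_compact hK)
    (hint.add hint') hK.isClosed.measurableSet fun u _ => hpt u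
  simp only [Pi.add_apply] at key
  rw [integral_add hint hint', hneg] at key
  simp only [Pi.mul_apply, hh, integral_const_mul] at key
  linarith

/-- Packing: separated centres away from zero share the Gaussian integral of the torus. -/
lemma packing {c s : ℝ} (hc : 0 < c) (hk : 0 < Fintype.card (Idx n k)) (hs : 0 ≤ s)
    (hs' : s ≤ 1 / 10) (F : Finset (Torus n k)) (h0 : ∀ P ∈ F, P ∉ nb n k 0 (1 / 10))
    (hF : ∀ P ∈ F, ∀ P' ∈ F, P ≠ P' → P' ∉ nb n k P s) :
    (1 - 2 ^ (n + 1) * Real.exp (-(c * (s / 2) ^ 2 / (Fintype.card (Idx n k) / (2 : ℝ) ^ n))))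
        * G n k c * (1 + ∑ P ∈ F, Real.exp (-c * tenergy n k P)) ≤
      ∫ θ : Torus n k, Real.exp (-c * tenergy n k θ) := by
  classical
  set f := fun θ : Torus n k => Real.exp (-c * tenergy n k θ) with hf
  have hfc : Continuous f := Real.continuous_exp.comp (continuous_const.mul continuous_tenergy)
  have hfi : Integrable f :=
    integrableOn_univ.1 (hfc.continuousOn.integrableOn_compact isCompact_univ)
  set T := insert 0 F with hT
  have hmem : (0 : Torus n k) ∉ F := fun h => h0 0 h (self_mem_nb 0 (by norm_num))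
  have hdisj : (T : Set (Torus n k)).Pairwise (Function.onFun Disjoint fun P => nb n k P (s / 2)) := by
    intro a ha b hb hab
    refine Set.disjoint_left.2 fun θ hθa hθb => ?_
    have hba : b ∈ nb n k a s := by
      simpa using mem_nb_trans (mem_nb_symm hθb) hθa
    rw [Finset.mem_coe, hT, Finset.mem_insert] at ha hb
    rcases ha with rfl | ha
    · exact h0 b (hb.resolve_left (Ne.symm hab)) (nb_mono 0 hs' hba)
    rcases hb with rfl | hb
    · exact h0 a ha (nb_mono 0 hs' (mem_nb_symm hba))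
    exact hF a ha b hb hab hba
  have h1 : ∑ P ∈ T, ∫ θ in nb n k P (s / 2), f θ ≤ ∫ θ, f θ := by
    rw [← integral_biUnion_finset T (fun P _ => measurableSet_nb P _) hdisj
      fun P _ => hfi.integrableOn]
    exact setIntegral_le_integral hfi (.of_forall fun θ => (Real.exp_pos _).le)
  refine le_trans ?_ h1
  have h2 : (1 : ℝ) + ∑ P ∈ F, Real.exp (-c * tenergy n k P) =
      ∑ P ∈ T, Real.exp (-c * tenergy n k P) := by
    rw [hT, sum_insert hmem, tenergy_zero]; simp
  rw [h2, mul_sum]
  refine sum_le_sum fun P _ => le_trans ?_ (setIntegral_nb_ge P hc (by linarith))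
  rw [mul_comm]
  exact mul_le_mul_of_nonneg_left (gauss_box_ge hc hk (by linarith)) (Real.exp_pos _).le

end gauss

section net

/-- The `i`-th radius. -/
noncomputable def netRad (i : ℕ) : ℝ := 1 / 20 / 5 ^ i

lemma netRad_pos (i : ℕ) : 0 < netRad i := by unfold netRad; positivity

lemma rad_anti {i j : ℕ} (h : i ≤ j) : netRad j ≤ netRad i := by
  unfold netRad; gcongr; norm_num

lemma rad_succ (i : ℕ) : 5 * netRad (i + 1) = netRad i := by
  unfold netRad; rw [pow_succ]; field_simp

lemma rad_succ_le (i : ℕ) : netRad (i + 1) ≤ 1 / 100 := by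
  refine (rad_anti (Nat.succ_le_succ (Nat.zero_le i))).trans ?_
  norm_num [netRad]

/-- A centre away from zero on whose neighbourhood the energy drops at most `K`-fold. -/
def IsCentre (n k : ℕ) (K s : ℝ) (P : Torus n k) : Prop :=
  P ∉ nb n k 0 (1 / 10) ∧ ∀ Q ∈ nb n k P (4 * s), tenergy n k P ≤ K * tenergy n k Q

/-- Outside the central neighbourhood every point is near a stable centre. -/
lemma exists_centre {q D : ℕ} (hq : 1 ≤ q) (hD : 9000 ≤ D)
    (θ : Torus (30 * q) (11 * q)) (hθ : θ ∉ nb (30 * q) (11 * q) 0 (1 / 5)) :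
    ∃ i, i ≤ q / 100 ∧ ∃ P ∈ nb (30 * q) (11 * q) θ (netRad (i + 1)),
      IsCentre (30 * q) (11 * q) (2 ^ D) (netRad (i + 1)) P := by
  set K : ℝ := 2 ^ D with hK
  have hK0 : 0 < K := by positivity
  choose P hP hmin using fun i => (isCompact_nb θ (netRad i)).exists_isMinOn
    ⟨θ, self_mem_nb θ (netRad_pos i).le⟩ (continuous_tenergy (n := 30 * q) (k := 11 * q)).continuousOn
  by_cases h : ∃ i, i ≤ q / 100 ∧
      tenergy _ _ (P (i + 1)) ≤ K * tenergy _ _ (P i)
  · obtain ⟨i, hi, hle⟩ := h
    refine ⟨i, hi, P (i + 1), hP _, ?_, fun Q hQ => hle.trans ?_⟩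
    · intro h0
      refine hθ (nb_mono 0 ?_ (mem_nb_trans (mem_nb_symm (hP (i + 1))) h0))
      linarith [rad_succ_le i]
    · refine mul_le_mul_of_nonneg_left (hmin i ?_) hK0.le
      exact nb_mono θ (le_of_eq (by linarith [rad_succ i])) (mem_nb_trans hQ (hP (i + 1)))
  · exfalso
    simp only [not_exists, not_and, not_le] at h
    have hgrow : ∀ j, j ≤ q / 100 + 1 → K ^ j * tenergy _ _ (P 0) ≤ tenergy _ _ (P j) := by
      intro j
      induction j with
      | zero => simp
      | succ j ih =>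
        intro hj
        rw [pow_succ', mul_assoc]
        exact (mul_le_mul_of_nonneg_left (ih (by omega)) hK0.le).trans (h j (by omega)).le
    set A : ℝ := 2 ^ (30 * q) with hA
    have hA0 : 0 < A := by positivity
    have hbig : A ^ 3 ≤ K ^ (q / 100 + 1) := by
      rw [hA, hK, ← pow_mul, ← pow_mul]
      refine pow_le_pow_right₀ one_le_two ?_
      have := Nat.mul_le_mul_right (q / 100 + 1) hD
      omega
    have hnn : 0 ≤ tenergy _ _ (P 0) := sum_nonneg fun _ _ => sq_nonneg _
    have hsmall : tenergy _ _ (P 0) ≤ (1 / A) ^ 2 := by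
      have h1 : A ^ 3 * tenergy _ _ (P 0) ≤ A :=
        ((mul_le_mul_of_nonneg_right hbig hnn).trans (hgrow _ le_rfl)).trans (tenergy_le_two_pow _)
      rw [div_pow, one_pow, le_div_iff₀ (by positivity)]
      nlinarith
    have hev : ∀ x, ‖ev (30 * q) (11 * q) (P 0) x‖ ≤ 1 / A := fun x =>
      (pow_le_pow_iff_left₀ (norm_nonneg _) (by positivity) two_ne_zero).1
        ((single_le_sum (f := fun x => ‖ev (30 * q) (11 * q) (P 0) x‖ ^ 2)
          (fun _ _ => sq_nonneg _) (Finset.mem_univ x)).trans hsmall)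
    have h4 : (2 : ℝ) ^ (11 * q) * (1 / A) < 1 / 4 := by
      rw [mul_one_div, div_lt_div_iff₀ hA0 (by norm_num), one_mul, hA,
        show (4 : ℝ) = 2 ^ 2 by norm_num, ← pow_add]
      exact pow_lt_pow_right₀ one_lt_two (by omega)
    obtain ⟨u, hu, hu'⟩ := exists_small_lift _ _ (P 0) (1 / A) hev h4
    have h0 : P 0 ∈ nb (30 * q) (11 * q) 0 (1 / A) := ⟨u, hu', by simp [hu]⟩
    refine hθ (nb_mono 0 ?_ (mem_nb_trans (mem_nb_symm (hP 0)) h0))
    have h8 : 1 / A ≤ 1 / 8 := by
      refine one_div_le_one_div_of_le (by norm_num) ?_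
      rw [hA, show (8 : ℝ) = 2 ^ 3 by norm_num]
      exact pow_le_pow_right₀ one_le_two (by omega)
    have : netRad 0 = 1 / 20 := by simp [netRad]
    linarith

/-- A maximal separated family of centres, from a bound on the sums over separated families. -/
lemma exists_maximal_family {K s B : ℝ} (hs : 0 ≤ s)
    (hB : ∀ F : Finset (Torus n k), (∀ P ∈ F, IsCentre n k K s P) →
      (∀ P ∈ F, ∀ P' ∈ F, P ≠ P' → P' ∉ nb n k P s) →
      ∑ P ∈ F, Real.exp (-1 * tenergy n k P) ≤ B) :
    ∃ F : Finset (Torus n k), (∀ P ∈ F, IsCentre n k K s P) ∧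
      (∀ P ∈ F, ∀ P' ∈ F, P ≠ P' → P' ∉ nb n k P s) ∧
      ∀ P, IsCentre n k K s P → ∃ P' ∈ F, P ∈ nb n k P' s := by
  classical
  set S := {j : ℕ | ∃ F : Finset (Torus n k), (∀ P ∈ F, IsCentre n k K s P) ∧
    (∀ P ∈ F, ∀ P' ∈ F, P ≠ P' → P' ∉ nb n k P s) ∧ F.card = j} with hS
  have hne : S.Nonempty := ⟨0, ∅, by simp⟩
  have hbdd : BddAbove S := by
    refine ⟨⌈B * Real.exp (2 ^ n)⌉₊, ?_⟩
    rintro j ⟨F, hF, hF', rfl⟩
    have h1 : F.card * Real.exp (-(2 : ℝ) ^ n) ≤ B := by
      refine le_trans ?_ (hB F hF hF')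
      rw [← nsmul_eq_mul]
      exact card_nsmul_le_sum _ _ _ fun P _ =>
        Real.exp_le_exp.2 (by linarith [tenergy_le_two_pow P])
    rw [Real.exp_neg, ← div_eq_mul_inv, div_le_iff₀ (Real.exp_pos _)] at h1
    exact_mod_cast h1.trans (Nat.le_ceil _)
  obtain ⟨F, hF, hF', hcard⟩ := Nat.sSup_mem hne hbdd
  refine ⟨F, hF, hF', fun P hP => ?_⟩
  by_cases hPF : P ∈ F
  · exact ⟨P, hPF, self_mem_nb P hs⟩
  by_contra hcon
  simp only [not_exists, not_and] at hcon
  have hmem : (insert P F).card ∈ S := by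
    refine ⟨insert P F, ?_, ?_, rfl⟩
    · intro Q hQ
      rcases Finset.mem_insert.1 hQ with rfl | hQ
      exacts [hP, hF Q hQ]
    · intro Q hQ Q' hQ' hne'
      rcases Finset.mem_insert.1 hQ with h | h <;> rcases Finset.mem_insert.1 hQ' with h' | h'
      · exact absurd (h.trans h'.symm) hne'
      · subst h; exact fun hh => hcon Q' h' (mem_nb_symm hh)
      · subst h'; exact hcon Q h
      · exact hF' Q h Q' h' hne'
  have := le_csSup hbdd hmem
  rw [← hcard, card_insert_of_notMem hPF] at this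
  omega

/-- The tail outside the smallest box is negligible. -/
lemma eventually_tail_le (L : ℝ) : ∀ᶠ q : ℕ in atTop, ∀ c : ℝ, ∀ i : ℕ,
    Real.exp (-(q : ℝ) / 2000) ≤ c → i ≤ q / 100 →
      2 ^ (30 * q + 1) * Real.exp (-(c * (netRad (i + 1) / 2) ^ 2 /
        (Fintype.card (Idx (30 * q) (11 * q)) / (2 : ℝ) ^ (30 * q)))) ≤ Real.exp (-L * q) := by
  set ρ : ℝ := 3 ^ 11 * (4 / 3) ^ 30 / 2 ^ 30 with hρ
  set b : ℝ := 1999 / 2000 / (31 / 30 * ρ) with hb
  have hb1 : 1 < b := by rw [hb, hρ]; norm_num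
  have hlim := tendsto_pow_const_div_const_pow_of_one_lt 1 hb1
  have hpos : (0 : ℝ) < 1 / ((31 + |L|) * 40000) := by positivity
  filter_upwards [hlim.eventually (eventually_lt_nhds hpos), eventually_ge_atTop 1]
    with q hq hq1 c i hc hi
  set R : ℝ := Fintype.card (Idx (30 * q) (11 * q)) / (2 : ℝ) ^ (30 * q) with hR
  have hR0 : 0 < R := by
    obtain ⟨j, hj⟩ : ∃ j, 11 * q = j + 1 := ⟨11 * q - 1, by omega⟩
    rw [hR, hj]
    exact div_pos (Nat.cast_pos.2 (card_idx_pos _ _)) (by positivity)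
  have hRle : R ≤ ρ ^ q := by
    rw [hR, hρ, div_pow, mul_pow, ← pow_mul, ← pow_mul, ← pow_mul]
    gcongr
    exact card_idx_le _ _
  have hc' : (1999 / 2000 : ℝ) ^ q ≤ c := by
    refine le_trans ?_ hc
    rw [show -(q : ℝ) / 2000 = q * (-1 / 2000) by ring, Real.exp_nat_mul]
    exact pow_le_pow_left₀ (by norm_num)
      (by linarith [Real.add_one_le_exp (-1 / 2000 : ℝ)]) q
  have hs : (1 / 40000 : ℝ) / (31 / 30) ^ q ≤ (netRad (i + 1) / 2) ^ 2 := by
    have h5 : (5 : ℝ) ^ i * 5 ^ i ≤ (31 / 30) ^ q := by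
      rw [← mul_pow]
      calc ((5 : ℝ) * 5) ^ i ≤ ((31 / 30 : ℝ) ^ 100) ^ i :=
            pow_le_pow_left₀ (by norm_num) (by norm_num) i
        _ ≤ _ := by
          rw [← pow_mul]
          exact pow_le_pow_right₀ (by norm_num) (by omega)
    have : (netRad (i + 1) / 2) ^ 2 = 1 / 40000 / (5 ^ i * 5 ^ i) := by
      rw [netRad, pow_succ (5 : ℝ)]; ring
    rw [this]
    gcongr
  have hc0 : 0 < c := (Real.exp_pos _).trans_le hc
  have hmain : b ^ q / 40000 ≤ c * (netRad (i + 1) / 2) ^ 2 / R := by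
    refine le_trans (le_of_eq ?_)
      (div_le_div₀ (by positivity) (mul_le_mul hc' hs (by positivity) hc0.le) hR0 hRle)
    rw [hb, div_pow, mul_pow]
    field_simp
  rw [pow_one, div_lt_div_iff₀ (by positivity) (by positivity), one_mul] at hq
  have hexp : (2 : ℝ) ^ (30 * q + 1) ≤ Real.exp (31 * q) := by
    refine (pow_le_pow_left₀ (by norm_num) (by linarith [Real.exp_one_gt_d9] :
      (2 : ℝ) ≤ Real.exp 1) _).trans ?_
    rw [← Real.exp_nat_mul, Real.exp_le_exp]
    have : (1 : ℝ) ≤ q := by exact_mod_cast hq1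
    push_cast
    linarith
  refine (mul_le_mul_of_nonneg_right hexp (Real.exp_pos _).le).trans ?_
  rw [← Real.exp_add, Real.exp_le_exp]
  clear_value b
  have h1 : L * q ≤ |L| * q := mul_le_mul_of_nonneg_right (le_abs_self L) (Nat.cast_nonneg q)
  have h2 : (31 + |L|) * q ≤ c * (netRad (i + 1) / 2) ^ 2 / R := by
    refine le_trans ?_ hmain
    rw [le_div_iff₀ (by norm_num)]
    linear_combination hq.le
  generalize c * (netRad (i + 1) / 2) ^ 2 / R = X at h2 ⊢
  linear_combination h2 + h1

end net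

/-- Coverings with arbitrarily small exponential sums exist, given the key theorem. -/
theorem coverExists (hKey : KeyTheorem) : CoverExists := by
  classical
  obtain ⟨D, hD⟩ : ∃ D : ℕ, 9000 ≤ D := ⟨9000, le_rfl⟩
  refine ⟨1 / 2 ^ D, by positivity,
    div_le_one_of_le₀ (one_le_pow₀ one_le_two) (by positivity), fun L => ?_⟩
  set M : ℝ := max L 0 + 2 with hM
  have hM2 : 2 ≤ M := by rw [hM]; linarith [le_max_right L 0]
  filter_upwards [hKey M, eventually_tail_le M, eventually_ge_atTop 3] with q hkey htail hq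
  set K : ℝ := 2 ^ D with hK
  set ε : ℝ := Real.exp (-M * q) with hε
  have hq' : (3 : ℝ) ≤ q := by exact_mod_cast hq
  have hε0 : 0 < ε := Real.exp_pos _
  have hε2 : ε ≤ 1 / 2 := by
    refine (Real.exp_le_exp.2 (?_ : -M * q ≤ -1)).trans ?_
    · nlinarith
    · rw [Real.exp_neg, inv_eq_one_div]
      exact one_div_le_one_div_of_le two_pos (by linarith [Real.exp_one_gt_d9])
  have hcard : 0 < Fintype.card (Idx (30 * q) (11 * q)) := by
    obtain ⟨j, hj⟩ : ∃ j, 11 * q = j + 1 := ⟨11 * q - 1, by omega⟩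
    rw [hj]; exact card_idx_pos _ _
  have hsum : ∀ i, i ≤ q / 100 → ∀ F : Finset (Torus (30 * q) (11 * q)),
      (∀ P ∈ F, IsCentre _ _ K (netRad (i + 1)) P) →
      (∀ P ∈ F, ∀ P' ∈ F, P ≠ P' → P' ∉ nb _ _ P (netRad (i + 1))) →
      ∀ c, Real.exp (-(q : ℝ) / 2000) ≤ c → c ≤ 1 →
        ∑ P ∈ F, Real.exp (-c * tenergy _ _ P) ≤ 4 * ε := by
    intro i hi F hF hF' c hc hc1
    have hc0 : 0 < c := (Real.exp_pos _).trans_le hc
    have h := (packing hc0 hcard (netRad_pos _).le ((rad_succ_le i).trans (by norm_num)) F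
      (fun P hP => (hF P hP).1) hF').trans (hkey c hc hc1)
    have hτ := htail c i hc hi
    generalize (2 : ℝ) ^ (30 * q + 1) * Real.exp _ = τ at h hτ
    rw [mul_right_comm] at h
    have h' := le_of_mul_le_mul_right h (G_pos _ _ hc0)
    have h0 : 0 ≤ ∑ P ∈ F, Real.exp (-c * tenergy _ _ P) := sum_nonneg fun _ _ => (Real.exp_pos _).le
    nlinarith
  have hone : Real.exp (-(q : ℝ) / 2000) ≤ 1 := Real.exp_le_one_iff.2 (by linarith)
  choose F hF hF' hmax using fun i : Fin (q / 100 + 1) => exists_maximal_family (netRad_pos _).le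
    fun F hF hF' => hsum i (Nat.lt_succ_iff.1 i.2) F hF hF' 1 hone le_rfl
  let ι := (i : Fin (q / 100 + 1)) × F i
  let e : Fin (Fintype.card ι) ≃ ι := (Fintype.equivFin ι).symm
  choose lift hlift using toT_surjective (n := 30 * q) (k := 11 * q)
  refine ⟨{
    m := Fintype.card ι
    P := fun j => lift (e j).2.1
    z := fun j x => round (ev _ _ (lift (e j).2.1) x)
    r := fun j => 2 * netRad ((e j).1 + 1)
    W := fun j => tenergy _ _ (e j).2.1
    near := fun j x => abs_sub_round _
    rad := fun j => ⟨by linarith [netRad_pos ((e j).1 + 1)], by linarith [rad_succ_le (e j).1]⟩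
    cover := fun θ => ?_
    sum_le := fun c hc hc1 => ?_
    lower := fun j u hu => ?_ }⟩
  · by_cases hθ : θ ∈ nb (30 * q) (11 * q) 0 (1 / 5)
    · exact Or.inl hθ
    obtain ⟨i, hi, P, hP, hPc⟩ := exists_centre (by omega) hD θ hθ
    obtain ⟨P', hP', hPP'⟩ := hmax ⟨i, Nat.lt_succ_iff.2 hi⟩ P hPc
    refine Or.inr ⟨e.symm ⟨⟨i, Nat.lt_succ_iff.2 hi⟩, ⟨P', hP'⟩⟩, ?_⟩
    rw [Equiv.apply_symm_apply, hlift, two_mul]
    exact mem_nb_trans (mem_nb_symm hP) hPP'
  · rw [e.sum_comp fun a : ι => Real.exp (-c * tenergy _ _ a.2.1), Fintype.sum_sigma]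
    refine (sum_le_sum fun i _ => (?_ : _ ≤ 4 * ε)).trans ?_
    · rw [sum_coe_sort (F i) fun P => Real.exp (-c * tenergy _ _ P)]
      exact hsum i (Nat.lt_succ_iff.1 i.2) (F i) (hF i) (hF' i) c hc hc1
    · rw [sum_const, Finset.card_univ, Fintype.card_fin, nsmul_eq_mul]
      have hI : ((q / 100 + 1 : ℕ) : ℝ) ≤ q + 1 := by
        exact_mod_cast Nat.succ_le_succ (Nat.div_le_self q 100)
      have h4 : 4 * ((q : ℝ) + 1) ≤ Real.exp (2 * q) := by
        rw [two_mul, Real.exp_add]
        nlinarith [Real.add_one_le_exp (q : ℝ)]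
      calc ((q / 100 + 1 : ℕ) : ℝ) * (4 * ε) ≤ Real.exp (2 * q) * ε := by nlinarith
        _ ≤ Real.exp (-L * q) := by
          rw [hε, ← Real.exp_add, Real.exp_le_exp, hM]
          nlinarith [le_max_left L 0]
  · have h1 := (hF (e j).1 _ (e j).2.2).2 _ (nb_mono _ (by linarith [netRad_pos ((e j).1 + 1)])
      (⟨u, hu, rfl⟩ : (e j).2.1 + toT _ _ u ∈ nb _ _ (e j).2.1 (2 * netRad ((e j).1 + 1))))
    rw [one_div, inv_mul_le_iff₀ (by positivity)]
    refine h1.trans (mul_le_mul_of_nonneg_left ?_ (by positivity))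
    refine (tenergy_add_toT_le _ (fun x => ev _ _ (lift (e j).2.1) x -
      round (ev _ _ (lift (e j).2.1) x)) (fun x => ?_) u).trans le_rfl
    rw [← hlift (e j).2.1, ev_toT, hlift]
    rw [QuotientAddGroup.eq_iff_sub_mem, AddSubgroup.mem_zmultiples_iff]
    exact ⟨-round (ev _ _ (lift (e j).2.1) x), by simp⟩

end Vale.Agent.P047.Disproof
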