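import Mathlib.Topology.ContinuousMap.Weierstrass
import Mathlib.Analysis.Complex.Exponential
import Mathlib.Analysis.SpecialFunctions.Trigonometric.Bounds
import Mathlib.Analysis.Real.Pi.Bounds
import Mathlib.Analysis.Complex.ExponentialBounds

/-!
A bounded polynomial shape close to the sign of a sine, and Taylor polynomials of the sine.
-/

namespace Vale.Agent.P047.Disproof

open Finset Polynomial

/-- The Taylor polynomial of the sine with terms below order `J`. -/
noncomputable def sinPoly (J : ℕ) : Polynomial ℝ :=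
  ∑ m ∈ range J, Polynomial.C ((Complex.I ^ m).im / (m.factorial : ℝ)) * Polynomial.X ^ m

lemma natDegree_sinPoly (J : ℕ) : (sinPoly J).natDegree ≤ J :=
  natDegree_sum_le_of_forall_le _ _ fun m hm =>
    (natDegree_C_mul_X_pow_le _ m).trans (mem_range.1 hm).le

lemma sinPoly_eval (J : ℕ) (z : ℝ) :
    (sinPoly J).eval z = (∑ m ∈ range J, ((z : ℂ) * Complex.I) ^ m / m.factorial).im := by
  rw [Complex.im_sum, sinPoly, eval_finsetSum]
  refine sum_congr rfl fun m _ => ?_
  rw [mul_pow, ← Complex.ofReal_pow, Complex.div_natCast_im, Complex.im_ofReal_mul]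
  simp only [eval_mul, eval_C, eval_pow, eval_X]
  ring

lemma sinPoly_error (J : ℕ) (z : ℝ) (hJ : 0 < J) (hz : 6 * |z| ≤ J) :
    |(sinPoly J).eval z - Real.sin z| ≤ 2 * (1 / 2) ^ J := by
  have hnorm : ‖(z : ℂ) * Complex.I‖ = |z| := by simp
  have hJr : (0 : ℝ) < J := by exact_mod_cast hJ
  have h1 : ‖(z : ℂ) * Complex.I‖ / (J.succ : ℝ) ≤ 1 / 2 := by
    rw [hnorm, div_le_iff₀ (by positivity)]
    push_cast
    linarith [abs_nonneg z]
  have h2 := Complex.exp_bound' h1
  rw [hnorm] at h2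
  have h3 : (Complex.exp ((z : ℂ) * Complex.I)).im = Real.sin z := Complex.exp_ofReal_mul_I_im z
  calc |(sinPoly J).eval z - Real.sin z|
      = |(Complex.exp ((z : ℂ) * Complex.I)
          - ∑ m ∈ range J, ((z : ℂ) * Complex.I) ^ m / m.factorial).im| := by
        rw [Complex.sub_im, ← sinPoly_eval, h3, abs_sub_comm]
    _ ≤ |z| ^ J / J.factorial * 2 := (Complex.abs_im_le_norm _).trans h2
    _ ≤ 2 * (1 / 2) ^ J := by
        have he : (J : ℝ) ^ J / J.factorial ≤ 3 ^ J := by
          refine (Real.pow_div_factorial_le_exp (J : ℝ) hJr.le J).trans ?_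
          rw [show Real.exp (J : ℝ) = Real.exp 1 ^ J by rw [← Real.exp_nat_mul, mul_one]]
          exact pow_le_pow_left₀ (Real.exp_pos 1).le (le_of_lt (by linarith [Real.exp_one_lt_d9])) J
        have h4 : |z| ^ J / J.factorial = (|z| / J) ^ J * ((J : ℝ) ^ J / J.factorial) := by
          rw [div_pow]; field_simp
        have h5 : (|z| / J) ^ J * 3 ^ J ≤ (1 / 2) ^ J := by
          rw [← mul_pow]
          refine pow_le_pow_left₀ (by positivity) ?_ J
          rw [div_mul_eq_mul_div, div_le_iff₀ hJr]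
          linarith
        rw [h4]
        nlinarith [mul_le_mul_of_nonneg_left he (show (0 : ℝ) ≤ (|z| / J) ^ J by positivity)]

/-- A polynomial `p` such that `p u` stays close to the clamped value of `u / δ`, also when `u`
is perturbed slightly. -/
lemma exists_shape (δ η : ℝ) (hη : 0 < η) :
    ∃ p : Polynomial ℝ, ∃ ζ : ℝ, 0 < ζ ∧ ∀ u t : ℝ, |u| ≤ 1 → |t - u| ≤ ζ →
      |p.eval t - max (-1) (min 1 (u / δ))| ≤ η := by
  obtain ⟨p, hp⟩ := exists_polynomial_near_of_continuousOn (-2) 2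
    (fun u => max (-1) (min 1 (u / δ))) (Continuous.continuousOn (by fun_prop)) (η / 2) (by linarith)
  have huc := (isCompact_Icc (a := (-2 : ℝ)) (b := 2)).uniformContinuousOn_of_continuous
    (f := fun t => p.eval t) p.continuous.continuousOn
  rw [Metric.uniformContinuousOn_iff] at huc
  obtain ⟨ζ, hζ, h⟩ := huc (η / 2) (by linarith)
  refine ⟨p, min (ζ / 2) 1, lt_min (by linarith) one_pos, fun u t hu ht => ?_⟩
  obtain ⟨hu1, hu2⟩ := abs_le.1 hu
  obtain ⟨ht1, ht2⟩ := abs_le.1 ht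
  have hmin1 := min_le_left (ζ / 2) (1 : ℝ)
  have hmin2 := min_le_right (ζ / 2) (1 : ℝ)
  have hu' : u ∈ Set.Icc (-2 : ℝ) 2 := ⟨by linarith, by linarith⟩
  have ht' : t ∈ Set.Icc (-2 : ℝ) 2 := ⟨by linarith, by linarith⟩
  have h2 := h t ht' u hu' (by rw [Real.dist_eq, abs_lt]; constructor <;> linarith)
  rw [Real.dist_eq] at h2
  have h3 := hp u hu'
  have := abs_sub_le (p.eval t) (p.eval u) (max (-1) (min 1 (u / δ)))
  linarith

/-- The pointwise loss of the clamped sine against the absolute value. -/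
lemma clamp_loss {η r : ℝ} (hη : 0 < η) (hr : 0 < r) (s v : ℝ)
    (hv : |v - max (-1) (min 1 (Real.sin (η / r * s) / (η ^ 2 / 2)))| ≤ η) (hη1 : η ≤ 1) :
    |s| - (η * |s| + 3 * η * r + 3 * η / r * s ^ 2) ≤ v * s := by
  set cl := max (-1) (min 1 (Real.sin (η / r * s) / (η ^ 2 / 2))) with hcl
  have hcl1 : |cl| ≤ 1 := by
    rw [hcl, abs_le]; exact ⟨le_max_left _ _, max_le (by norm_num) (min_le_left _ _)⟩
  obtain ⟨hv1, hv2⟩ := abs_le.1 hv
  obtain ⟨hc1, hc2⟩ := abs_le.1 hcl1
  have hs2 : 0 ≤ 3 * η / r * s ^ 2 := by positivity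
  have hs3 : 0 ≤ 3 * η * r := by positivity
  have hva : |v| ≤ 2 := by rw [abs_le]; constructor <;> linarith
  have hvs : -(2 * |s|) ≤ v * s := by
    have := abs_mul v s
    nlinarith [neg_abs_le (v * s), abs_nonneg s]
  rcases lt_or_ge |s| (η * r) with h | h
  · nlinarith [abs_nonneg s]
  rcases lt_or_ge (r / η) |s| with h' | h'
  · have h'' : 3 * |s| ≤ 3 * η / r * s ^ 2 := by
      rw [div_mul_eq_mul_div, le_div_iff₀ hr, ← sq_abs s]
      rw [div_lt_iff₀ hη] at h'
      nlinarith [abs_nonneg s]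
    nlinarith [abs_nonneg s]
  -- middle range
  have hθ1 : η / r * |s| ≤ 1 := by
    rw [le_div_iff₀ hη] at h'
    rw [div_mul_eq_mul_div, div_le_one hr]; linarith
  have hθ0 : η ^ 2 ≤ η / r * |s| := by
    rw [div_mul_eq_mul_div, le_div_iff₀ hr]; nlinarith
  have hsin : η ^ 2 / 2 ≤ Real.sin (η / r * |s|) := by
    have h3 := Real.mul_le_sin (x := η / r * |s|) (by positivity)
      (by linarith [Real.pi_gt_three])
    have h4 : (1 : ℝ) / 2 ≤ 2 / Real.pi := by
      rw [div_le_div_iff₀ two_pos Real.pi_pos]; linarith [Real.pi_le_four]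
    nlinarith [mul_le_mul h4 hθ0 (by positivity) (by positivity)]
  have hpos : (0 : ℝ) < η ^ 2 / 2 := by positivity
  rcases le_total 0 s with hs | hs
  · rw [abs_of_nonneg hs] at hsin ⊢
    have : cl = 1 := by
      rw [hcl, min_eq_left ((one_le_div hpos).2 hsin), max_eq_right (by norm_num)]
    nlinarith
  · rw [abs_of_nonpos hs] at hsin ⊢
    rw [mul_neg, Real.sin_neg] at hsin
    have h5 : Real.sin (η / r * s) / (η ^ 2 / 2) ≤ -1 := by
      rw [div_le_iff₀ hpos]; linarith
    have : cl = -1 := by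
      rw [hcl]; exact max_eq_left ((min_le_right _ _).trans h5)
    nlinarith

end Vale.Agent.P047.Disproof
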