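import Vale.Agent.P047.Basic
import Mathlib.Algebra.Group.ForwardDiff
import Mathlib.Data.Nat.Choose.Sum
import Mathlib.Data.Nat.Choose.Central
import Mathlib.Analysis.Real.Pi.Wallis
import Mathlib.Algebra.Order.Round

/-!
Symmetric functions on the cube: degree, first-level weight and moments of the coordinate sum.
-/

namespace Vale.Agent.P047.Disproof

open Finset

variable {n : ℕ}

/-- The number of true coordinates. -/
def ones (x : Cube n) : ℕ := (univ.filter fun i => x i = true).card

/-- The sum of the coordinates. -/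
def csum (x : Cube n) : ℝ := ∑ i, sgn (x i)

lemma csum_eq (x : Cube n) : csum x = 2 * (ones x : ℝ) - n := by
  have : ∀ i, sgn (x i) = 2 * (if x i = true then (1 : ℝ) else 0) - 1 := fun i => by
    cases x i <;> norm_num [sgn]
  simp only [csum, this, sum_sub_distrib, ← mul_sum, sum_boole, ones, sum_const, card_univ,
    Fintype.card_fin, nsmul_eq_mul, mul_one]

lemma ones_le (x : Cube n) : ones x ≤ n := by
  simpa [ones] using card_le_univ (univ.filter fun i => x i = true)

/-- A function independent of a coordinate in `S` has no coefficient at `S`. -/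
lemma fhat_eq_zero_of_indep (f : Cube n → ℝ) (S : Finset (Fin n)) {i : Fin n} (hi : i ∈ S)
    (hf : ∀ x b, f (Function.update x i b) = f x) : fhat f S = 0 := by
  have hinv : Function.Involutive fun x : Cube n => Function.update x i (!(x i)) := fun x => by
    simp
  have h : ∑ x, f x * chi S x = ∑ x, -(f x * chi S x) := by
    refine (Equiv.sum_comp hinv.toPerm fun x => f x * chi S x).symm.trans
      (sum_congr rfl fun x _ => ?_)
    show f (Function.update x i (!(x i))) * chi S (Function.update x i (!(x i))) = _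
    rw [hf, chi, chi, ← mul_prod_erase S (fun j => sgn (Function.update x i (!(x i)) j)) hi,
      ← mul_prod_erase S (fun j => sgn (x j)) hi]
    have : ∏ j ∈ S.erase i, sgn (Function.update x i (!(x i)) j) = ∏ j ∈ S.erase i, sgn (x j) :=
      prod_congr rfl fun j hj => by rw [Function.update_of_ne (ne_of_mem_erase hj)]
    rw [this, Function.update_self, sgn_not]
    ring
  rw [sum_neg_distrib] at h
  rw [fhat, show ∑ x, f x * chi S x = 0 by linarith, zero_div]

lemma DegLE.fsum {ι : Type*} (s : Finset ι) (F : ι → Cube n → ℝ) (c : ι → ℝ) {d : ℕ}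
    (h : ∀ j ∈ s, DegLE (F j) d) : DegLE (fun x => ∑ j ∈ s, c j * F j x) d := by
  intro S hS
  have : fhat (fun x => ∑ j ∈ s, c j * F j x) S = ∑ j ∈ s, c j * fhat (F j) S := by
    simp only [fhat, sum_mul, mul_div_assoc', mul_sum, mul_assoc]
    rw [sum_comm]
    rw [sum_div]
  rw [this]
  exact sum_eq_zero fun j hj => by rw [h j hj S hS, mul_zero]

lemma degLE_choose_ones {j d : ℕ} (hjd : j ≤ d) :
    DegLE (fun x : Cube n => ((ones x).choose j : ℝ)) d := by
  classical
  have hexp : (fun x : Cube n => ((ones x).choose j : ℝ)) = fun x =>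
      ∑ T ∈ (univ : Finset (Fin n)).powersetCard j,
        1 * (if T ⊆ univ.filter (fun i => x i = true) then (1 : ℝ) else 0) := by
    funext x
    simp only [one_mul, sum_boole]
    congr 1
    rw [ones, ← card_powersetCard]
    congr 1
    ext T
    simp [mem_powersetCard, and_comm]
  rw [hexp]
  refine DegLE.fsum _ _ _ fun T hT S hS => ?_
  have hTc : T.card = j := (mem_powersetCard.1 hT).2
  obtain ⟨i, hiS, hiT⟩ : ∃ i ∈ S, i ∉ T := by
    by_contra hcon
    push Not at hcon
    have := card_le_card (show S ⊆ T from hcon)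
    omega
  refine fhat_eq_zero_of_indep _ S hiS fun x b => ?_
  have : (T ⊆ univ.filter fun k => Function.update x i b k = true) ↔
      T ⊆ univ.filter fun k => x k = true := by
    simp only [subset_iff, mem_filter, mem_univ, true_and]
    refine forall₂_congr fun k hk => ?_
    rw [Function.update_of_ne (show k ≠ i from fun h => hiT (h ▸ hk))]
  simp only [this]

lemma level1_eq (f : Cube n → ℝ) : level1 f = (∑ x, f x * csum x) / 2 ^ n := by
  simp only [level1, fhat, chi, prod_singleton, csum, mul_sum, sum_div]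
  rw [sum_comm]

lemma sum_csum_sq : ∑ x : Cube n, csum x ^ 2 = n * 2 ^ n := by
  have hkl : ∀ k l : Fin n, ∑ x : Cube n, sgn (x k) * sgn (x l) =
      if k = l then (2 : ℝ) ^ n else 0 := by
    intro k l
    split_ifs with h
    · subst h; simp [sgn_mul_self]
    · have := fhat_eq_zero_of_indep (fun x => sgn (x l)) {k} (mem_singleton_self k)
        fun x b => by simp only [Function.update_of_ne (Ne.symm h)]
      rw [fhat, div_eq_zero_iff] at this
      rcases this with this | this
      · simpa [chi, mul_comm] using this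
      · exact absurd this (by positivity)
  simp only [sq, csum, sum_mul_sum]
  rw [sum_comm]
  simp only [sum_comm (s := (univ : Finset (Cube n))), hkl, sum_ite_eq, mem_univ, if_true,
    sum_const, card_univ, Fintype.card_fin, nsmul_eq_mul]

lemma sum_ones (h : ℕ → ℝ) :
    ∑ x : Cube n, h (ones x) = ∑ j ∈ range (n + 1), (n.choose j : ℝ) * h j := by
  classical
  let e : Cube n ≃ Finset (Fin n) :=
    { toFun := fun x => univ.filter fun i => x i = true
      invFun := fun s i => decide (i ∈ s)
      left_inv := fun x => by funext i; simp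
      right_inv := fun s => by ext i; simp }
  have h1 : ∑ x : Cube n, h (ones x) = ∑ s : Finset (Fin n), h s.card :=
    Fintype.sum_equiv e _ _ fun x => rfl
  rw [h1, ← powerset_univ, sum_powerset_apply_card]
  simp [nsmul_eq_mul]

/-- The mean absolute value of the coordinate sum. -/
lemma sum_abs_csum (m : ℕ) :
    ∑ x : Cube (2 * m), |csum x| = 2 * m * ((2 * m).choose m : ℝ) := by
  have hrec : ∀ j : ℕ, ((j + 1 : ℕ) : ℝ) * ((2 * m).choose (j + 1) : ℝ)
      = (((2 * m : ℕ) : ℝ) - j) * ((2 * m).choose j : ℝ) := by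
    intro j
    rcases le_or_gt j (2 * m) with hj | hj
    · have := Nat.choose_succ_right_eq (2 * m) j
      have h2 : ((((2 * m).choose (j + 1) * (j + 1) : ℕ)) : ℝ)
          = (((2 * m).choose j * (2 * m - j) : ℕ) : ℝ) := by exact_mod_cast this
      rw [Nat.cast_mul, Nat.cast_mul, Nat.cast_sub hj] at h2
      linear_combination h2
    · simp [Nat.choose_eq_zero_of_lt hj, Nat.choose_eq_zero_of_lt (hj.trans (Nat.lt_succ_self j))]
  set F : ℕ → ℝ := fun j => (j : ℝ) * ((2 * m).choose j : ℝ) with hF
  have htel : ∀ j, ((2 * m).choose j : ℝ) * (2 * (j : ℝ) - (2 * m : ℕ)) = -(F (j + 1) - F j) := by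
    intro j
    simp only [hF, hrec j]
    ring
  simp only [csum_eq]
  rw [sum_ones fun j => |2 * (j : ℝ) - (2 * m : ℕ)|,
    show 2 * m + 1 = m + (m + 1) by omega, sum_range_add]
  have h1 : ∀ j ∈ range m, ((2 * m).choose j : ℝ) * |2 * (j : ℝ) - (2 * m : ℕ)| = F (j + 1) - F j := by
    intro j hj
    have : (j : ℝ) ≤ m := by exact_mod_cast (mem_range.1 hj).le
    rw [abs_of_nonpos (by push_cast; linarith), mul_neg, htel, neg_neg]
  have h2 : ∀ j ∈ range (m + 1), ((2 * m).choose (m + j) : ℝ) *
      |2 * ((m + j : ℕ) : ℝ) - (2 * m : ℕ)| = -(F (m + j + 1) - F (m + j)) := by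
    intro j _
    rw [abs_of_nonneg (by push_cast; linarith [Nat.cast_nonneg (α := ℝ) j]), htel]
  have h4 : ∑ j ∈ range (m + 1), (F (m + j + 1) - F (m + j)) = F (m + (m + 1)) - F (m + 0) :=
    sum_range_sub (fun j => F (m + j)) (m + 1)
  rw [sum_congr rfl h1, sum_congr rfl h2, sum_range_sub F, sum_neg_distrib, h4]
  have h3 : F (m + (m + 1)) = 0 := by
    simp only [hF, Nat.choose_eq_zero_of_lt (show 2 * m < m + (m + 1) by omega), Nat.cast_zero,
      mul_zero]
  rw [h3]
  simp only [hF, add_zero, Nat.cast_zero, zero_mul]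
  ring

/-- Wallis lower bound for the mean absolute coordinate sum. -/
lemma mean_abs_csum_ge (m : ℕ) (hm : 0 < m) :
    √(2 / Real.pi) * √((2 * m : ℕ) : ℝ) * √((2 * m : ℝ) / (2 * m + 1))
      ≤ (∑ x : Cube (2 * m), |csum x|) / 2 ^ (2 * m) := by
  rw [sum_abs_csum, Nat.cast_mul, Nat.cast_two, ← Real.sqrt_mul (by positivity),
    ← Real.sqrt_mul (by positivity)]
  set c : ℝ := ((2 * m).choose m : ℝ) / 2 ^ (2 * m) with hc_def
  have hW := Real.Wallis.W_le m
  rw [Real.Wallis.W_eq_factorial_ratio] at hW
  have hfac : ((2 * m).choose m : ℝ) * ((m.factorial : ℝ) * m.factorial) = (2 * m).factorial := by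
    have := Nat.choose_mul_factorial_mul_factorial (show m ≤ 2 * m by omega)
    rw [show 2 * m - m = m by omega] at this
    rw [← mul_assoc]
    exact_mod_cast this
  have hcpos : 0 < c := by
    have := Nat.choose_pos (show m ≤ 2 * m by omega)
    positivity
  have hW' : 1 / (c ^ 2 * (2 * m + 1)) ≤ Real.pi / 2 := by
    refine le_trans (le_of_eq ?_) hW
    rw [← hfac, hc_def, show 4 * m = 2 * m + 2 * m by omega, pow_add]
    have hm0 : (m.factorial : ℝ) ≠ 0 := by positivity
    field_simp
  rw [div_le_div_iff₀ (by positivity) two_pos] at hW'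
  have key : 2 / (Real.pi * (2 * m + 1)) ≤ c ^ 2 := by
    rw [div_le_iff₀ (by positivity)]
    nlinarith
  rw [Real.sqrt_le_left (by positivity), mul_div_assoc (2 * (m : ℝ)), ← hc_def]
  calc 2 / Real.pi * (2 * (m : ℝ)) * (2 * m / (2 * m + 1))
      = (2 * (m : ℝ)) ^ 2 * (2 / (Real.pi * (2 * m + 1))) := by
        field_simp
    _ ≤ (2 * (m : ℝ)) ^ 2 * c ^ 2 := mul_le_mul_of_nonneg_left key (sq_nonneg _)
    _ = (2 * (m : ℝ) * c) ^ 2 := by ring

/-- An integer polynomial in the number of ones close to a given real polynomial. -/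
lemma exists_round (Q : Polynomial ℝ) {D : ℕ} (hD : Q.natDegree ≤ D) (hDn : D ≤ n) :
    ∃ Z : Cube n → ℤ, DegLE (fun x => (Z x : ℝ)) D ∧
      ∀ x, |(Z x : ℝ) - Q.eval (ones x : ℝ)| ≤ ((n : ℝ) + 1) ^ (D + 1) := by
  set f : ℕ → ℝ := fun y => Q.eval (y : ℝ) with hf
  set a : ℕ → ℝ := fun j => (fwdDiff (1 : ℕ))^[j] f 0 with ha
  have hfQ : ∀ (j : ℕ) (y : ℕ),
      (fwdDiff (1 : ℕ))^[j] f y = (fwdDiff (1 : ℝ))^[j] Q.eval (y : ℝ) := by
    intro j y
    rw [fwdDiff_iter_eq_sum_shift, fwdDiff_iter_eq_sum_shift]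
    refine sum_congr rfl fun k _ => ?_
    simp [hf]
  have hnewton : ∀ y : ℕ, y ≤ n → f y = ∑ j ∈ range (D + 1), (y.choose j : ℝ) * a j := by
    intro y _
    have hshift := shift_eq_sum_fwdDiff_iter (1 : ℕ) f y 0
    simp only [zero_add, smul_eq_mul, mul_one, nsmul_eq_mul] at hshift
    rw [hshift]
    set g : ℕ → ℝ := fun j => (y.choose j : ℝ) * a j
    have hz1 : ∀ j, y < j → g j = 0 := fun j hj => by simp [g, Nat.choose_eq_zero_of_lt hj]
    have hz2 : ∀ j, D < j → g j = 0 := fun j hj => by
      simp only [g, ha, hfQ, Polynomial.fwdDiff_iter_eq_zero_of_degree_lt (hD.trans_lt hj),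
        Pi.zero_apply, mul_zero]
    rcases le_total y D with h | h
    · exact sum_subset (range_mono (by omega)) fun j _ hj => hz1 j (by simpa using hj)
    · exact (sum_subset (range_mono (by omega)) fun j _ hj => hz2 j (by simpa using hj)).symm
  refine ⟨fun x => ∑ j ∈ range (D + 1), round (a j) * ((ones x).choose j : ℤ), ?_, fun x => ?_⟩
  · have heq : (fun x : Cube n => ((∑ j ∈ range (D + 1),
        round (a j) * ((ones x).choose j : ℤ) : ℤ) : ℝ))
        = fun x => ∑ j ∈ range (D + 1), ((round (a j) : ℤ) : ℝ) * ((ones x).choose j : ℝ) := by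
      funext x; push_cast; rfl
    rw [heq]
    exact DegLE.fsum _ _ _ fun j hj => degLE_choose_ones (by simpa [Nat.lt_succ_iff] using hj)
  · show |((∑ j ∈ range (D + 1), round (a j) * ((ones x).choose j : ℤ) : ℤ) : ℝ) - f (ones x)| ≤ _
    rw [hnewton _ (ones_le x)]
    push_cast
    rw [← sum_sub_distrib]
    refine (abs_sum_le_sum_abs _ _).trans ?_
    have hterm : ∀ j ∈ range (D + 1), |((round (a j) : ℤ) : ℝ) * ((ones x).choose j : ℝ)
        - ((ones x).choose j : ℝ) * a j| ≤ ((n : ℝ) + 1) ^ D := by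
      intro j hj
      rw [show ((round (a j) : ℤ) : ℝ) * ((ones x).choose j : ℝ) - ((ones x).choose j : ℝ) * a j
        = ((ones x).choose j : ℝ) * ((round (a j) : ℤ) - a j) by ring, abs_mul, Nat.abs_cast]
      have h1 : |((round (a j) : ℤ) : ℝ) - a j| ≤ 1 := by
        rw [abs_sub_comm]; linarith [abs_sub_round (a j)]
      have h2 : ((ones x).choose j : ℝ) ≤ ((n : ℝ) + 1) ^ D := by
        calc ((ones x).choose j : ℝ) ≤ ((n + 1) ^ j : ℕ) := by
              exact_mod_cast (Nat.choose_le_pow (ones x) j).trans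
                (Nat.pow_le_pow_left ((ones_le x).trans (Nat.le_succ n)) j)
          _ ≤ ((n : ℝ) + 1) ^ D := by
              push_cast
              exact pow_le_pow_right₀ (by linarith [Nat.cast_nonneg (α := ℝ) n])
                (by simpa [Nat.lt_succ_iff] using hj)
      calc ((ones x).choose j : ℝ) * |((round (a j) : ℤ) : ℝ) - a j|
          ≤ ((ones x).choose j : ℝ) * 1 := mul_le_mul_of_nonneg_left h1 (Nat.cast_nonneg _)
        _ ≤ _ := by rw [mul_one]; exact h2
    refine (sum_le_sum hterm).trans ?_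
    rw [sum_const, card_range, nsmul_eq_mul, pow_succ']
    exact mul_le_mul_of_nonneg_right (by exact_mod_cast Nat.succ_le_succ hDn) (by positivity)

end Vale.Agent.P047.Disproof
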