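import Vale.Agent.P047.Disproof.Defs
import Vale.Agent.P047.Disproof.StartCube
import Vale.Agent.P047.Disproof.StartApprox

/-!
Part D: an integer-valued polynomial of small range and degree, close to majority.

With `r = √n` and a fixed polynomial `p` close to a clamped step, the function
`p (T (η s / r))`, where `T` is a Taylor polynomial of the sine of order `O(√n)`, is bounded and
close to the sign of the coordinate sum `s`, and has degree `O(√n)`. Rounding its Newton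
coefficients costs only `exp (o(q))`.
-/

namespace Vale.Agent.P047.Disproof

open Finset Filter Polynomial

/-- Logarithms are dominated by fourth roots. -/
lemma log_le_four_mul_sqrt_sqrt {x : ℝ} (hx : 1 ≤ x) : Real.log x ≤ 4 * √√x := by
  have h0 : 0 < x := by linarith
  have h1 : Real.log x = 4 * Real.log (√√x) := by
    rw [Real.log_sqrt (Real.sqrt_nonneg x), Real.log_sqrt h0.le]; ring
  have h2 := Real.log_le_sub_one_of_pos (show 0 < √√x by positivity)
  linarith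

/-- The size condition `(n + 1) ^ O(√q) ≤ η 2 ^ ⌊ε q⌋`. -/
lemma eventually_range_bound (ε η : ℝ) (hε : 0 < ε) (hη : 0 < η) (d : ℕ) :
    ∀ᶠ q : ℕ in atTop, ∀ D : ℕ, (D : ℝ) ≤ d * √(q : ℝ) →
      4 * (((30 * q : ℕ) : ℝ) + 1) ^ (D + 1) ≤ η * 2 ^ ⌊ε * q⌋₊ := by
  set K : ℝ := |Real.log (4 / η)| + 12 * (d + 1) + 1 with hK
  have ht : Tendsto (fun q : ℕ => √√(q : ℝ)) atTop atTop :=
    Real.tendsto_sqrt_atTop.comp (Real.tendsto_sqrt_atTop.comp tendsto_natCast_atTop_atTop)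
  filter_upwards [ht.eventually_ge_atTop (2 * K / ε), eventually_ge_atTop 1] with q htK hq D hD
  have hq1 : (1 : ℝ) ≤ q := by exact_mod_cast hq
  set t := √√(q : ℝ) with htdef
  have ht2 : t ^ 2 = √(q : ℝ) := Real.sq_sqrt (Real.sqrt_nonneg _)
  have ht4 : t ^ 4 = (q : ℝ) := by
    rw [show t ^ 4 = (t ^ 2) ^ 2 by ring, ht2, Real.sq_sqrt (by linarith)]
  have ht1 : 1 ≤ t := Real.one_le_sqrt.2 (Real.one_le_sqrt.2 hq1)
  have hn : ((30 * q : ℕ) : ℝ) + 1 ≤ 81 * q := by push_cast; linarith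
  have hn1 : (1 : ℝ) ≤ ((30 * q : ℕ) : ℝ) + 1 := by simp
  have hlog : Real.log (((30 * q : ℕ) : ℝ) + 1) ≤ 12 * t := by
    refine (log_le_four_mul_sqrt_sqrt hn1).trans ?_
    have h9 : √√(81 * (q : ℝ)) = 3 * t := by
      rw [Real.sqrt_mul (by norm_num), show (81 : ℝ) = 9 ^ 2 by norm_num,
        Real.sqrt_sq (by norm_num), Real.sqrt_mul (by norm_num), show (9 : ℝ) = 3 ^ 2 by norm_num,
        Real.sqrt_sq (by norm_num)]
    have := Real.sqrt_le_sqrt (Real.sqrt_le_sqrt hn)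
    rw [h9] at this
    linarith
  have hlog0 : 0 ≤ Real.log (((30 * q : ℕ) : ℝ) + 1) := Real.log_nonneg hn1
  have hfl := Nat.lt_floor_add_one (ε * q)
  have hlog2 : (1 : ℝ) / 2 ≤ Real.log 2 := by linarith [Real.log_two_gt_d9]
  have hlog2' : Real.log 2 ≤ 1 := by linarith [Real.log_two_lt_d9]
  rw [div_le_iff₀ hε] at htK
  have hD1 : (D : ℝ) + 1 ≤ (d + 1) * t ^ 2 := by
    rw [← ht2] at hD; nlinarith
  have hmain : Real.log (4 / η) + ((D : ℝ) + 1) * Real.log (((30 * q : ℕ) : ℝ) + 1)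
      ≤ (⌊ε * q⌋₊ : ℝ) * Real.log 2 := by
    have h1 : ((D : ℝ) + 1) * Real.log (((30 * q : ℕ) : ℝ) + 1) ≤ 12 * (d + 1) * t ^ 3 :=
      calc _ ≤ ((d + 1) * t ^ 2) * (12 * t) := mul_le_mul hD1 hlog hlog0 (by positivity)
        _ = _ := by ring
    have ht3 : 1 ≤ t ^ 3 := one_le_pow₀ ht1
    have h2 : |Real.log (4 / η)| + 1 ≤ (|Real.log (4 / η)| + 1) * t ^ 3 :=
      le_mul_of_one_le_right (by positivity) ht3
    have h3 : K * t ^ 3 ≤ ε * t ^ 4 / 2 := by
      have := mul_le_mul_of_nonneg_left htK (show (0 : ℝ) ≤ t ^ 3 by positivity)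
      nlinarith
    have h4 : (ε * q - 1) * Real.log 2 ≤ (⌊ε * q⌋₊ : ℝ) * Real.log 2 :=
      mul_le_mul_of_nonneg_right (by linarith) (by linarith)
    have h5 : ε * t ^ 4 / 2 - 1 ≤ (ε * q - 1) * Real.log 2 := by
      rw [← ht4, sub_mul, one_mul]
      have := mul_le_mul_of_nonneg_left hlog2 (show (0 : ℝ) ≤ ε * t ^ 4 by positivity)
      linarith
    have h6 := le_abs_self (Real.log (4 / η))
    rw [hK] at h3
    nlinarith
  have hexp := Real.exp_le_exp.2 hmain
  rw [Real.exp_add, Real.exp_log (by positivity), Real.exp_nat_mul _ ⌊ε * q⌋₊,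
    Real.exp_log two_pos, show ((D : ℝ) + 1) = ((D + 1 : ℕ) : ℝ) by push_cast; ring,
    Real.exp_nat_mul, Real.exp_log (by positivity), div_mul_eq_mul_div, div_le_iff₀ hη] at hexp
  linarith

/-- One point of the first-level bound. -/
lemma pointwise_loss {η r s v w : ℝ} (hη : 0 < η) (hη3 : 3 * η ≤ 1) (hr : 0 < r)
    (hv : |v - max (-1) (min 1 (Real.sin (η / r * s) / (η ^ 2 / 2)))| ≤ η)
    (hw : |w - (1 - 3 * η) * v| ≤ η) :
    (1 - 3 * η) * |s| - 5 * η * r - 5 * η / r * s ^ 2 ≤ w * s := by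
  have h2 := clamp_loss hη hr s v hv (by linarith)
  have h3 : -(η * |s|) ≤ (w - (1 - 3 * η) * v) * s := by
    refine le_trans ?_ (neg_abs_le _)
    rw [abs_mul]
    exact neg_le_neg (mul_le_mul_of_nonneg_right hw (abs_nonneg _))
  have habs : |s| ≤ (r + s ^ 2 / r) / 2 := by
    have h1 : r + |s| ^ 2 / r - 2 * |s| = (|s| - r) ^ 2 / r := by field_simp; ring
    have := div_nonneg (sq_nonneg (|s| - r)) hr.le
    rw [← sq_abs s]
    linarith
  have h4 : (1 - 3 * η) * (|s| - (η * |s| + 3 * η * r + 3 * η / r * s ^ 2))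
      ≤ (1 - 3 * η) * (v * s) := mul_le_mul_of_nonneg_left h2 (by linarith)
  have h5 : η * |s| ≤ η * ((r + s ^ 2 / r) / 2) := mul_le_mul_of_nonneg_left habs hη.le
  have h7 : 0 ≤ η / r * s ^ 2 := by positivity
  have h8 : 0 ≤ η * r := by positivity
  have h9 : (1 - 3 * η) * (η * |s| + 3 * η * r + 3 * η / r * s ^ 2)
      ≤ η * |s| + 3 * η * r + 3 * η / r * s ^ 2 :=
    mul_le_of_le_one_left (by positivity) (by linarith)
  have h12 : η * ((r + s ^ 2 / r) / 2) = (η * r + η / r * s ^ 2) / 2 := by ring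
  simp only [mul_div_assoc] at h4 h9 ⊢
  linarith only [h3, h4, h5, h7, h8, h9, h12]

/-- The first-level bound with explicit loss. -/
lemma level1_lower_aux {q : ℕ} {η : ℝ} (hη : 0 < η) (hη20 : 20 * η ≤ 1) (hqη : 1 ≤ η * q)
    (v : Cube (30 * q) → ℝ)
    (hv : ∀ x : Cube (30 * q), |v x - max (-1) (min 1 (Real.sin (η / √((30 * q : ℕ) : ℝ) * csum x)
      / (η ^ 2 / 2)))| ≤ η)
    (w : Cube (30 * q) → ℝ) (hw : ∀ x, |w x - (1 - 3 * η) * v x| ≤ η) :
    (1 - 20 * η) * √(60 * q / Real.pi) ≤ level1 w := by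
  have hq : (0 : ℝ) < q := by nlinarith [Nat.cast_nonneg (α := ℝ) q]
  have hq' : 0 < q := by exact_mod_cast hq
  set n : ℕ := 30 * q with hn
  set r : ℝ := √(n : ℝ) with hr
  have hnr : (n : ℝ) = 30 * q := by rw [hn]; push_cast; ring
  have hr0 : 0 < r := by rw [hr]; exact Real.sqrt_pos.2 (by rw [hnr]; positivity)
  have hr2 : r ^ 2 = n := by rw [hr]; exact Real.sq_sqrt (Nat.cast_nonneg n)
  rw [level1_eq, le_div_iff₀ (by positivity : (0 : ℝ) < 2 ^ n)]
  refine le_trans ?_ (Finset.sum_le_sum fun x _ =>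
    pointwise_loss hη (by linarith) hr0 (hv x) (hw x))
  simp only [Finset.sum_sub_distrib, ← Finset.mul_sum, Finset.sum_const, Finset.card_univ,
    Fintype.card_fun, Fintype.card_bool, Fintype.card_fin, nsmul_eq_mul, sum_csum_sq,
    Nat.cast_pow, Nat.cast_ofNat]
  have hmean := mean_abs_csum_ge (15 * q) (by omega)
  rw [show 2 * (15 * q) = n by omega, le_div_iff₀ (by positivity : (0 : ℝ) < 2 ^ n), ← hr]
    at hmean
  have hsqrt : 1 - η ≤ √((2 * ((15 * q : ℕ) : ℝ)) / (2 * ((15 * q : ℕ) : ℝ) + 1)) := by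
    refine (Real.le_sqrt (by linarith) (by positivity)).2 ?_
    rw [le_div_iff₀ (by positivity)]
    have h2 : (1 - η) ^ 2 ≤ 1 - η := by nlinarith
    push_cast
    nlinarith [mul_le_mul_of_nonneg_right h2 (show (0 : ℝ) ≤ 30 * q + 1 by positivity)]
  have hc : (3 : ℝ) / 4 ≤ √(2 / Real.pi) := by
    refine (Real.le_sqrt (by norm_num) (by positivity)).2 ?_
    rw [le_div_iff₀ Real.pi_pos]
    nlinarith [Real.pi_lt_d2]
  have htarget : √(60 * q / Real.pi) = √(2 / Real.pi) * r := by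
    rw [hr, ← Real.sqrt_mul (by positivity), hnr]; congr 1; ring
  rw [htarget]
  have hnR : 5 * η / r * ((n : ℝ) * 2 ^ n) = 5 * η * r * 2 ^ n := by
    rw [← hr2]; field_simp
  rw [hnR]
  have h2n : (0 : ℝ) < 2 ^ n := by positivity
  have hA : √(2 / Real.pi) * r * (1 - η) * 2 ^ n ≤ ∑ x : Cube n, |csum x| :=
    le_trans (mul_le_mul_of_nonneg_right
      (mul_le_mul_of_nonneg_left hsqrt (by positivity)) h2n.le) hmean
  have hC : (1 - 3 * η) * (√(2 / Real.pi) * r * (1 - η) * 2 ^ n)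
      ≤ (1 - 3 * η) * ∑ x : Cube n, |csum x| :=
    mul_le_mul_of_nonneg_left hA (by linarith)
  have hd : 10 * η ≤ 16 * η * √(2 / Real.pi) := by
    linarith [mul_le_mul_of_nonneg_left hc (show 0 ≤ 16 * η by linarith)]
  have hE := mul_le_mul_of_nonneg_right hd (show (0 : ℝ) ≤ r * 2 ^ n by positivity)
  have hF : 0 ≤ 3 * η * η * (√(2 / Real.pi) * r * 2 ^ n) := by positivity
  linarith only [hC, hE, hF]

/-- The first-level bound for a function close to a scaled shape. -/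
lemma level1_lower {q : ℕ} {η ε ε₀ : ℝ} (hη : 0 < η) (hη20 : 20 * η ≤ 1) (hηε : 20 * η ≤ ε)
    (hεle : ε ≤ ε₀) (hqη : 1 ≤ η * q) (v : Cube (30 * q) → ℝ)
    (hv : ∀ x : Cube (30 * q), |v x - max (-1) (min 1 (Real.sin (η / √((30 * q : ℕ) : ℝ) * csum x)
      / (η ^ 2 / 2)))| ≤ η)
    (w : Cube (30 * q) → ℝ) (hw : ∀ x, |w x - (1 - 3 * η) * v x| ≤ η) :
    (1 - ε₀) * √(60 * q / Real.pi) ≤ level1 w :=
  le_trans (mul_le_mul_of_nonneg_right (by linarith) (Real.sqrt_nonneg _))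
    (level1_lower_aux hη hη20 hqη v hv w hw)

/-- Part D of the disproof. -/
theorem startFunction : StartFunction := by
  intro ε₀ hε₀
  obtain ⟨ε, hε, hεle, hε1⟩ : ∃ ε, 0 < ε ∧ ε ≤ ε₀ ∧ ε ≤ 1 :=
    ⟨min ε₀ 1, lt_min hε₀ one_pos, min_le_left _ _, min_le_right _ _⟩
  obtain ⟨η, hη, hηε, hη1⟩ : ∃ η, 0 < η ∧ 20 * η ≤ ε ∧ η ≤ 1 :=
    ⟨ε / 20, by linarith, by linarith, by linarith⟩
  obtain ⟨p, ζ, hζ, hp⟩ := exists_shape (η ^ 2 / 2) η hη
  set dp := p.natDegree with hdp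
  have hsq : Tendsto (fun q : ℕ => √(q : ℝ)) atTop atTop :=
    Real.tendsto_sqrt_atTop.comp tendsto_natCast_atTop_atTop
  obtain ⟨J₀, hJ₀⟩ := exists_pow_lt_of_lt_one (show (0 : ℝ) < ζ / 2 by linarith)
    (show (1 : ℝ) / 2 < 1 by norm_num)
  filter_upwards [eventually_range_bound ε η hε hη (42 * (dp + 1)),
    hsq.eventually_ge_atTop (3 * ((dp : ℝ) + 1)), eventually_ge_atTop (J₀ ^ 2 + 1),
    eventually_ge_atTop ⌈3 / ε⌉₊, eventually_ge_atTop ⌈1 / η⌉₊] with q hrange hbig hqJ hq3 hqη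
  have hq0 : 0 < q := by omega
  have hqr : (0 : ℝ) < q := by exact_mod_cast hq0
  set n : ℕ := 30 * q with hn
  set r : ℝ := √(n : ℝ) with hr
  have hnr : (n : ℝ) = 30 * q := by rw [hn]; push_cast; ring
  have hr0 : 0 < r := by rw [hr]; exact Real.sqrt_pos.2 (by rw [hnr]; positivity)
  have hr2 : r ^ 2 = n := by rw [hr]; exact Real.sq_sqrt (Nat.cast_nonneg n)
  have hr6 : r ≤ 6 * √(q : ℝ) := by
    rw [hr, Real.sqrt_le_left (by positivity), mul_pow, Real.sq_sqrt hqr.le, hnr]; linarith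
  have hsq1 : 1 ≤ √(q : ℝ) := by linarith [Nat.cast_nonneg (α := ℝ) dp]
  set J : ℕ := ⌈6 * r⌉₊ with hJ
  have hJ1 : 6 * r ≤ J := Nat.le_ceil _
  have hJpos : 0 < J := Nat.ceil_pos.2 (by positivity)
  have hJle : (J : ℝ) ≤ 42 * √(q : ℝ) := by
    have := Nat.ceil_lt_add_one (show (0 : ℝ) ≤ 6 * r by positivity)
    rw [← hJ] at this
    linarith
  have hJJ₀ : J₀ ≤ J := by
    have h1 : (J₀ : ℝ) ^ 2 ≤ r ^ 2 := by
      rw [hr2]; exact_mod_cast (show J₀ ^ 2 ≤ n by omega)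
    have h2 := pow_le_pow_iff_left₀ (Nat.cast_nonneg J₀) hr0.le two_ne_zero |>.1 h1
    exact_mod_cast (show (J₀ : ℝ) ≤ J by linarith)
  -- the real polynomial in the number of ones
  set i : ℕ := ⌊ε * q⌋₊ with hi
  set M : ℝ := 2 ^ i with hM
  have hMpos : 0 < M := by rw [hM]; positivity
  set P : Polynomial ℝ := p.comp ((sinPoly J).comp
    (Polynomial.C (η / r * 2) * Polynomial.X + Polynomial.C (-(η / r * n)))) with hP
  set Q : Polynomial ℝ := Polynomial.C ((1 - 3 * η) * M / 4) * P + Polynomial.C (-1 / 2) with hQ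
  set D : ℕ := dp * J with hD
  have hQdeg : Q.natDegree ≤ D := by
    rw [hQ, natDegree_add_C]
    refine (natDegree_C_mul_le _ _).trans ?_
    rw [hP, natDegree_comp, natDegree_comp]
    refine Nat.mul_le_mul_left dp ?_
    calc (sinPoly J).natDegree * _ ≤ J * 1 :=
          Nat.mul_le_mul (natDegree_sinPoly J) (natDegree_linear_le)
      _ = J := mul_one J
  have hDr : (D : ℝ) ≤ ((42 * (dp + 1) : ℕ) : ℝ) * √(q : ℝ) := by
    rw [hD]; push_cast
    have := mul_le_mul_of_nonneg_left hJle (Nat.cast_nonneg (α := ℝ) dp)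
    nlinarith
  have hD19 : D ≤ 19 * q := by
    have h1 : (D : ℝ) ≤ 19 * q := by
      have h2 := mul_le_mul_of_nonneg_right hbig (Real.sqrt_nonneg (q : ℝ))
      rw [Real.mul_self_sqrt hqr.le] at h2
      push_cast at hDr
      linarith
    exact_mod_cast h1
  obtain ⟨Z, hZdeg, hZ⟩ := exists_round (n := n) Q hQdeg (by omega)
  set v : Cube n → ℝ := fun x => P.eval (ones x : ℝ) with hv
  have hQv : ∀ x : Cube n, Q.eval (ones x : ℝ) = (1 - 3 * η) * M / 4 * v x - 1 / 2 := fun x => by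
    simp [hQ, hv]; ring
  have happrox : ∀ x : Cube n,
      |v x - max (-1) (min 1 (Real.sin (η / r * csum x) / (η ^ 2 / 2)))| ≤ η := by
    intro x
    have hPx : v x = p.eval ((sinPoly J).eval (η / r * csum x)) := by
      simp only [hv, hP, eval_comp, eval_add, eval_mul, eval_C, eval_X, csum_eq]
      congr 2; ring
    rw [hPx]
    refine hp _ _ (Real.abs_sin_le_one _) ?_
    have habs : |csum x| ≤ n := by
      rw [csum_eq, abs_le]
      have := (Nat.cast_le (α := ℝ)).2 (ones_le x)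
      have := Nat.cast_nonneg (α := ℝ) (ones x)
      constructor <;> linarith
    refine (sinPoly_error J _ hJpos ?_).trans ?_
    · rw [abs_mul, abs_of_pos (div_pos hη hr0)]
      have h1 : η / r * |csum x| ≤ η / r * n := mul_le_mul_of_nonneg_left habs (by positivity)
      have h2 : η / r * n = η * r := by rw [← hr2]; field_simp
      have h3 : η * r ≤ r := mul_le_of_le_one_left hr0.le hη1
      linarith
    · have := pow_le_pow_of_le_one (show (0 : ℝ) ≤ 1 / 2 by norm_num) (by norm_num) hJJ₀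
      linarith
  have hv1 : ∀ x : Cube n, |v x| ≤ 1 + η := by
    intro x
    obtain ⟨h1, h2⟩ := abs_le.1 (happrox x)
    have h3 : max (-1) (min 1 (Real.sin (η / r * csum x) / (η ^ 2 / 2))) ≤ 1 :=
      max_le (by norm_num) (min_le_left _ _)
    have h4 := le_max_left (-1 : ℝ) (min 1 (Real.sin (η / r * csum x) / (η ^ 2 / 2)))
    exact abs_le.2 ⟨by linarith, by linarith⟩
  have herr : ∀ x : Cube n, |((4 * Z x + 2 : ℤ) : ℝ) - (1 - 3 * η) * M * v x| ≤ η * M := by
    intro x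
    have h1 := hrange D hDr
    have h2 := hZ x
    rw [hQv x] at h2
    have h3 : ((4 * Z x + 2 : ℤ) : ℝ) - (1 - 3 * η) * M * v x
        = 4 * ((Z x : ℝ) - ((1 - 3 * η) * M / 4 * v x - 1 / 2)) := by push_cast; ring
    rw [h3, abs_mul, abs_of_pos (show (0 : ℝ) < 4 by norm_num)]
    linarith
  refine ⟨i, fun x => 4 * Z x + 2, ?_, ?_, fun x => ?_, fun x => ?_, ?_, ?_⟩
  · have h1 : (3 : ℝ) ≤ ε * q := by
      have := (Nat.ceil_le).1 hq3
      rw [div_le_iff₀ hε] at this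
      linarith
    exact Nat.le_floor (by push_cast; linarith)
  · calc (i : ℝ) ≤ ε * q := Nat.floor_le (by positivity)
      _ ≤ ε₀ * q := mul_le_mul_of_nonneg_right hεle hqr.le
  · show (4 * Z x + 2) % 4 = 2
    omega
  · have h1 := herr x
    have h2 : |(1 - 3 * η) * M * v x| ≤ (1 - η) * M := by
      rw [abs_mul, abs_of_nonneg (mul_nonneg (by linarith) hMpos.le)]
      calc (1 - 3 * η) * M * |v x| ≤ (1 - 3 * η) * M * (1 + η) :=
            mul_le_mul_of_nonneg_left (hv1 x) (mul_nonneg (by linarith) hMpos.le)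
        _ ≤ (1 - η) * M := by nlinarith [mul_pos hη hMpos, mul_pos (mul_pos hη hη) hMpos]
    have h3 : |((4 * Z x + 2 : ℤ) : ℝ)| ≤ M := by
      have := abs_sub_abs_le_abs_sub ((4 * Z x + 2 : ℤ) : ℝ) ((1 - 3 * η) * M * v x)
      linarith
    rw [hM] at h3
    exact_mod_cast h3
  · intro S hS
    have h1 := hZdeg S (lt_of_le_of_lt hD19 hS)
    obtain ⟨j, hj⟩ : S.Nonempty := Finset.card_pos.1 (by omega)
    have h2 := fhat_eq_zero_of_indep (fun _ : Cube n => (1 : ℝ)) S hj fun _ _ => rfl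
    have h3 : fhat (fun x : Cube n => ((4 * Z x + 2 : ℤ) : ℝ)) S
        = 4 * fhat (fun x => (Z x : ℝ)) S + 2 * fhat (fun _ : Cube n => (1 : ℝ)) S := by
      simp only [fhat, mul_div_assoc', ← add_div, Finset.mul_sum, ← Finset.sum_add_distrib]
      congr 1
      refine Finset.sum_congr rfl fun x _ => ?_
      push_cast; ring
    rw [h3, h1, h2]; ring
  · -- the first level
    refine le_trans ?_ (level1_lower (q := q) hη (hηε.trans hε1) hηε hεle ?_ v happrox
      (fun x => ((4 * Z x + 2 : ℤ) : ℝ) / 2 ^ i) fun x => ?_)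
    · exact le_rfl
    · have := (Nat.ceil_le).1 hqη
      rw [div_le_iff₀ hη] at this
      linarith only [this]
    · rw [← hM, div_sub' hMpos.ne', abs_div, abs_of_pos hMpos, div_le_iff₀ hMpos]
      refine le_of_eq_of_le ?_ (herr x)
      congr 1; ring

end Vale.Agent.P047.Disproof
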