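import Vale.Agent.P047.Disproof.Params
import Vale.Agent.P047.Disproof.Key
import Vale.Agent.P047.Disproof.Net
import Vale.Agent.P047.Disproof.Start

/-!
Assembly: a Boolean function of degree `19 q` on `30 q` variables beating the square root bound.
-/

namespace Vale.Agent.P047.Disproof

open Finset Real

/-- `60 / π` exceeds `19`, with room to spare. -/
lemma final_inequality {q : ℝ} (hq : 1000 ≤ q) :
    √(19 * q + 1) < (1 - 1 / 1000000) * √(60 * q / π) := by
  rw [Real.sqrt_lt' (mul_pos (by norm_num) (Real.sqrt_pos.2 (by have := pi_pos; positivity))),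
    mul_pow, Real.sq_sqrt (by have := pi_pos; positivity)]
  have h : 60 * q / 3.1416 ≤ 60 * q / π :=
    div_le_div_of_nonneg_left (by positivity) pi_pos pi_lt_d4.le
  have h2 := mul_le_mul_of_nonneg_left h (sq_nonneg (1 - 1 / 1000000 : ℝ))
  norm_num at h2 ⊢
  linarith

/-- Boolean functions of degree at most `19 q` on `30 q` variables with a large first level. -/
theorem eventually_exists_function :
    ∀ᶠ q : ℕ in Filter.atTop, ∃ f : Cube (30 * q) → ℝ, IsBool f ∧ DegLE f (19 * q) ∧
      (1 - 1 / 1000000) * √(60 * q / π) ≤ level1 f := by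
  obtain ⟨γ₀, hγ₀, hγ₀1, hcover⟩ := coverExists keyTheorem
  obtain ⟨K, hK0, hparams⟩ := exists_stageParams
  filter_upwards [startFunction (1 / 1000000) (by norm_num), hcover accuracy,
    eventually_large K γ₀ hγ₀] with q hstart hC hq
  obtain ⟨i, g, hi2, hiq, hg4, hgb, hgd, hgL⟩ := hstart
  obtain ⟨C⟩ := hC
  obtain ⟨j, rfl⟩ : ∃ j, i = j + 1 := ⟨i - 1, by omega⟩
  have hkn : 11 * q ≤ 30 * q := by omega
  have hd : 30 * q - 11 * q = 19 * q := by omega
  have hI : Inv C γ₀ j g := by
    refine ⟨fun x => by have := hg4 x; omega, hgb, by rw [hd]; exact hgd, ?_⟩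
    have : oddSet j g = univ := by
      refine filter_eq_self.2 fun x _ => ?_
      have := hg4 x
      have h2 : (2 : ℤ) ∣ 2 ^ j := dvd_pow_self 2 (by omega)
      omega
    rw [this]
    exact C.good_univ hγ₀1
  obtain ⟨f, hf, hfd, hfL⟩ := rounding C hkn j γ₀ g hI fun l hl => by
    refine hparams q _ γ₀ C hq.1 ?_ ((div_le_one (by positivity)).2
      (hγ₀1.trans (one_le_pow₀ (by norm_num))))
    rw [le_div_iff₀ (by positivity)]
    have h8 : (8 : ℝ) ^ l ≤ exp (7 * l) := by
      rw [mul_comm, exp_nat_mul]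
      exact pow_le_pow_left₀ (by norm_num) (by linarith [add_one_le_exp (7 : ℝ)]) l
    refine le_trans ?_ hq.2
    calc exp (-(q : ℝ) / 20000) * 8 ^ l ≤ exp (-(q : ℝ) / 20000) * exp (7 * l) := by gcongr
      _ ≤ exp (-(q : ℝ) / 40000) := by
          rw [← exp_add, exp_le_exp]
          push_cast at hiq
          have : (l : ℝ) ≤ j := by exact_mod_cast hl
          have : (0 : ℝ) ≤ q := Nat.cast_nonneg _
          linarith
  exact ⟨f, hf, hd ▸ hfd, hgL.trans hfL⟩

/-- The bound `level1 f ≤ √(deg f + 1)` fails. -/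
theorem exists_counterexample :
    ∃ (n : ℕ) (f : Cube n → ℝ) (d : ℕ), IsBool f ∧ DegLE f d ∧ √((d + 1 : ℕ) : ℝ) < level1 f := by
  obtain ⟨q, ⟨f, hf, hd, hL⟩, hq⟩ :=
    (eventually_exists_function.and (Filter.eventually_ge_atTop 1000)).exists
  refine ⟨30 * q, f, 19 * q, hf, hd, lt_of_lt_of_le ?_ hL⟩
  push_cast
  exact final_inequality (by exact_mod_cast hq)

end Vale.Agent.P047.Disproof
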