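import Vale.Agent.P047.Disproof.Real

/-!
A Gaussian on polynomials, perturbed point by point.
-/

namespace Vale.Agent.P047.Disproof

open MeasureTheory Finset Real
open scoped ENNReal

variable {n k : ℕ}

/-- The quadratic form with weights `w`. -/
noncomputable def qf (n k : ℕ) (w : Cube n → ℝ) (u : Idx n k → ℝ) : ℝ :=
  ∑ x, w x * ev n k u x ^ 2

lemma continuous_qf (w : Cube n → ℝ) : Continuous (qf n k w) :=
  continuous_finsetSum _ fun x _ => continuous_const.mul ((continuous_ev n k x).pow 2)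

/-- The weight `exp (-qf)`, as an extended real. -/
noncomputable def gw (n k : ℕ) (w : Cube n → ℝ) (u : Idx n k → ℝ) : ℝ≥0∞ :=
  ENNReal.ofReal (exp (-qf n k w u))

/-- Removing `a ≤ 1/2` from the weight at one point costs at most a factor `exp (2 R a)`. -/
lemma lintegral_gw_step (w : Cube n → ℝ) (hw : ∀ x, 1 / 2 ≤ w x) (x₀ : Cube n) {a : ℝ}
    (ha : 0 ≤ a) (ha' : a ≤ 1 / 2) (hR : Rk n k ≤ 1 / 2) :
    ∫⁻ u, ENNReal.ofReal (exp (-qf n k w u + a * ev n k u x₀ ^ 2)) ≤
      ENNReal.ofReal (exp (2 * Rk n k * a)) * ∫⁻ u, gw n k w u := by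
  classical
  have hq : ∀ u : Idx n k → ℝ, energy n k u ≤ 2 * qf n k w u := fun u => by
    rw [energy, qf, mul_sum]
    exact sum_le_sum fun x _ => by nlinarith [hw x, sq_nonneg (ev n k u x)]
  obtain ⟨p, hp⟩ := exists_rep univ w (fun u hu => energy_eq_zero (le_antisymm
    ((hq u).trans (by rw [qf, hu, mul_zero])) (sum_nonneg fun _ _ => sq_nonneg _)))
    fun x => if x = x₀ then 1 else 0
  simp only [ite_mul, one_mul, zero_mul, Finset.sum_ite_eq', Finset.mem_univ, if_true] at hp
  set ρ := ev n k p x₀ with hρ'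
  have hρq : qf n k w p = ρ := by
    rw [hρ', ← hp p, qf]; exact sum_congr rfl fun x _ => by ring
  have hρ0 : 0 ≤ ρ := by
    rw [← hρq]; exact sum_nonneg fun x _ => mul_nonneg (by linarith [hw x]) (sq_nonneg _)
  have hρ : ρ ≤ 2 * Rk n k := by
    rcases hρ0.eq_or_lt with h0 | hpos
    · rw [← h0]; linarith [Rk_nonneg n k]
    refine le_of_mul_le_mul_right ?_ hpos
    calc ρ * ρ = ρ ^ 2 := by ring
      _ ≤ Rk n k * energy n k p := sq_ev_le n k p x₀
      _ ≤ Rk n k * (2 * qf n k w p) := mul_le_mul_of_nonneg_left (hq p) (Rk_nonneg n k)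
      _ = 2 * Rk n k * ρ := by rw [hρq]; ring
  have hlin : ∀ β : ℝ, ∫⁻ u, ENNReal.ofReal (exp (-qf n k w u + β * ev n k u x₀))
      = ENNReal.ofReal (exp (β ^ 2 * ρ / 4)) * ∫⁻ u, gw n k w u := by
    intro β
    rw [← lintegral_const_mul' _ _ ENNReal.ofReal_ne_top,
      ← lintegral_add_right_eq_self (μ := (volume : Measure (Idx n k → ℝ)))
      (fun u => ENNReal.ofReal (exp (-qf n k w u + β * ev n k u x₀))) ((β / 2) • p)]
    refine lintegral_congr fun u => ?_
    rw [gw, ← ENNReal.ofReal_mul (exp_pos _).le, ← exp_add]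
    congr 2
    have e : qf n k w (u + (β / 2) • p) = qf n k w u + β * ev n k u x₀ + β ^ 2 * ρ / 4 := by
      have h1 := hp u
      have h2 := hρq
      simp only [qf, ev_add, ev_smul] at h2 ⊢
      rw [← h1, ← h2, mul_sum, mul_sum, sum_div, ← sum_add_distrib, ← sum_add_distrib]
      exact sum_congr rfl fun x _ => by ring
    rw [e, ev_add, ev_smul, ← hρ']
    ring
  have hsq : ∀ t : ℝ, ∫⁻ s : ℝ, ENNReal.ofReal (exp (-s ^ 2 + 2 * √a * t * s))
      = ENNReal.ofReal (√π * exp (a * t ^ 2)) := by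
    intro t
    rw [← lintegral_add_right_eq_self (μ := (volume : Measure ℝ))
      (fun s => ENNReal.ofReal (exp (-s ^ 2 + 2 * √a * t * s))) (√a * t)]
    have e : ∀ s, exp (-(s + √a * t) ^ 2 + 2 * √a * t * (s + √a * t))
        = exp (a * t ^ 2) * exp (-1 * s ^ 2) := fun s => by
      rw [← exp_add]; congr 1
      linear_combination t ^ 2 * Real.mul_self_sqrt ha
    simp only [e]
    rw [← ofReal_integral_eq_lintegral_ofReal ((integrable_exp_neg_mul_sq one_pos).const_mul _)
      (.of_forall fun _ => by positivity), integral_const_mul, integral_gaussian, div_one, mul_comm]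
  have hmeas : Measurable (Function.uncurry fun (u : Idx n k → ℝ) (s : ℝ) =>
      ENNReal.ofReal (exp (-qf n k w u) * exp (-s ^ 2 + 2 * √a * ev n k u x₀ * s))) :=
    (((Real.continuous_exp.comp ((continuous_qf w).comp continuous_fst).neg).mul
      (Real.continuous_exp.comp (((continuous_snd.pow 2).neg).add
        ((continuous_const.mul ((continuous_ev n k x₀).comp continuous_fst)).mul
          continuous_snd)))).measurable).ennreal_ofReal
  set b := 1 - a * ρ with hb
  have haρ : a * ρ ≤ 1 / 2 := by nlinarith [Rk_nonneg n k]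
  have hb0 : 0 < b := by rw [hb]; linarith
  have hpi : 0 < √π := Real.sqrt_pos.2 pi_pos
  refine (ENNReal.mul_le_mul_iff_right (a := ENNReal.ofReal √π) ?_ ENNReal.ofReal_ne_top).1 ?_
  · simpa using hpi
  calc ENNReal.ofReal √π * ∫⁻ u, ENNReal.ofReal (exp (-qf n k w u + a * ev n k u x₀ ^ 2))
      = ∫⁻ u, ∫⁻ s : ℝ, ENNReal.ofReal
          (exp (-qf n k w u) * exp (-s ^ 2 + 2 * √a * ev n k u x₀ * s)) := by
        rw [← lintegral_const_mul' _ _ ENNReal.ofReal_ne_top]
        refine lintegral_congr fun u => ?_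
        simp only [ENNReal.ofReal_mul (exp_pos _).le]
        rw [lintegral_const_mul' _ _ ENNReal.ofReal_ne_top, hsq,
          ← ENNReal.ofReal_mul (exp_pos _).le, ← ENNReal.ofReal_mul hpi.le, exp_add]
        congr 1
        ring
    _ = ∫⁻ s : ℝ, ∫⁻ u, ENNReal.ofReal
          (exp (-qf n k w u) * exp (-s ^ 2 + 2 * √a * ev n k u x₀ * s)) :=
        lintegral_lintegral_swap hmeas.aemeasurable
    _ = ∫⁻ s : ℝ, ENNReal.ofReal (exp (-b * s ^ 2)) * ∫⁻ u, gw n k w u := by
        refine lintegral_congr fun s => ?_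
        calc ∫⁻ u, ENNReal.ofReal (exp (-qf n k w u) * exp (-s ^ 2 + 2 * √a * ev n k u x₀ * s))
            = ∫⁻ u, ENNReal.ofReal (exp (-s ^ 2)) *
                ENNReal.ofReal (exp (-qf n k w u + 2 * √a * s * ev n k u x₀)) := by
              refine lintegral_congr fun u => ?_
              rw [← ENNReal.ofReal_mul (exp_pos _).le, ← exp_add, ← exp_add]
              congr 2; ring
          _ = _ := by
              rw [lintegral_const_mul' _ _ ENNReal.ofReal_ne_top, hlin, ← mul_assoc,
                ← ENNReal.ofReal_mul (exp_pos _).le, ← exp_add]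
              congr 3
              rw [hb]
              linear_combination s ^ 2 * ρ * Real.mul_self_sqrt ha
    _ ≤ ENNReal.ofReal (√π * exp (2 * Rk n k * a)) * ∫⁻ u, gw n k w u := by
        rw [lintegral_mul_const _ (by fun_prop : Measurable fun s : ℝ =>
          ENNReal.ofReal (exp (-b * s ^ 2))),
          ← ofReal_integral_eq_lintegral_ofReal (integrable_exp_neg_mul_sq hb0)
            (.of_forall fun _ => (exp_pos _).le), integral_gaussian]
        gcongr
        rw [Real.sqrt_div pi_pos.le, div_le_iff₀ (Real.sqrt_pos.2 hb0), mul_assoc]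
        refine le_mul_of_one_le_right hpi.le ?_
        have h1 : exp (-(2 * (a * ρ))) ≤ b := by
          rw [exp_neg, inv_le_iff_one_le_mul₀ (exp_pos _), hb]
          nlinarith [add_one_le_exp (2 * (a * ρ)), mul_nonneg ha hρ0]
        calc (1 : ℝ) = exp (a * ρ) * √(exp (-(2 * (a * ρ)))) := by
              rw [Real.sqrt_eq_rpow, ← exp_mul, ← exp_add]; ring_nf; simp
          _ ≤ exp (2 * Rk n k * a) * √b :=
              mul_le_mul (exp_le_exp.2 (by nlinarith)) (Real.sqrt_le_sqrt h1) (Real.sqrt_nonneg _)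
                (exp_pos _).le
    _ = _ := by rw [ENNReal.ofReal_mul hpi.le, mul_assoc]

/-- A Gaussian perturbed by a weighted energy. -/
lemma lintegral_gauss_perturb (a : Cube n → ℝ) (ha : ∀ x, 0 ≤ a x) (ha' : ∀ x, a x ≤ 1 / 2)
    (hR : Rk n k ≤ 1 / 2) :
    ∫⁻ u : Idx n k → ℝ, ENNReal.ofReal (exp (-energy n k u + ∑ x, a x * ev n k u x ^ 2)) ≤
      ENNReal.ofReal (exp (2 * Rk n k * ∑ x, a x) * G n k 1) := by
  classical
  suffices H : ∀ T : Finset (Cube n),
      ∫⁻ u : Idx n k → ℝ, gw n k (fun x => 1 - if x ∈ T then a x else 0) u ≤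
        ENNReal.ofReal (exp (2 * Rk n k * ∑ x ∈ T, a x) * G n k 1) by
    refine le_of_eq_of_le (lintegral_congr fun u => ?_) (H univ)
    simp only [gw, qf, energy, Finset.mem_univ, if_true, sub_mul, one_mul, sum_sub_distrib]
    ring_nf
  intro T
  induction T using Finset.induction_on with
  | empty =>
    simp only [Finset.notMem_empty, if_false, sub_zero, sum_empty, mul_zero, exp_zero, one_mul,
      ← lintegral_gauss n k one_pos]
    refine le_of_eq (lintegral_congr fun u => ?_)
    simp [gw, qf, energy]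
  | insert x₀ T hx ih =>
    have hstep := lintegral_gw_step (k := k) (fun x => 1 - if x ∈ T then a x else 0)
      (fun x => by split_ifs <;> linarith [ha' x]) x₀ (ha x₀) (ha' x₀) hR
    rw [sum_insert hx, mul_add, exp_add, mul_assoc, ENNReal.ofReal_mul (exp_pos _).le]
    refine le_trans (le_of_eq_of_le (lintegral_congr fun u => ?_) hstep) ?_
    · rw [gw]
      congr 2
      simp only [qf, sub_mul, sum_sub_distrib, ite_mul, zero_mul, sum_ite_mem, univ_inter,
        sum_insert hx]
      ring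
    · gcongr

lemma integral_gauss_perturb (a : Cube n → ℝ) (ha : ∀ x, 0 ≤ a x) (ha' : ∀ x, a x ≤ 1 / 2)
    (hR : Rk n k ≤ 1 / 2) :
    Integrable (fun u : Idx n k → ℝ => exp (-energy n k u + ∑ x, a x * ev n k u x ^ 2)) ∧
      ∫ u : Idx n k → ℝ, exp (-energy n k u + ∑ x, a x * ev n k u x ^ 2)
        ≤ exp (2 * Rk n k * ∑ x, a x) * G n k 1 := by
  have hle := lintegral_gauss_perturb a ha ha' hR
  have hc : Continuous fun u : Idx n k → ℝ =>
      exp (-energy n k u + ∑ x, a x * ev n k u x ^ 2) :=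
    Real.continuous_exp.comp ((continuous_energy n k).neg.add (continuous_qf a))
  have hi : Integrable fun u : Idx n k → ℝ =>
      exp (-energy n k u + ∑ x, a x * ev n k u x ^ 2) := by
    refine ⟨hc.aestronglyMeasurable, ?_⟩
    rw [hasFiniteIntegral_iff_ofReal (.of_forall fun _ => (exp_pos _).le)]
    exact hle.trans_lt ENNReal.ofReal_lt_top
  refine ⟨hi, (ENNReal.ofReal_le_ofReal_iff ?_).1 ?_⟩
  · exact mul_nonneg (exp_pos _).le (G_pos n k one_pos).le
  · rwa [ofReal_integral_eq_lintegral_ofReal hi (.of_forall fun _ => (exp_pos _).le)]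

end Vale.Agent.P047.Disproof
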