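import Vale.Agent.P047.Disproof.Integrals
import Vale.Agent.P047.Disproof.Perturb

/-!
Random halving of `S` keeps the energies of all the small boxes.
-/

namespace Vale.Agent.P047.Disproof

open MeasureTheory Finset Real

variable {n k : ℕ} {γ₀ c₀ δ γ : ℝ} {S : Finset (Cube n)}

/-- Completing the square in the Gaussian integral. -/
lemma gauss_linear (b : Cube n → ℝ) (p : Idx n k → ℝ)
    (hp : ∀ u : Idx n k → ℝ, ∑ x, ev n k p x * ev n k u x = ∑ x, b x * ev n k u x) (l : ℝ) :
    Integrable (fun u : Idx n k → ℝ => exp (-energy n k u + 2 * l * ∑ x, b x * ev n k u x)) ∧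
      ∫ u : Idx n k → ℝ, exp (-energy n k u + 2 * l * ∑ x, b x * ev n k u x)
        = exp (l ^ 2 * energy n k p) * G n k 1 := by
  have e : ∀ u : Idx n k → ℝ, exp (-energy n k u + 2 * l * ∑ x, b x * ev n k u x) =
      exp (l ^ 2 * energy n k p) * exp (-1 * energy n k (u - l • p)) := fun u => by
    rw [← exp_add]
    congr 1
    simp only [← hp, energy, ev_sub, ev_smul, mul_sum, ← sum_neg_distrib, ← sum_add_distrib]
    exact sum_congr rfl fun x _ => by ring
  simp only [e]
  refine ⟨((integrable_gauss n k one_pos).comp_sub_right (l • p)).const_mul _, ?_⟩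
  rw [integral_const_mul,
    integral_sub_right_eq_self (fun u : Idx n k → ℝ => exp (-1 * energy n k u)) (l • p),
    integral_gauss n k one_pos]

/-- The linear event: the kept energy of a fixed vector is rarely small. -/
lemma hitAvg_linear_le (C : Cover n k γ₀ c₀ δ) (hS : EvenOn k S) (hG : C.Good γ S) (hγ : 0 < γ)
    (hγ₀ : c₀ ≤ γ) (hγ₁ : γ ≤ 1) (hδ : 0 ≤ δ) (s : Cube n → Bool) {e : Cube n → ℝ}
    (he : ∀ x, e x ^ 2 ≤ 1) :
    hitAvg k S (fun a => exp (-(1 / 1024) *
        (∑ x ∈ S, sgn (s x) * sgn (a x) * e x ^ 2 + (∑ x ∈ S, e x ^ 2) / 2))) ≤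
      exp (-(γ * ∑ x ∈ S, e x ^ 2) / 65536) * (1 + δ) * J k S := by
  set A := ∑ x ∈ S, e x ^ 2 with hA
  have hA0 : 0 ≤ A := sum_nonneg fun _ _ => sq_nonneg _
  set b : Cube n → ℝ := fun x => -(1 / 1024) * sgn (s x) * e x ^ 2
  have h1 := (le_abs_self _).trans (abs_hitAvg_le C hS hG hγ hγ₀ hγ₁
    (Φ := fun a => exp (∑ x ∈ S, b x * sgn (a x))) (exp_pos _).le
    (norm_avgPhase_tilt_le S b))
  have e1 : ∀ a : Cube n → Bool, exp (-(1 / 1024) *
      (∑ x ∈ S, sgn (s x) * sgn (a x) * e x ^ 2 + A / 2)) =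
      exp (-(A / 2048)) * exp (∑ x ∈ S, b x * sgn (a x)) := fun a => by
    rw [← exp_add, mul_add, mul_sum, add_comm]
    congr 1
    congr 1
    · ring
    · exact sum_congr rfl fun x _ => by simp only [b]; ring
  simp only [e1, hitAvg_const_mul]
  refine (mul_le_mul_of_nonneg_left h1 (exp_pos _).le).trans ?_
  have hb : ∑ x ∈ S, b x ^ 2 ≤ A / 1024 ^ 2 := by
    rw [hA, sum_div]
    refine sum_le_sum fun x _ => ?_
    have hsg : sgn (s x) ^ 2 = 1 := by rw [sq, sgn_mul_self]
    simp only [b, mul_pow, hsg]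
    nlinarith [he x, sq_nonneg (e x)]
  rw [← mul_assoc, ← mul_assoc, ← exp_add]
  refine mul_le_mul_of_nonneg_right (mul_le_mul_of_nonneg_right (exp_le_exp.2 ?_) (by linarith))
    (J_pos (hG.pd hγ)).le
  nlinarith [mul_le_mul_of_nonneg_right hγ₁ hA0]

/-- The quadratic event: the cross term is rarely large. -/
lemma hitAvg_quad_le (C : Cover n k γ₀ c₀ δ) (hS : EvenOn k S) (hG : C.Good γ S) (hγ : 0 < γ)
    (hγ₀ : c₀ ≤ γ) (hγ₁ : γ ≤ 1) (hδ : 0 ≤ δ) (hR : Rk n k ≤ γ / 16384) (s : Cube n → Bool)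
    {e : Cube n → ℝ} (he : ∀ x, e x ^ 2 ≤ 1) (p : (Cube n → Bool) → Idx n k → ℝ)
    (hp : ∀ a, ∀ u : Idx n k → ℝ, ∑ x, ev n k (p a) x * ev n k u x =
      ∑ x, (if x ∈ S then sgn (s x) * sgn (a x) * e x else 0) * ev n k u x) :
    hitAvg k S (fun a => exp (1 / 4096 * (energy n k (p a) - γ * (∑ x ∈ S, e x ^ 2) / 8))) ≤
      exp (-(γ * ∑ x ∈ S, e x ^ 2) / 65536) * (1 + δ) * J k S := by
  classical
  set A := ∑ x ∈ S, e x ^ 2 with hA
  have hA0 : 0 ≤ A := sum_nonneg fun _ _ => sq_nonneg _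
  set b : (Cube n → Bool) → Cube n → ℝ :=
    fun a x => if x ∈ S then sgn (s x) * sgn (a x) * e x else 0
  have hg := fun a => gauss_linear (b a) (p a) (hp a) (1 / 64)
  set w : (Idx n k → ℝ) → Cube n → ℝ :=
    fun u x => 2 * (1 / 64) * sgn (s x) * e x * ev n k u x
  have hw : ∀ a u, 2 * (1 / 64) * ∑ x, b a x * ev n k u x = ∑ x ∈ S, w u x * sgn (a x) := fun a u => by
    simp only [b, ite_mul, zero_mul, sum_ite_mem, univ_inter, mul_sum]
    exact sum_congr rfl fun x _ => by simp only [w]; ring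
  set a' : Cube n → ℝ := fun x => if x ∈ S then e x ^ 2 / 8 else 0 with ha'
  obtain ⟨hai, hale⟩ := integral_gauss_perturb (k := k) a' (fun x => by
      simp only [ha']; split_ifs <;> positivity)
    (fun x => by simp only [ha']; split_ifs <;> linarith [he x]) (by linarith)
  have key : hitAvg k S (fun a => exp (1 / 4096 * energy n k (p a))) * G n k 1 ≤
      exp (2 * Rk n k * ∑ x, a' x) * G n k 1 * ((1 + δ) * J k S) := by
    have hI : hitAvg k S (fun a => exp (1 / 4096 * energy n k (p a))) * G n k 1 =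
        ∫ u : Idx n k → ℝ, hitAvg k S fun a =>
          exp (-energy n k u + 2 * (1 / 64) * ∑ x, b a x * ev n k u x) := by
      simp only [hitAvg, avg]
      rw [integral_div, integral_finsetSum _ fun a _ => ?_, div_mul_eq_mul_div, sum_mul]
      · congr 1
        refine sum_congr rfl fun a _ => ?_
        split_ifs
        · rw [(hg a).2]; norm_num
        · simp
      · split_ifs
        · exact (hg a).1
        · exact integrable_zero _ _ _
    rw [hI, ← integral_gauss n k one_pos]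
    calc (∫ u : Idx n k → ℝ, hitAvg k S (fun a =>
          exp (-energy n k u + 2 * (1 / 64) * ∑ x, b a x * ev n k u x)))
        ≤ ∫ u : Idx n k → ℝ,
            exp (-energy n k u + ∑ x, a' x * ev n k u x ^ 2) * ((1 + δ) * J k S) := by
          refine integral_mono ?_ (hai.mul_const _) fun u => ?_
          · refine (integrable_finsetSum _ fun a _ => ?_).div_const _
            by_cases h : hit k S a
            · simpa only [h, if_true] using (hg a).1
            · simpa only [h, if_false, ← Pi.zero_def] using integrable_zero _ _ _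
          · simp only [exp_add, hw, hitAvg_const_mul]
            refine (mul_le_mul_of_nonneg_left ((le_abs_self _).trans (abs_hitAvg_le C hS hG hγ hγ₀
              hγ₁ (exp_pos _).le (norm_avgPhase_tilt_le S (w u)))) (exp_pos _).le).trans_eq ?_
            have e2 : 128 * ∑ x ∈ S, w u x ^ 2 = ∑ x, a' x * ev n k u x ^ 2 := by
              simp only [ha', ite_mul, zero_mul, sum_ite_mem, univ_inter, mul_sum, w]
              refine sum_congr rfl fun x _ => ?_
              have hsg : sgn (s x) ^ 2 = 1 := by rw [sq, sgn_mul_self]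
              simp only [mul_pow, hsg]
              ring
            rw [e2]
            ring
      _ ≤ _ := by
          rw [integral_mul_const, integral_gauss n k one_pos]
          exact mul_le_mul_of_nonneg_right hale
            (mul_nonneg (by linarith) (J_pos (hG.pd hγ)).le)
  have hsum : ∑ x, a' x = A / 8 := by
    simp only [ha', sum_ite_mem, univ_inter, hA, sum_div]
  rw [hsum] at key
  have key2 : hitAvg k S (fun a => exp (1 / 4096 * energy n k (p a))) ≤
      exp (2 * Rk n k * (A / 8)) * ((1 + δ) * J k S) :=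
    le_of_mul_le_mul_right (key.trans_eq (by ring)) (G_pos n k one_pos)
  have e3 : ∀ a : Cube n → Bool, exp (1 / 4096 * (energy n k (p a) - γ * A / 8)) =
      exp (-(γ * A / 32768)) * exp (1 / 4096 * energy n k (p a)) := fun a => by
    rw [← exp_add]; congr 1; ring
  simp only [e3, hitAvg_const_mul]
  refine (mul_le_mul_of_nonneg_left key2 (exp_pos _).le).trans ?_
  rw [← mul_assoc, ← exp_add, ← mul_assoc]
  refine mul_le_mul_of_nonneg_right (mul_le_mul_of_nonneg_right (exp_le_exp.2 ?_) (by linarith))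
    (J_pos (hG.pd hγ)).le
  nlinarith [mul_le_mul_of_nonneg_right hR hA0]

open Classical in
/-- Halving `S` rarely loses the energy of some box while keeping the quadratic form. -/
theorem box_le (C : Cover n k γ₀ c₀ δ) (hS : EvenOn k S) (hG : C.Good γ S) (hγ : 0 < γ)
    (hγ₀ : c₀ ≤ γ ^ 2 / 65536) (hγ₁ : γ ≤ 1) (hδ : 0 ≤ δ) (hR : Rk n k ≤ γ / 16384)
    (s : Cube n → Bool) :
    hitAvg k S (fun a =>
      if (∀ u : Idx n k → ℝ, γ / 4 * energy n k u ≤ ∑ x ∈ keep S s a, ev n k u x ^ 2) ∧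
          ∃ j, ∃ u ∈ box n k (C.r j),
            ∑ x ∈ keep S s a, (C.p j x + ev n k u x) ^ 2 < γ / 8 * C.W j then 1 else 0) ≤
      2 * δ * (1 + δ) * J k S := by
  have hγc : c₀ ≤ γ := hγ₀.trans (by nlinarith)
  have hm : ∀ j, ∃ u₀ ∈ box n k (C.r j), ∀ v ∈ box n k (C.r j),
      ∑ x ∈ S, (C.p j x + ev n k u₀ x) ^ 2 ≤ ∑ x ∈ S, (C.p j x + ev n k v x) ^ 2 := fun j => by
    have hcont : Continuous fun u : Idx n k → ℝ => ∑ x ∈ S, (C.p j x + ev n k u x) ^ 2 :=
      continuous_finsetSum S fun x _ =>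
        ((continuous_const (y := C.p j x)).add (continuous_ev n k x)).pow 2
    have hne : (box n k (C.r j)).Nonempty := ⟨0, zero_mem_box (C.rad j).1⟩
    obtain ⟨u₀, h1, h2⟩ := (isCompact_box _).exists_isMinOn hne hcont.continuousOn
    exact ⟨u₀, h1, fun v hv => h2 hv⟩
  choose u₀ hu₀ hmin using hm
  set e : Fin C.m → Cube n → ℝ := fun j x => C.p j x + ev n k (u₀ j) x with he_def
  have he : ∀ j x, e j x ^ 2 ≤ 1 := fun j x => by
    rw [sq_le_one_iff_abs_le_one]
    simp only [he_def, Cover.p]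
    refine (abs_add_le _ _).trans ?_
    linarith [C.near j x, hu₀ j x, (C.rad j).2]
  have hrep : ∀ (j : Fin C.m) (a : Cube n → Bool), ∃ p : Idx n k → ℝ, ∀ u : Idx n k → ℝ,
      ∑ x, ev n k p x * ev n k u x =
        ∑ x, (if x ∈ S then sgn (s x) * sgn (a x) * e j x else 0) * ev n k u x := fun j a => by
    obtain ⟨p, hp⟩ := exists_rep (k := k) univ (fun _ => 1)
      (fun u hu => energy_eq_zero (by simpa [energy] using hu))
      fun x => if x ∈ S then sgn (s x) * sgn (a x) * e j x else 0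
    exact ⟨p, fun u => by simpa using hp u⟩
  choose p hp using hrep
  set A : Fin C.m → ℝ := fun j => ∑ x ∈ S, e j x ^ 2
  set T1 : Fin C.m → (Cube n → Bool) → ℝ := fun j a => exp (-(1 / 1024) *
    (∑ x ∈ S, sgn (s x) * sgn (a x) * e j x ^ 2 + A j / 2))
  set T2 : Fin C.m → (Cube n → Bool) → ℝ :=
    fun j a => exp (1 / 4096 * (energy n k (p j a) - γ * A j / 8))
  have hpt : ∀ a, (if (∀ u : Idx n k → ℝ, γ / 4 * energy n k u ≤ ∑ x ∈ keep S s a, ev n k u x ^ 2) ∧
      ∃ j, ∃ u ∈ box n k (C.r j),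
        ∑ x ∈ keep S s a, (C.p j x + ev n k u x) ^ 2 < γ / 8 * C.W j then (1 : ℝ) else 0)
      ≤ ∑ j, (T1 j a + T2 j a) := by
    intro a
    split_ifs with h
    swap
    · exact sum_nonneg fun j _ => (add_pos (exp_pos _) (exp_pos _)).le
    obtain ⟨hspec, j, u, hu, hlt⟩ := h
    refine le_trans ?_ (single_le_sum (fun i _ => (add_pos (exp_pos _) (exp_pos _)).le)
      (Finset.mem_univ j))
    by_contra hc
    push Not at hc
    have h1 : T1 j a < 1 := by linarith [exp_pos (1 / 4096 * (energy n k (p j a) - γ * A j / 8))]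
    have h2 : T2 j a < 1 := by linarith [exp_pos (-(1 / 1024) *
      (∑ x ∈ S, sgn (s x) * sgn (a x) * e j x ^ 2 + A j / 2))]
    rw [exp_lt_one_iff] at h1 h2
    set d : Idx n k → ℝ := u - u₀ j
    have hd : ∀ x, C.p j x + ev n k u x = e j x + ev n k d x := fun x => by
      simp only [d, ev_sub, he_def]; ring
    have hinner : 0 ≤ ∑ x ∈ S, e j x * ev n k d x := by
      simpa only [d, ev_sub] using inner_nonneg_of_isMinOn S (C.p j) (hu₀ j) hu (hmin j)
    have hke : ∑ x ∈ keep S s a, e j x ^ 2 = (A j + ∑ x ∈ S, sgn (s x) * sgn (a x) * e j x ^ 2) / 2 :=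
      sum_keep S s a _
    have hcross : 2 * ∑ x ∈ keep S s a, e j x * ev n k d x =
        ∑ x ∈ S, e j x * ev n k d x + ∑ x, ev n k (p j a) x * ev n k d x := by
      rw [sum_keep, mul_div_cancel₀ _ two_ne_zero, hp]
      simp only [ite_mul, zero_mul, sum_ite_mem, univ_inter, mul_assoc]
    have hsq : 0 ≤ γ / 4 * energy n k d + ∑ x, ev n k (p j a) x * ev n k d x +
        energy n k (p j a) / γ := by
      have : ∀ x, 0 ≤ γ / 4 * ev n k d x ^ 2 + ev n k (p j a) x * ev n k d x +
          ev n k (p j a) x ^ 2 / γ := fun x => by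
        have e4 : γ / 4 * ev n k d x ^ 2 + ev n k (p j a) x * ev n k d x +
            ev n k (p j a) x ^ 2 / γ = (γ / 2 * ev n k d x + ev n k (p j a) x) ^ 2 / γ := by
          field_simp [hγ.ne']; ring
        rw [e4]; positivity
      have := sum_nonneg fun x (_ : x ∈ univ) => this x
      simpa only [sum_add_distrib, ← mul_sum, ← sum_div, energy] using this
    have hexp : ∑ x ∈ keep S s a, (C.p j x + ev n k u x) ^ 2 = ∑ x ∈ keep S s a, e j x ^ 2 +
        2 * (∑ x ∈ keep S s a, e j x * ev n k d x) + ∑ x ∈ keep S s a, ev n k d x ^ 2 := by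
      rw [mul_sum, ← sum_add_distrib, ← sum_add_distrib]
      exact sum_congr rfl fun x _ => by rw [hd]; ring
    have hW : γ * C.W j ≤ A j := hG.2 j _ (hu₀ j)
    have hq : energy n k (p j a) / γ < A j / 8 := by
      rw [div_lt_iff₀ hγ]; linarith
    linarith [hspec d]
  refine (hitAvg_mono hpt).trans ?_
  rw [hitAvg_sum]
  simp only [hitAvg_add]
  refine (sum_le_sum fun j _ => add_le_add (hitAvg_linear_le C hS hG hγ hγc hγ₁ hδ s (he j))
    (hitAvg_quad_le C hS hG hγ hγc hγ₁ hδ hR s (he j) (p j) (hp j))).trans ?_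
  have hJ := (J_pos (hG.pd hγ)).le
  have hE : ∀ j, exp (-(γ * A j) / 65536) ≤ exp (-(γ ^ 2 / 65536) * C.W j) := fun j => by
    refine exp_le_exp.2 ?_
    have := mul_le_mul_of_nonneg_left (hG.2 j _ (hu₀ j)) hγ.le
    simp only [A, e]
    linarith
  calc ∑ j, (exp (-(γ * A j) / 65536) * (1 + δ) * J k S + exp (-(γ * A j) / 65536) * (1 + δ) * J k S)
      ≤ ∑ j, exp (-(γ ^ 2 / 65536) * C.W j) * (2 * (1 + δ) * J k S) := by
        refine sum_le_sum fun j _ => ?_
        have := mul_le_mul_of_nonneg_right (hE j)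
          (mul_nonneg (by linarith : (0 : ℝ) ≤ 1 + δ) hJ)
        linarith
    _ ≤ δ * (2 * (1 + δ) * J k S) := by
        rw [← sum_mul]
        refine mul_le_mul_of_nonneg_right (C.sum_le _ hγ₀ ?_) (by positivity)
        nlinarith
    _ = _ := by ring

end Vale.Agent.P047.Disproof
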