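import Vale.Agent.P047.Disproof.Gauss
import Mathlib.MeasureTheory.Integral.MeanInequalities
import Mathlib.Analysis.SpecialFunctions.Pow.Continuity

/-!
The chessboard inequality on the torus of polynomials of degree `< k`.
-/

namespace Vale.Agent.P047.Disproof

open MeasureTheory Finset
open scoped ENNReal


lemma measurable_ev : ∀ (n k : ℕ) (x : Cube n), Measurable fun θ : Torus n k => ev n k θ x
  | n, 0, x => by simp only [ev_k_zero]; exact measurable_const
  | 0, _ + 1, _ => measurable_pi_apply _
  | n + 1, k + 1, x => by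
    simp only [ev_succ]
    have h1 : Measurable fun θ : Torus (n + 1) (k + 1) =>
        ev n (k + 1) (fun i => θ (.inl i)) (Fin.tail x) :=
      (measurable_ev n (k + 1) _).comp (measurable_pi_lambda _ fun i => measurable_pi_apply _)
    cases x 0
    · simpa using h1
    · simp only [if_true]
      exact h1.add ((measurable_ev n k _).comp (measurable_pi_lambda _ fun i => measurable_pi_apply _))

lemma incl_add : ∀ (n k : ℕ) (θ θ' : Torus n k), incl n k (θ + θ') = incl n k θ + incl n k θ'
  | 0, 0, _, _ => (add_zero _).symm
  | 0, _ + 1, _, _ => rfl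
  | n + 1, 0, _, _ => (add_zero _).symm
  | n + 1, k + 1, θ, θ' => by
    funext i
    cases i with
    | inl i => exact congr_fun (incl_add n (k + 1) (fun j => θ (.inl j)) fun j => θ' (.inl j)) i
    | inr i => exact congr_fun (incl_add n k (fun j => θ (.inr j)) fun j => θ' (.inr j)) i

lemma measurable_incl : ∀ n k, Measurable (incl (A := UnitAddCircle) n k)
  | 0, 0 => measurable_const
  | 0, _ + 1 => measurable_id
  | _ + 1, 0 => measurable_const
  | n + 1, k + 1 => by
    have h1 : Measurable fun θ : Torus (n + 1) (k + 1) => fun i => θ (.inl i) :=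
      measurable_pi_lambda _ fun i => measurable_pi_apply _
    have h2 : Measurable fun θ : Torus (n + 1) (k + 1) => fun i => θ (.inr i) :=
      measurable_pi_lambda _ fun i => measurable_pi_apply _
    exact measurable_elim.comp
      (((measurable_incl n (k + 1)).comp h1).prodMk ((measurable_incl n k).comp h2))

/-- The integral of a product of one function per point of the cube. -/
noncomputable def cubeInt (n k : ℕ) (g : Cube n → UnitAddCircle → ℝ≥0∞) : ℝ≥0∞ :=
  ∫⁻ θ : Torus n k, ∏ x, g x (ev n k θ x)

lemma measurable_prodEv {n k : ℕ} {g : Cube n → UnitAddCircle → ℝ≥0∞} (hg : ∀ x, Measurable (g x)) :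
    Measurable fun θ : Torus n k => ∏ x, g x (ev n k θ x) :=
  Finset.measurable_fun_prod _ fun x _ => (hg x).comp (measurable_ev n k x)

/-- Splitting on the first coordinate. -/
lemma cubeInt_succ (n k : ℕ) {g : Cube (n + 1) → UnitAddCircle → ℝ≥0∞} (hg : ∀ x, Measurable (g x)) :
    cubeInt (n + 1) (k + 1) g = ∫⁻ D : Torus n k, ∫⁻ a : Torus n (k + 1),
      (∏ y, g (Fin.cons false y) (ev n (k + 1) a y)) *
        ∏ y, g (Fin.cons true y) (ev n (k + 1) a y + ev n k D y) := by
  rw [cubeInt, lintegral_idx_succ n k (measurable_prodEv hg)]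
  simp only [prod_cube_succ, ev_elim_false, ev_elim_true]

private lemma cs {α : Type*} [MeasurableSpace α] (μ : Measure α) {f g : α → ℝ≥0∞}
    (hf : Measurable f) (hg : Measurable g) :
    ∫⁻ a, f a * g a ∂μ ≤ (∫⁻ a, f a * f a ∂μ) ^ (1 / 2 : ℝ) * (∫⁻ a, g a * g a ∂μ) ^ (1 / 2 : ℝ) := by
  simpa [ENNReal.rpow_two, sq] using
    ENNReal.lintegral_mul_le_Lp_mul_Lq μ Real.HolderConjugate.two_two hf.aemeasurable hg.aemeasurable

/-- Reflection in the first coordinate. -/
lemma cubeInt_le_zero (n k : ℕ) {g : Cube (n + 1) → UnitAddCircle → ℝ≥0∞} (hg : ∀ x, Measurable (g x)) :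
    cubeInt (n + 1) k g ≤ cubeInt (n + 1) k (fun x => g (Function.update x 0 false)) ^ (1 / 2 : ℝ) *
      cubeInt (n + 1) k (fun x => g (Function.update x 0 true)) ^ (1 / 2 : ℝ) := by
  cases k with
  | zero =>
    simp only [cubeInt, lintegral_idx_k_zero (n + 1) _ (0 : Torus (n + 1) 0), prod_cube_succ,
      Fin.update_cons_zero, ev_k_zero]
    rw [← sq, ← sq, ← ENNReal.rpow_two, ← ENNReal.rpow_two, ← ENNReal.rpow_mul, ← ENNReal.rpow_mul]
    norm_num
  | succ k =>
    rw [cubeInt_succ n k hg, cubeInt_succ n k fun x => hg _, cubeInt_succ n k fun x => hg _]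
    simp only [Fin.update_cons_zero]
    set A : Torus n (k + 1) → ℝ≥0∞ := fun a => ∏ y, g (Fin.cons false y) (ev n (k + 1) a y) with hA
    set B : Torus n (k + 1) → ℝ≥0∞ := fun a => ∏ y, g (Fin.cons true y) (ev n (k + 1) a y) with hB
    have mA : Measurable A := measurable_prodEv fun y => hg _
    have mB : Measurable B := measurable_prodEv fun y => hg _
    set P : (Torus n (k + 1) → ℝ≥0∞) → Torus n (k + 1) → ℝ≥0∞ :=
      fun u a => ∫⁻ D, u (a + incl n k D) with hP
    have mP : ∀ {u : Torus n (k + 1) → ℝ≥0∞}, Measurable u → Measurable (P u) := fun hu =>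
      Measurable.lintegral_prod_right'
        (hu.comp (measurable_fst.add ((measurable_incl n k).comp measurable_snd)))
    have mjoint : ∀ {u : Torus n (k + 1) → ℝ≥0∞}, Measurable u →
        Measurable fun p : Torus n k × Torus n (k + 1) => u (p.2 + incl n k p.1) := fun hu =>
      hu.comp (measurable_snd.add ((measurable_incl n k).comp measurable_fst))
    have key : ∀ {u v : Torus n (k + 1) → ℝ≥0∞}, Measurable u → Measurable v →
        ∫⁻ D, ∫⁻ a, u a * v (a + incl n k D) = ∫⁻ a, P u a * P v a := by
      intro u v hu hv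
      calc ∫⁻ D, ∫⁻ a, u a * v (a + incl n k D) = ∫⁻ a, u a * P v a := by
            rw [lintegral_lintegral_swap ((hu.comp measurable_snd).mul (mjoint hv)).aemeasurable]
            exact lintegral_congr fun a => lintegral_const_mul _
              (hv.comp (measurable_const.add (measurable_incl n k)))
        _ = ∫⁻ D, ∫⁻ a, u (a + incl n k D) * P v a := by
            rw [show ∫⁻ a, u a * P v a = ∫⁻ _ : Torus n k, ∫⁻ a, u a * P v a by simp]
            refine lintegral_congr fun D => ?_
            rw [← lintegral_add_right_eq_self (μ := (volume : Measure (Torus n (k + 1))))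
              (fun a => u a * P v a) (incl n k D)]
            refine lintegral_congr fun a => ?_
            congr 1
            simp only [hP]
            rw [← lintegral_add_left_eq_self (μ := (volume : Measure (Torus n k)))
              (fun D' => v (a + incl n k D')) D]
            exact lintegral_congr fun D' => by rw [incl_add, add_assoc]
        _ = ∫⁻ a, P u a * P v a := by
            rw [lintegral_lintegral_swap ((mjoint hu).mul ((mP hv).comp measurable_snd)).aemeasurable]
            exact lintegral_congr fun a => lintegral_mul_const _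
              (hu.comp (measurable_const.add (measurable_incl n k)))
    have hev : ∀ (b : Bool) (a : Torus n (k + 1)) (D : Torus n k),
        ∏ y, g (Fin.cons b y) (ev n (k + 1) a y + ev n k D y)
          = ∏ y, g (Fin.cons b y) (ev n (k + 1) (a + incl n k D) y) := by
      intro b a D; simp only [ev_add, ev_incl]
    simp only [hev]
    change ∫⁻ D, ∫⁻ a, A a * B (a + incl n k D) ≤
      (∫⁻ D, ∫⁻ a, A a * A (a + incl n k D)) ^ (1 / 2 : ℝ) *
        (∫⁻ D, ∫⁻ a, B a * B (a + incl n k D)) ^ (1 / 2 : ℝ)
    rw [key mA mB, key mA mA, key mB mB]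
    exact cs _ (mP mA) (mP mB)

/-- Invariance under exchanging the first coordinate with another. -/
lemma cubeInt_swap (n k : ℕ) (i : Fin (n + 1)) {g : Cube (n + 1) → UnitAddCircle → ℝ≥0∞} :
    cubeInt (n + 1) k g = cubeInt (n + 1) k fun x => g (x ∘ Equiv.swap 0 i) := by
  obtain ⟨e, he⟩ := exists_relabel_swap n k i
  have hmp : MeasurePreserving (fun θ : Torus (n + 1) k => θ ∘ e) volume volume := by
    have := volume_measurePreserving_piCongrLeft (fun _ : Idx (n + 1) k => UnitAddCircle) e.symm
    convert this using 1
    funext θ j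
    obtain ⟨b, rfl⟩ := e.symm.surjective j
    rw [MeasurableEquiv.piCongrLeft_apply_apply]
    simp
  have hemb : MeasurableEmbedding (fun θ : Torus (n + 1) k => θ ∘ e) := by
    convert (MeasurableEquiv.piCongrLeft (fun _ => UnitAddCircle) e).symm.measurableEmbedding using 1
    funext θ j; rfl
  rw [cubeInt, cubeInt, ← hmp.lintegral_comp_emb hemb fun θ => ∏ x, g x (ev (n + 1) k θ x)]
  refine lintegral_congr fun θ => ?_
  simp only [he UnitAddCircle]
  refine Fintype.prod_equiv ((Equiv.swap 0 i).arrowCongr (Equiv.refl Bool)) _ _ fun x => ?_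
  have h : ((Equiv.swap 0 i).arrowCongr (Equiv.refl Bool)) x = x ∘ Equiv.swap 0 i := by
    funext l; simp [Equiv.arrowCongr]
  rw [h]
  congr 2
  funext l; simp

/-- Reflection in any coordinate. -/
lemma cubeInt_le (n k : ℕ) (i : Fin n) {g : Cube n → UnitAddCircle → ℝ≥0∞} (hg : ∀ x, Measurable (g x)) :
    cubeInt n k g ≤ cubeInt n k (fun x => g (Function.update x i false)) ^ (1 / 2 : ℝ) *
      cubeInt n k (fun x => g (Function.update x i true)) ^ (1 / 2 : ℝ) := by
  cases n with
  | zero => exact i.elim0
  | succ n =>
    have hu : ∀ (b : Bool) (x : Cube (n + 1)),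
        Function.update x 0 b ∘ Equiv.swap 0 i = Function.update (x ∘ Equiv.swap 0 i) i b := by
      intro b x
      rw [Function.update_comp_equiv]; simp
    calc cubeInt (n + 1) k g = cubeInt (n + 1) k fun x => g (x ∘ Equiv.swap 0 i) := cubeInt_swap n k i
      _ ≤ _ := cubeInt_le_zero n k fun x => hg _
      _ = _ := by
        rw [cubeInt_swap n k i (g := fun x => g (Function.update x i false)),
          cubeInt_swap n k i (g := fun x => g (Function.update x i true))]
        simp only [hu]

/-- The chessboard inequality. -/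
lemma chessboard (n k : ℕ) {g : Cube n → UnitAddCircle → ℝ≥0∞} (hg : ∀ x, Measurable (g x)) :
    cubeInt n k g ≤ ∏ x, cubeInt n k (fun _ => g x) ^ (1 / (2 : ℝ) ^ n) := by
  let mix : Finset (Fin n) → Cube n → Cube n → Cube n := fun s x y j => if j ∈ s then x j else y j
  suffices ∀ s, cubeInt n k g ≤
      ∏ x, cubeInt n k (fun y => g (mix s x y)) ^ (1 / (2 : ℝ) ^ n) by
    simpa [mix] using this univ
  intro s
  have hr : (0 : ℝ) ≤ 1 / (2 : ℝ) ^ n := by positivity
  induction s using Finset.induction with
  | empty =>
    simp only [mix, Finset.notMem_empty, if_false, Finset.prod_const]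
    rw [← ENNReal.rpow_natCast, ← ENNReal.rpow_mul]
    simp
  | @insert i s hi ih =>
    refine ih.trans ?_
    have hmix : ∀ b x y, mix s x (Function.update y i b) = mix (insert i s) (Function.update x i b) y := by
      intro b x y; funext j
      by_cases hj : j = i
      · subst hj; simp [mix, hi]
      · simp [mix, hj]
    refine (Finset.prod_le_prod' fun x _ => ENNReal.rpow_le_rpow
      (cubeInt_le n k i (g := fun y => g (mix s x y)) fun y => hg _) hr).trans (le_of_eq ?_)
    simp only [hmix]
    set J := fun x => cubeInt n k fun y => g (mix (insert i s) x y) with hJ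
    let flip : Cube n ≃ Cube n := Function.Involutive.toPerm
      (fun x => Function.update x i (!x i)) fun x => by
        funext j
        by_cases hj : j = i
        · subst hj; simp
        · simp [hj]
    calc ∏ x, (J (Function.update x i false) ^ (1 / 2 : ℝ) *
            J (Function.update x i true) ^ (1 / 2 : ℝ)) ^ (1 / (2 : ℝ) ^ n)
        = ∏ x, (J x * J (flip x)) ^ (1 / 2 * (1 / (2 : ℝ) ^ n)) := by
          refine Finset.prod_congr rfl fun x _ => ?_
          rw [← ENNReal.mul_rpow_of_nonneg _ _ (by norm_num : (0 : ℝ) ≤ 1 / 2), ← ENNReal.rpow_mul]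
          congr 1
          cases hx : x i
          · rw [← hx, Function.update_eq_self]
            rw [show flip x = Function.update x i (!x i) from rfl, hx]; rfl
          · conv_rhs => rw [mul_comm]
            rw [← hx, Function.update_eq_self]
            rw [show flip x = Function.update x i (!x i) from rfl, hx]; rfl
      _ = _ := by
          rw [ENNReal.prod_rpow_of_nonneg (by positivity), Finset.prod_mul_distrib,
            Equiv.prod_comp flip J, ← sq, ← ENNReal.rpow_two, ← ENNReal.rpow_mul,
            ENNReal.prod_rpow_of_nonneg hr]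
          congr 1; ring

end Vale.Agent.P047.Disproof
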