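import Vale.Agent.P047.Disproof.Geom

/-!
The interface between the covering of the torus and the rounding stages.
-/

namespace Vale.Agent.P047.Disproof

open Filter Finset

/-- A covering of the torus by the central neighbourhood and small neighbourhoods with weights
`W`, where weights are below the energy and their exponential sum is small. -/
structure Cover (n k : ℕ) (γ₀ c₀ δ : ℝ) where
  /-- the number of centres -/
  m : ℕ
  /-- real lifts of the centres -/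
  P : Fin m → Idx n k → ℝ
  /-- the integers nearest to the values -/
  z : Fin m → Cube n → ℤ
  /-- the radii -/
  r : Fin m → ℝ
  /-- the weights -/
  W : Fin m → ℝ
  near : ∀ j x, |ev n k (P j) x - z j x| ≤ 1 / 2
  rad : ∀ j, 0 ≤ r j ∧ r j ≤ 1 / 50
  cover : ∀ θ, θ ∈ nb n k 0 (1 / 5) ∨ ∃ j, θ ∈ nb n k (toT n k (P j)) (r j)
  sum_le : ∀ c, c₀ ≤ c → c ≤ 1 → ∑ j, Real.exp (-c * W j) ≤ δ
  lower : ∀ j, ∀ u ∈ box n k (r j),
    γ₀ * W j ≤ ∑ x, (ev n k (P j) x - z j x + ev n k u x) ^ 2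

/-- Coverings with arbitrarily small exponential sums exist. -/
def CoverExists : Prop :=
  ∃ γ₀ : ℝ, 0 < γ₀ ∧ γ₀ ≤ 1 ∧ ∀ L : ℝ, ∀ᶠ q : ℕ in atTop,
    Nonempty (Cover (30 * q) (11 * q) γ₀ (Real.exp (-(q : ℝ) / 2000)) (Real.exp (-L * q)))

variable {n k : ℕ} {γ₀ c₀ δ : ℝ}

/-- The values at a centre, reduced to `[-1/2, 1/2]`. -/
def Cover.p (C : Cover n k γ₀ c₀ δ) (j : Fin C.m) (x : Cube n) : ℝ := ev n k (C.P j) x - C.z j x

/-- A set of points of the cube keeps a proportion `γ` of all the energies that matter. -/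
def Cover.Good (C : Cover n k γ₀ c₀ δ) (γ : ℝ) (S : Finset (Cube n)) : Prop :=
  (∀ u : Idx n k → ℝ, γ * energy n k u ≤ ∑ x ∈ S, ev n k u x ^ 2) ∧
    ∀ j, ∀ u ∈ box n k (C.r j), γ * C.W j ≤ ∑ x ∈ S, (C.p j x + ev n k u x) ^ 2

lemma Cover.good_univ (C : Cover n k γ₀ c₀ δ) (h : γ₀ ≤ 1) : C.Good γ₀ univ :=
  ⟨fun u => mul_le_of_le_one_left (sum_nonneg fun _ _ => sq_nonneg _) h, fun j u hu => C.lower j u hu⟩

lemma Cover.Good.mono {C : Cover n k γ₀ c₀ δ} {γ : ℝ} {S T : Finset (Cube n)} (h : C.Good γ S)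
    (hST : S ⊆ T) : C.Good γ T :=
  ⟨fun u => (h.1 u).trans (sum_le_sum_of_subset_of_nonneg hST fun _ _ _ => sq_nonneg _),
    fun j u hu => (h.2 j u hu).trans
      (sum_le_sum_of_subset_of_nonneg hST fun _ _ _ => sq_nonneg _)⟩

end Vale.Agent.P047.Disproof
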