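import Vale.Agent.P047.Basic
import Mathlib.MeasureTheory.Integral.Pi
import Mathlib.MeasureTheory.Integral.IntervalIntegral.Periodic
import Mathlib.MeasureTheory.Measure.Lebesgue.Basic
import Mathlib.Analysis.SpecialFunctions.Gaussian.GaussianIntegral
import Mathlib.Analysis.Convex.Function
import Mathlib.Data.Matrix.Mul
import Mathlib.LinearAlgebra.Matrix.Trace

/-!
Shared definitions for the disproof of the square-root bound.

`ev n k θ` is the polynomial of degree `< k` on the `n`-cube with coordinates `θ`, split on the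
first variable: `(a, D) ↦ a (tail x) + [x 0] * D (tail x)`.
-/

namespace Vale.Agent.P047.Disproof

open MeasureTheory Filter

/-- Coordinates of polynomials of degree `< k` on the `n`-cube. -/
abbrev Idx : ℕ → ℕ → Type
  | 0, 0 => Empty
  | 0, _ + 1 => Unit
  | _ + 1, 0 => Empty
  | n + 1, k + 1 => Idx n (k + 1) ⊕ Idx n k

instance instFintypeIdx : ∀ n k, Fintype (Idx n k)
  | 0, 0 => inferInstanceAs (Fintype Empty)
  | 0, _ + 1 => inferInstanceAs (Fintype Unit)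
  | _ + 1, 0 => inferInstanceAs (Fintype Empty)
  | n + 1, k + 1 =>
    haveI := instFintypeIdx n (k + 1)
    haveI := instFintypeIdx n k
    inferInstanceAs (Fintype (Idx n (k + 1) ⊕ Idx n k))

instance instDecidableEqIdx : ∀ n k, DecidableEq (Idx n k)
  | 0, 0 => inferInstanceAs (DecidableEq Empty)
  | 0, _ + 1 => inferInstanceAs (DecidableEq Unit)
  | _ + 1, 0 => inferInstanceAs (DecidableEq Empty)
  | n + 1, k + 1 =>
    haveI := instDecidableEqIdx n (k + 1)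
    haveI := instDecidableEqIdx n k
    inferInstanceAs (DecidableEq (Idx n (k + 1) ⊕ Idx n k))

/-- Evaluation of a polynomial of degree `< k`. -/
def ev {A : Type*} [AddCommGroup A] : ∀ n k, (Idx n k → A) → Cube n → A
  | 0, 0, _, _ => 0
  | 0, _ + 1, θ, _ => θ ()
  | _ + 1, 0, _, _ => 0
  | n + 1, k + 1, θ, x =>
    ev n (k + 1) (fun i => θ (.inl i)) (Fin.tail x) +
      if x 0 then ev n k (fun i => θ (.inr i)) (Fin.tail x) else 0

/-- Torus coordinates. -/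
abbrev Torus (n k : ℕ) := Idx n k → UnitAddCircle

instance : IsProbabilityMeasure (volume : Measure UnitAddCircle) :=
  ⟨UnitAddCircle.measure_univ⟩

instance (n k : ℕ) : IsProbabilityMeasure (volume : Measure (Torus n k)) :=
  inferInstanceAs (IsProbabilityMeasure (Measure.pi fun _ : Idx n k => (volume : Measure UnitAddCircle)))

/-- Squared length of a real polynomial as a function on the cube. -/
def energy (n k : ℕ) (θ : Idx n k → ℝ) : ℝ := ∑ x, ev n k θ x ^ 2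

/-- Squared distance to the integers of a torus polynomial. -/
noncomputable def tenergy (n k : ℕ) (θ : Torus n k) : ℝ := ∑ x, ‖ev n k θ x‖ ^ 2

/-- The Gaussian integral `∫ exp (-c * energy)`. -/
noncomputable def G : ℕ → ℕ → ℝ → ℝ
  | 0, 0, _ => 1
  | 0, _ + 1, c => √(Real.pi / c)
  | _ + 1, 0, _ => 1
  | n + 1, k + 1, c => G n (k + 1) (2 * c) * G n k (c / 2)

/-- Orthogonality to all polynomials of degree `< k`. -/
def Orth (n k : ℕ) (h : Cube n → ℝ) : Prop := ∀ θ : Idx n k → ℝ, ∑ x, h x * ev n k θ x = 0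

/-- Part A: the Gaussian integral on the torus of polynomials is as on the real space. -/
def KeyTheorem : Prop :=
  ∀ L : ℝ, ∀ᶠ q : ℕ in atTop, ∀ c : ℝ, Real.exp (-(q : ℝ) / 2000) ≤ c → c ≤ 1 →
    ∫ θ : Torus (30 * q) (11 * q), Real.exp (-c * tenergy (30 * q) (11 * q) θ) ≤
      (1 + Real.exp (-L * q)) * G (30 * q) (11 * q) c

/-- Part B: an even log-concave product integrates most along the central subspace. -/
def ShiftLemma : Prop :=
  ∀ (ι κ : Type) [Fintype ι] [Fintype κ] (T : (κ → ℝ) →ₗ[ℝ] ι → ℝ) (F : ι → ℝ → ℝ)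
    (w : ι → ℝ) (C α : ℝ),
    (∀ x, ConvexOn ℝ Set.univ (F x)) → (∀ x t, F x (-t) = F x t) →
    (∀ x, 0 ≤ w x) → (∀ x t, w x * t ^ 2 - C ≤ F x t) → 0 < α →
    (∀ θ, α * ∑ i, θ i ^ 2 ≤ ∑ x, w x * T θ x ^ 2) →
    ∀ a : ι → ℝ,
      Integrable (fun θ => Real.exp (-∑ x, F x (T θ x + a x))) ∧
        ∫ θ, Real.exp (-∑ x, F x (T θ x + a x)) ≤ ∫ θ, Real.exp (-∑ x, F x (T θ x))

/-- The signed frame matrix `∑ a x * σ x • v x (v x)ᵀ`. -/
noncomputable def frameMat {ι κ : Type*} [Fintype ι] (v : ι → κ → ℝ) (a : ι → ℝ)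
    (σ : ι → Bool) : Matrix κ κ ℝ :=
  ∑ x, (a x * sgn (σ x)) • Matrix.vecMulVec (v x) (v x)

/-- Part C: trace moments of signed frame matrices, continued to imaginary biases. -/
def MatrixMoment : Prop :=
  ∀ r : ℕ, 0 < r → ∃ C : ℝ, ∀ (ι κ : Type) [Fintype ι] [DecidableEq ι] [Fintype κ] [DecidableEq κ]
    (v : ι → κ → ℝ) (a τ : ι → ℝ) (R η : ℝ),
    (∀ u : κ → ℝ, ∑ x, (v x ⬝ᵥ u) ^ 2 ≤ u ⬝ᵥ u) → (∀ x, v x ⬝ᵥ v x ≤ R) → R ≤ 1 →
    (∀ x, |a x| ≤ 1) → 0 ≤ η → η ≤ 1 → (∀ x, |τ x| ≤ η) →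
      ‖∑ σ : ι → Bool, (∏ x, (1 + (sgn (σ x) : ℂ) * (Complex.I * τ x)) / 2) *
          ((frameMat v a σ ^ (2 * r)).trace : ℂ)‖
        ≤ C * Fintype.card κ * (η + √R) ^ (2 * r) ∧
      (∃ coef : (Fin (2 * r) → ι) → ℝ, (∀ y, |coef y| ≤ 1) ∧
        ∀ σ, (frameMat v a σ ^ (2 * r)).trace = ∑ y, coef y * ∏ j, sgn (σ (y j))) ∧
      ∀ σ (u : κ → ℝ), (u ⬝ᵥ (frameMat v a σ).mulVec u) ^ (2 * r) ≤
        (u ⬝ᵥ u) ^ (2 * r) * (frameMat v a σ ^ (2 * r)).trace

/-- Part D: an integer-valued polynomial of subexponential range close to majority. -/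
def StartFunction : Prop :=
  ∀ ε : ℝ, 0 < ε → ∀ᶠ q : ℕ in atTop, ∃ (i : ℕ) (g : Cube (30 * q) → ℤ),
    2 ≤ i ∧ (i : ℝ) ≤ ε * q ∧ (∀ x, g x % 4 = 2) ∧ (∀ x, |g x| ≤ 2 ^ i) ∧
      DegLE (fun x => (g x : ℝ)) (19 * q) ∧
      (1 - ε) * √(60 * q / Real.pi) ≤ level1 (fun x => (g x : ℝ) / 2 ^ i)

end Vale.Agent.P047.Disproof
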