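import Vale.Agent.P047.Disproof.Phase
import Mathlib.Analysis.Fourier.AddCircle

/-!
Random signs conditioned on orthogonality, as an integral over the torus of polynomials.
-/

namespace Vale.Agent.P047.Disproof

open MeasureTheory Finset Real
open scoped Real

variable {n k : ℕ}

/-- The signs `a` on `S` are orthogonal to polynomials of degree `< k`. -/
def hit (k : ℕ) (S : Finset (Cube n)) (a : Cube n → Bool) : Prop := Orth n k (sgnS S a)

open Classical in
/-- The average of `Φ` on the event `hit`. -/
noncomputable def hitAvg (k : ℕ) (S : Finset (Cube n)) (Φ : (Cube n → Bool) → ℝ) : ℝ :=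
  avg fun a => if hit k S a then Φ a else 0

/-- Every integer polynomial has even sum on `S`. -/
def EvenOn (k : ℕ) (S : Finset (Cube n)) : Prop :=
  ∀ θ : Idx n k → ℤ, (2 : ℤ) ∣ ∑ x ∈ S, ev n k θ x

/-- The Fourier exponent attached to a coordinate and a choice of signs. -/
noncomputable def expo (k : ℕ) (S : Finset (Cube n)) (a : Cube n → Bool) (i : Idx n k) : ℤ :=
  (∑ x ∈ S, (if a x then 1 else -1) * ev n k (fun j => if i = j then (1 : ℤ) else 0) x) / 2

lemma two_mul_expo {S : Finset (Cube n)} (hS : EvenOn k S) (a : Cube n → Bool) (i : Idx n k) :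
    (2 * (expo k S a i : ℝ)) =
      ∑ x ∈ S, sgn (a x) * ev n k (fun j => if i = j then (1 : ℝ) else 0) x := by
  have h2 : (2 : ℤ) ∣
      ∑ x ∈ S, (if a x then 1 else -1) * ev n k (fun j => if i = j then (1 : ℤ) else 0) x := by
    have h := hS fun j => if i = j then 1 else 0
    have : ∀ x, (if a x then 1 else -1) * ev n k (fun j => if i = j then (1 : ℤ) else 0) x =
        ev n k (fun j => if i = j then (1 : ℤ) else 0) x -
          2 * (if a x then 0 else ev n k (fun j => if i = j then (1 : ℤ) else 0) x) := fun x => by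
      split_ifs <;> ring
    simp only [this, sum_sub_distrib, ← mul_sum]
    exact dvd_sub h (dvd_mul_right _ _)
  have := Int.mul_ediv_cancel' h2
  rw [show (2 : ℝ) * (expo k S a i : ℝ) = ((2 * expo k S a i : ℤ) : ℝ) by push_cast; ring,
    expo, this, Int.cast_sum]
  refine sum_congr rfl fun x _ => ?_
  rw [Int.cast_mul]
  congr 1
  · cases a x <;> simp [sgn]
  · refine (map_ev (Int.castAddHom ℝ) n k _ x).trans ?_
    congr 1
    funext j
    split_ifs <;> simp

lemma sum_sgnS_ev {S : Finset (Cube n)} (hS : EvenOn k S) (a : Cube n → Bool)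
    (u : Idx n k → ℝ) :
    ∑ x, sgnS S a x * ev n k u x = 2 * ∑ i, u i * (expo k S a i : ℝ) := by
  simp only [sgnS, ite_mul, zero_mul, sum_ite_mem, univ_inter]
  rw [sum_mul_ev S (fun x => sgn (a x)) u, mul_sum]
  exact sum_congr rfl fun i _ => by rw [← two_mul_expo hS]; ring

lemma hit_iff {S : Finset (Cube n)} (hS : EvenOn k S) (a : Cube n → Bool) :
    hit k S a ↔ ∀ i, expo k S a i = 0 := by
  constructor
  · intro h i
    have := h fun j => if i = j then 1 else 0
    rw [sum_sgnS_ev hS] at this
    simpa using this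
  · intro h u
    rw [sum_sgnS_ev hS]
    simp [h]

/-- The generating function of `Φ` on the torus. -/
noncomputable def GF (k : ℕ) (S : Finset (Cube n)) (Φ : (Cube n → Bool) → ℝ) (θ : Torus n k) :
    ℂ :=
  avg fun a => (Φ a : ℂ) * ∏ i, fourier (expo k S a i) (θ i)

lemma continuous_GF (k : ℕ) (S : Finset (Cube n)) (Φ : (Cube n → Bool) → ℝ) :
    Continuous (GF k S Φ) :=
  (continuous_finsetSum _ fun a _ => continuous_const.mul
    (continuous_finsetProd _ fun i _ => (map_continuous _).comp (continuous_apply i))).div_const _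

lemma GF_toT {S : Finset (Cube n)} (hS : EvenOn k S) (Φ : (Cube n → Bool) → ℝ)
    (u : Idx n k → ℝ) : GF k S Φ (toT n k u) = avgPhase S Φ (ev n k u) := by
  refine congrArg avg (funext fun a => ?_)
  congr 1
  simp only [phase, toT]
  rw [← Complex.exp_sum, ← sum_mul, ← Complex.ofReal_sum]
  simp only [mul_assoc π, ← mul_sum, sum_sgnS_ev hS, fourier_coe_apply]
  rw [← Complex.exp_sum]
  congr 1
  push_cast
  simp only [mul_sum, sum_mul]
  exact sum_congr rfl fun i _ => by ring

lemma integral_fourier (m : ℤ) :
    ∫ t : UnitAddCircle, fourier m t = if m = 0 then 1 else 0 := by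
  split_ifs with h
  · subst h; simp
  · have h1 := integral_add_right_eq_self (μ := (volume : Measure UnitAddCircle))
      (fun t => fourier m t) ((((1 : ℝ) / 2 / m : ℝ)) : UnitAddCircle)
    simp only [fourier_add_half_inv_index h one_pos, integral_neg] at h1
    exact CharZero.neg_eq_self_iff.1 h1

lemma hitAvg_eq_integral {S : Finset (Cube n)} (hS : EvenOn k S) (Φ : (Cube n → Bool) → ℝ) :
    (hitAvg k S Φ : ℂ) = ∫ θ : Torus n k, GF k S Φ θ := by
  classical
  have hi : ∀ a, Integrable fun θ : Torus n k => (Φ a : ℂ) * ∏ i, fourier (expo k S a i) (θ i) :=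
    fun a => (continuous_const.mul (continuous_finsetProd _ fun i _ =>
      (map_continuous _).comp (continuous_apply i))).integrable_of_hasCompactSupport
        (HasCompactSupport.of_compactSpace _)
  simp only [GF, avg, hitAvg]
  rw [integral_div, integral_finsetSum _ fun a _ => hi a, Complex.ofReal_div, Complex.ofReal_sum,
    Complex.ofReal_natCast]
  congr 1
  refine sum_congr rfl fun a _ => ?_
  rw [integral_const_mul,
    integral_fintype_prod_volume_eq_prod (fun i t => fourier (expo k S a i) t)]
  simp only [integral_fourier]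
  by_cases h : hit k S a
  · rw [if_pos h, prod_eq_one fun i _ => if_pos ((hit_iff hS a).1 h i), mul_one]
  · rw [if_neg h]
    obtain ⟨i, hi⟩ := not_forall.1 (mt (hit_iff hS a).2 h)
    rw [prod_eq_zero (Finset.mem_univ i) (if_neg hi), mul_zero, Complex.ofReal_zero]

end Vale.Agent.P047.Disproof
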