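import Vale.Agent.P047.Disproof.Defs
import Mathlib.Analysis.Real.Pi.Bounds

/-!
The recursion for `ev`: linearity, splitting of integrals, and the Gaussian integral on real
polynomials of degree `< k`.
-/

namespace Vale.Agent.P047.Disproof

open MeasureTheory Finset
open scoped ENNReal

variable {A B : Type*} [AddCommGroup A] [AddCommGroup B]

section algebra

@[simp] lemma ev_k_zero (n : ℕ) (θ : Idx n 0 → A) (x : Cube n) : ev n 0 θ x = 0 := by
  cases n <;> rfl

@[simp] lemma ev_n_zero (k : ℕ) (θ : Idx 0 (k + 1) → A) (x : Cube 0) :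
    ev 0 (k + 1) θ x = θ () := rfl

lemma ev_succ (n k : ℕ) (θ : Idx (n + 1) (k + 1) → A) (x : Cube (n + 1)) :
    ev (n + 1) (k + 1) θ x = ev n (k + 1) (fun i => θ (.inl i)) (Fin.tail x) +
      if x 0 then ev n k (fun i => θ (.inr i)) (Fin.tail x) else 0 := rfl

@[simp] lemma ev_elim_false (n k : ℕ) (a : Idx n (k + 1) → A) (D : Idx n k → A) (y : Cube n) :
    ev (n + 1) (k + 1) (Sum.elim a D) (Fin.cons false y) = ev n (k + 1) a y := by
  simp [ev_succ]

@[simp] lemma ev_elim_true (n k : ℕ) (a : Idx n (k + 1) → A) (D : Idx n k → A) (y : Cube n) :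
    ev (n + 1) (k + 1) (Sum.elim a D) (Fin.cons true y) = ev n (k + 1) a y + ev n k D y := by
  simp [ev_succ]

/-- Evaluation commutes with additive maps. -/
lemma map_ev (φ : A →+ B) : ∀ (n k : ℕ) (θ : Idx n k → A) (x : Cube n),
    φ (ev n k θ x) = ev n k (fun i => φ (θ i)) x
  | 0, 0, _, _ => map_zero φ
  | 0, _ + 1, _, _ => rfl
  | _ + 1, 0, _, _ => map_zero φ
  | n + 1, k + 1, θ, x => by
    rw [ev_succ, ev_succ, map_add, map_ev φ n (k + 1)]
    split_ifs
    · rw [map_ev φ n k]
    · rw [map_zero]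

lemma ev_add : ∀ (n k : ℕ) (θ θ' : Idx n k → A) (x : Cube n),
    ev n k (θ + θ') x = ev n k θ x + ev n k θ' x
  | 0, 0, _, _, _ => (add_zero _).symm
  | 0, _ + 1, _, _, _ => rfl
  | _ + 1, 0, _, _, _ => (add_zero _).symm
  | n + 1, k + 1, θ, θ', x => by
    simp only [ev_succ]
    rw [show (fun i => (θ + θ') (.inl i)) = (fun i => θ (.inl i)) + fun i => θ' (.inl i) from rfl,
      show (fun i => (θ + θ') (.inr i)) = (fun i => θ (.inr i)) + fun i => θ' (.inr i) from rfl,
      ev_add n (k + 1), ev_add n k]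
    split_ifs <;> abel

/-- Evaluation as an additive map. -/
def evHom (n k : ℕ) : (Idx n k → A) →+ Cube n → A :=
  AddMonoidHom.mk' (ev n k) fun θ θ' => funext (ev_add n k θ θ')

@[simp] lemma ev_zero (n k : ℕ) (x : Cube n) : ev n k (0 : Idx n k → A) x = 0 :=
  congr_fun (map_zero (evHom (A := A) n k)) x

lemma ev_neg (n k : ℕ) (θ : Idx n k → A) (x : Cube n) : ev n k (-θ) x = -ev n k θ x :=
  congr_fun (map_neg (evHom (A := A) n k) θ) x

lemma ev_sub (n k : ℕ) (θ θ' : Idx n k → A) (x : Cube n) :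
    ev n k (θ - θ') x = ev n k θ x - ev n k θ' x :=
  congr_fun (map_sub (evHom (A := A) n k) θ θ') x

lemma ev_smul (n k : ℕ) (c : ℝ) (θ : Idx n k → ℝ) (x : Cube n) :
    ev n k (c • θ) x = c * ev n k θ x :=
  (map_ev (AddMonoidHom.mulLeft c) n k θ x).symm

/-- Evaluation as a linear map. -/
def evLin (n k : ℕ) : (Idx n k → ℝ) →ₗ[ℝ] Cube n → ℝ where
  toFun := ev n k
  map_add' θ θ' := funext (ev_add n k θ θ')
  map_smul' c θ := funext (ev_smul n k c θ)

@[simp] lemma evLin_apply (n k : ℕ) (θ : Idx n k → ℝ) : evLin n k θ = ev n k θ := rfl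

/-- Evaluation commutes with reduction modulo one. -/
lemma ev_coe (n k : ℕ) (θ : Idx n k → ℝ) (x : Cube n) :
    ((ev n k θ x : ℝ) : UnitAddCircle) = ev n k (fun i => (θ i : UnitAddCircle)) x :=
  map_ev (QuotientAddGroup.mk' _) n k θ x

/-- A polynomial of degree `< k` as one of degree `< k + 1`. -/
def incl : ∀ n k, (Idx n k → A) → Idx n (k + 1) → A
  | 0, 0, _ => 0
  | 0, _ + 1, θ => θ
  | _ + 1, 0, _ => 0
  | n + 1, k + 1, θ =>
    Sum.elim (incl n (k + 1) fun i => θ (.inl i)) (incl n k fun i => θ (.inr i))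

lemma ev_incl : ∀ (n k : ℕ) (θ : Idx n k → A) (x : Cube n),
    ev n (k + 1) (incl n k θ) x = ev n k θ x
  | 0, 0, _, _ => rfl
  | 0, _ + 1, _, _ => rfl
  | n + 1, 0, θ, x => by rw [show incl (n + 1) 0 θ = 0 from rfl, ev_zero, ev_k_zero]
  | n + 1, k + 1, θ, x => by
    simp only [incl, ev_succ, Sum.elim_inl, Sum.elim_inr, ev_incl n (k + 1), ev_incl n k]

lemma sum_sq_incl : ∀ (n k : ℕ) (θ : Idx n k → ℝ),
    ∑ i, incl n k θ i ^ 2 = ∑ i, θ i ^ 2
  | 0, 0, _ => by simp [incl]
  | 0, _ + 1, _ => rfl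
  | _ + 1, 0, _ => by simp [incl]
  | n + 1, k + 1, θ => by
    rw [Fintype.sum_sum_type, Fintype.sum_sum_type]
    simp only [incl, Sum.elim_inl, Sum.elim_inr, sum_sq_incl n (k + 1), sum_sq_incl n k]

/-- The constant polynomial. -/
def cst : ∀ n k, A → Idx n (k + 1) → A
  | 0, _, c => fun _ => c
  | n + 1, k, c => Sum.elim (cst n k c) 0

lemma ev_cst : ∀ (n k : ℕ) (c : A) (x : Cube n), ev n (k + 1) (cst n k c) x = c
  | 0, _, _, _ => rfl
  | n + 1, k, c, x => by
    simp only [cst, ev_succ, Sum.elim_inl, Sum.elim_inr, ev_cst n k]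
    rw [show (fun i : Idx n k => (0 : Idx n k → A) i) = 0 from rfl, ev_zero]
    simp

lemma sum_cube_succ {M : Type*} [AddCommMonoid M] (n : ℕ) (f : Cube (n + 1) → M) :
    ∑ x, f x = ∑ y : Cube n, f (Fin.cons false y) + ∑ y : Cube n, f (Fin.cons true y) := by
  rw [← (Fin.consEquiv fun _ => Bool).sum_comp f, Fintype.sum_prod_type, Fintype.sum_bool, add_comm]
  rfl

lemma prod_cube_succ {M : Type*} [CommMonoid M] (n : ℕ) (f : Cube (n + 1) → M) :
    ∏ x, f x = (∏ y : Cube n, f (Fin.cons false y)) * ∏ y : Cube n, f (Fin.cons true y) := by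
  rw [← (Fin.consEquiv fun _ => Bool).prod_comp f, Fintype.prod_prod_type, Fintype.prod_bool,
    mul_comm]
  rfl

end algebra

section card

lemma card_idx_succ (n k : ℕ) : Fintype.card (Idx (n + 1) (k + 1))
    = Fintype.card (Idx n (k + 1)) + Fintype.card (Idx n k) := Fintype.card_sum

lemma card_idx_pos : ∀ n k, 0 < Fintype.card (Idx n (k + 1))
  | 0, _ => Fintype.card_pos_iff.2 ⟨()⟩
  | n + 1, k => by rw [card_idx_succ]; exact Nat.add_pos_left (card_idx_pos n k) _

lemma card_idx_k_zero (n : ℕ) : Fintype.card (Idx n 0) = 0 := by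
  cases n <;> exact Fintype.card_eq_zero_iff.2 ⟨fun i => i.elim⟩

/-- The number of coordinates is at most `3 ^ k * (4 / 3) ^ n`. -/
lemma card_idx_le : ∀ n k, (Fintype.card (Idx n k) : ℝ) ≤ 3 ^ k * (4 / 3) ^ n
  | n, 0 => by simp [card_idx_k_zero]; positivity
  | 0, k + 1 => by
    rw [show Fintype.card (Idx 0 (k + 1)) = 1 from rfl]
    simpa using one_le_pow₀ (by norm_num : (1 : ℝ) ≤ 3)
  | n + 1, k + 1 => by
    rw [card_idx_succ, Nat.cast_add]
    refine (add_le_add (card_idx_le n (k + 1)) (card_idx_le n k)).trans (le_of_eq ?_)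
    ring

end card

section energy

lemma energy_k_zero (n : ℕ) (θ : Idx n 0 → ℝ) : energy n 0 θ = 0 := by simp [energy]

lemma energy_n_zero (k : ℕ) (θ : Idx 0 (k + 1) → ℝ) : energy 0 (k + 1) θ = θ () ^ 2 := by
  simp [energy]

lemma energy_elim (n k : ℕ) (a : Idx n (k + 1) → ℝ) (D : Idx n k → ℝ) :
    energy (n + 1) (k + 1) (Sum.elim a D)
      = 2 * energy n (k + 1) (a + (1 / 2 : ℝ) • incl n k D) + energy n k D / 2 := by
  simp only [energy, sum_cube_succ, ev_elim_false, ev_elim_true, ev_add, ev_smul, ev_incl,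
    Finset.mul_sum, Finset.sum_div, ← Finset.sum_add_distrib]
  exact Finset.sum_congr rfl fun y _ => by ring

lemma energy_smul (n k : ℕ) (c : ℝ) (θ : Idx n k → ℝ) :
    energy n k (c • θ) = c ^ 2 * energy n k θ := by
  simp only [energy, ev_smul, mul_pow, Finset.mul_sum]

lemma continuous_ev : ∀ (n k : ℕ) (x : Cube n),
    Continuous fun θ : Idx n k → ℝ => ev n k θ x := fun n k x =>
  ((LinearMap.proj x).comp (evLin n k)).continuous_of_finiteDimensional

lemma continuous_energy (n k : ℕ) : Continuous (energy n k) :=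
  continuous_finsetSum _ fun x _ => (continuous_ev n k x).pow 2

/-- The squared value at a point is at most `N / 2 ^ n` times the energy. -/
lemma sq_ev_le : ∀ (n k : ℕ) (θ : Idx n k → ℝ) (x : Cube n),
    ev n k θ x ^ 2 ≤ Fintype.card (Idx n k) / (2 : ℝ) ^ n * energy n k θ
  | n, 0, θ, x => by simp [energy_k_zero]
  | 0, k + 1, θ, x => by simp [energy_n_zero]
  | n + 1, k + 1, θ, x => by
    obtain ⟨a, D, rfl⟩ : ∃ a D, θ = Sum.elim a D :=
      ⟨_, _, (Sum.elim_comp_inl_inr θ).symm⟩
    obtain ⟨x0, y, rfl⟩ : ∃ b y, x = Fin.cons b y := ⟨x 0, Fin.tail x, (Fin.cons_self_tail x).symm⟩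
    set b := a + (1 / 2 : ℝ) • incl n k D with hb
    have hby : ev n (k + 1) b y = ev n (k + 1) a y + ev n k D y / 2 := by
      rw [hb, ev_add, ev_smul, ev_incl]; ring
    have hB := sq_ev_le n (k + 1) b y
    have hD := sq_ev_le n k D y
    have hNa : (0 : ℝ) < Fintype.card (Idx n (k + 1)) := Nat.cast_pos.2 (card_idx_pos n k)
    have hNb : (0 : ℝ) ≤ Fintype.card (Idx n k) := Nat.cast_nonneg _
    have hEb : 0 ≤ energy n (k + 1) b := sum_nonneg fun _ _ => sq_nonneg _
    have hED : 0 ≤ energy n k D := sum_nonneg fun _ _ => sq_nonneg _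
    have hp : (0 : ℝ) < 2 ^ n := by positivity
    rw [energy_elim, ← hb, card_idx_succ, Nat.cast_add, pow_succ]
    have hx : ev (n + 1) (k + 1) (Sum.elim a D) (Fin.cons x0 y) = ev n (k + 1) b y - ev n k D y / 2 ∨
        ev (n + 1) (k + 1) (Sum.elim a D) (Fin.cons x0 y) = ev n (k + 1) b y + ev n k D y / 2 := by
      cases x0
      · left; rw [ev_elim_false, hby]; ring
      · right; rw [ev_elim_true, hby]; ring
    generalize ev (n + 1) (k + 1) (Sum.elim a D) (Fin.cons x0 y) = z₀ at *
    generalize (Fintype.card (Idx n (k + 1)) : ℝ) = u at *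
    generalize (Fintype.card (Idx n k) : ℝ) = v at *
    generalize energy n (k + 1) b = Eb at *
    generalize energy n k D = ED at *
    generalize ev n k D y = d at *
    generalize ev n (k + 1) b y = w at *
    suffices ∀ z, (z = w - d / 2 ∨ z = w + d / 2) →
        z ^ 2 ≤ (u + v) / (2 ^ n * 2) * (2 * Eb + ED / 2) by
      exact this _ hx
    intro z hz
    rw [div_mul_eq_mul_div, le_div_iff₀ (by positivity)]
    rw [div_mul_eq_mul_div, le_div_iff₀ hp] at hB hD
    rcases hv : hNb.eq_or_lt with h0 | hpos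
    · subst h0
      have hd : d = 0 := by
        have : d ^ 2 ≤ 0 := by nlinarith
        exact pow_eq_zero_iff two_ne_zero |>.1 (le_antisymm this (sq_nonneg d))
      subst hd
      have : z = w := by rcases hz with h | h <;> simpa using h
      subst this
      nlinarith [mul_nonneg hNa.le hED]
    · have hz2 : u * v * z ^ 2 ≤ (u + v) * (v * w ^ 2 + u * d ^ 2 / 4) := by
        rcases hz with h | h <;> subst h
        · nlinarith [sq_nonneg (v * w + u * d / 2)]
        · nlinarith [sq_nonneg (v * w - u * d / 2)]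
      have huv : 0 < u * v := mul_pos hNa hpos
      refine le_of_mul_le_mul_left ?_ huv
      calc u * v * (z ^ 2 * (2 ^ n * 2))
          ≤ (u + v) * (v * w ^ 2 + u * d ^ 2 / 4) * (2 ^ n * 2) := by
            rw [← mul_assoc]; exact mul_le_mul_of_nonneg_right hz2 (by positivity)
        _ = (u + v) * (2 * v * (w ^ 2 * 2 ^ n) + u * (d ^ 2 * 2 ^ n) / 2) := by ring
        _ ≤ (u + v) * (2 * v * (u * Eb) + u * (v * ED) / 2) := by
            have := mul_le_mul_of_nonneg_left hB hNb
            have := mul_le_mul_of_nonneg_left hD hNa.le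
            exact mul_le_mul_of_nonneg_left (by linarith) (by linarith)
        _ = u * v * ((u + v) * (2 * Eb + ED / 2)) := by ring

/-- The energy is positive definite. -/
lemma exists_energy_ge : ∀ n k : ℕ, ∃ α : ℝ, 0 < α ∧
    ∀ θ : Idx n k → ℝ, α * ∑ i, θ i ^ 2 ≤ energy n k θ
  | n, 0 => ⟨1, one_pos, fun θ => by
      have : IsEmpty (Idx n 0) := Fintype.card_eq_zero_iff.1 (card_idx_k_zero n)
      simp [energy_k_zero]⟩
  | 0, k + 1 => ⟨1, one_pos, fun θ => by simp [energy_n_zero]⟩
  | n + 1, k + 1 => by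
    obtain ⟨α, hα, ha⟩ := exists_energy_ge n (k + 1)
    obtain ⟨β, hβ, hb⟩ := exists_energy_ge n k
    refine ⟨min α β / 4, by positivity, fun θ => ?_⟩
    obtain ⟨a, D, rfl⟩ : ∃ a D, θ = Sum.elim a D :=
      ⟨_, _, (Sum.elim_comp_inl_inr θ).symm⟩
    rw [energy_elim]
    set b := a + (1 / 2 : ℝ) • incl n k D with hb'
    have hsum : ∑ i, a i ^ 2 ≤ 2 * ∑ i, b i ^ 2 + ∑ i, D i ^ 2 / 2 := by
      have : ∑ i, a i ^ 2 ≤ ∑ i, (2 * b i ^ 2 + incl n k D i ^ 2 / 2) := by
        refine sum_le_sum fun i _ => ?_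
        simp only [hb', Pi.add_apply, Pi.smul_apply, smul_eq_mul]
        nlinarith [sq_nonneg (a i + incl n k D i)]
      rwa [sum_add_distrib, ← mul_sum, ← sum_div, sum_sq_incl, sum_div] at this
    rw [← sum_div] at hsum
    rw [Fintype.sum_sum_type]
    simp only [Sum.elim_inl, Sum.elim_inr]
    have h1 : min α β * ∑ i, b i ^ 2 ≤ energy n (k + 1) b :=
      (mul_le_mul_of_nonneg_right (min_le_left _ _) (by positivity)).trans (ha b)
    have h2 : min α β * ∑ i, D i ^ 2 ≤ energy n k D :=
      (mul_le_mul_of_nonneg_right (min_le_right _ _) (by positivity)).trans (hb D)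
    have h3 := mul_le_mul_of_nonneg_left hsum (le_of_lt (lt_min hα hβ))
    have hm := (lt_min hα hβ).le
    have h4 := mul_nonneg hm (sum_nonneg (s := univ) fun i _ => sq_nonneg (b i))
    have h5 := mul_nonneg hm (sum_nonneg (s := univ) fun i _ => sq_nonneg (D i))
    linear_combination h3 / 4 + 2 * h1 + h2 / 2 + 3 / 2 * h4 + h5 / 8

end energy

section integral

lemma measurable_elim {X : Type*} [MeasurableSpace X] {α β : Type*} :
    Measurable fun p : (α → X) × (β → X) => Sum.elim p.1 p.2 :=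
  measurable_pi_lambda _ fun i => by
    cases i with
    | inl i => exact (measurable_pi_apply i).comp measurable_fst
    | inr i => exact (measurable_pi_apply i).comp measurable_snd

/-- Splitting an integral over the coordinates on the first variable, the first block inside. -/
lemma lintegral_idx_succ {X : Type*} [MeasureSpace X] [SigmaFinite (volume : Measure X)] (n k : ℕ)
    {f : (Idx (n + 1) (k + 1) → X) → ℝ≥0∞} (hf : Measurable f) :
    ∫⁻ θ, f θ = ∫⁻ D : Idx n k → X, ∫⁻ a : Idx n (k + 1) → X, f (Sum.elim a D) := by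
  have h := volume_measurePreserving_sumPiEquivProdPi_symm
    (fun _ : Idx n (k + 1) ⊕ Idx n k => X)
  rw [← h.lintegral_comp_emb (MeasurableEquiv.measurableEmbedding _) f]
  exact lintegral_prod_symm _ (hf.comp measurable_elim).aemeasurable

lemma lintegral_idx_k_zero {X : Type*} [MeasureSpace X] [IsProbabilityMeasure (volume : Measure X)]
    (n : ℕ) (f : (Idx n 0 → X) → ℝ≥0∞) (θ₀ : Idx n 0 → X) : ∫⁻ θ, f θ = f θ₀ := by
  have : IsEmpty (Idx n 0) := Fintype.card_eq_zero_iff.1 (card_idx_k_zero n)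
  rw [show f = fun _ => f θ₀ from funext fun θ => congr_arg f (Subsingleton.elim _ _),
    lintegral_const, volume_pi, Measure.pi_empty_univ, mul_one]

lemma G_k_zero (n : ℕ) (c : ℝ) : G n 0 c = 1 := by cases n <;> rfl

lemma G_pos : ∀ (n k : ℕ) {c : ℝ}, 0 < c → 0 < G n k c
  | n, 0, c, _ => by rw [G_k_zero]; exact one_pos
  | 0, _ + 1, c, hc => Real.sqrt_pos.2 (by positivity)
  | n + 1, k + 1, c, hc => mul_pos (G_pos n (k + 1) (by linarith)) (G_pos n k (by linarith))

lemma lintegral_gauss : ∀ (n k : ℕ) {c : ℝ}, 0 < c →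
    ∫⁻ θ : Idx n k → ℝ, ENNReal.ofReal (Real.exp (-c * energy n k θ)) = ENNReal.ofReal (G n k c)
  | n, 0, c, _ => by
    have : IsEmpty (Idx n 0) := Fintype.card_eq_zero_iff.1 (card_idx_k_zero n)
    simp [energy_k_zero, G_k_zero, volume_pi, Measure.pi_empty_univ]
  | 0, k + 1, c, hc => by
    simp only [energy_n_zero, G]
    have h := (volume_preserving_funUnique Unit ℝ).lintegral_comp_emb
      (MeasurableEquiv.measurableEmbedding _) fun t => ENNReal.ofReal (Real.exp (-c * t ^ 2))
    refine h.trans ?_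
    rw [← ofReal_integral_eq_lintegral_ofReal (integrable_exp_neg_mul_sq hc)
        (Filter.Eventually.of_forall fun t => (Real.exp_pos _).le), integral_gaussian]
  | n + 1, k + 1, c, hc => by
    have hm : Measurable fun θ : Idx (n + 1) (k + 1) → ℝ =>
        ENNReal.ofReal (Real.exp (-c * energy (n + 1) (k + 1) θ)) :=
      (ENNReal.continuous_ofReal.comp (Real.continuous_exp.comp
        (continuous_const.mul (continuous_energy _ _)))).measurable
    rw [lintegral_idx_succ n k hm]
    simp only [energy_elim]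
    have h1 : ∀ D : Idx n k → ℝ, ∫⁻ a : Idx n (k + 1) → ℝ, ENNReal.ofReal (Real.exp
        (-c * (2 * energy n (k + 1) (a + (1 / 2 : ℝ) • incl n k D) + energy n k D / 2)))
        = ENNReal.ofReal (G n (k + 1) (2 * c))
          * ENNReal.ofReal (Real.exp (-(c / 2) * energy n k D)) := by
      intro D
      rw [lintegral_add_right_eq_self (μ := (volume : Measure (Idx n (k + 1) → ℝ)))
        (fun b => ENNReal.ofReal (Real.exp (-c * (2 * energy n (k + 1) b + energy n k D / 2))))
        ((1 / 2 : ℝ) • incl n k D)]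
      rw [← lintegral_gauss n (k + 1) (by linarith : (0 : ℝ) < 2 * c),
        ← lintegral_mul_const' _ _ ENNReal.ofReal_ne_top]
      refine lintegral_congr fun b => ?_
      rw [← ENNReal.ofReal_mul (Real.exp_pos _).le, ← Real.exp_add]
      ring_nf
    simp only [h1]
    rw [lintegral_const_mul' _ _ ENNReal.ofReal_ne_top, lintegral_gauss n k (by linarith),
      ← ENNReal.ofReal_mul (G_pos n (k + 1) (by linarith)).le]
    rfl

lemma integrable_gauss (n k : ℕ) {c : ℝ} (hc : 0 < c) :
    Integrable fun θ : Idx n k → ℝ => Real.exp (-c * energy n k θ) := by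
  refine ⟨(Real.continuous_exp.comp
    (continuous_const.mul (continuous_energy n k))).aestronglyMeasurable, ?_⟩
  rw [hasFiniteIntegral_iff_ofReal (Filter.Eventually.of_forall fun _ => (Real.exp_pos _).le),
    lintegral_gauss n k hc]
  exact ENNReal.ofReal_lt_top

lemma integral_gauss (n k : ℕ) {c : ℝ} (hc : 0 < c) :
    ∫ θ : Idx n k → ℝ, Real.exp (-c * energy n k θ) = G n k c := by
  rw [integral_eq_lintegral_of_nonneg_ae (Filter.Eventually.of_forall fun _ => (Real.exp_pos _).le)
    (integrable_gauss n k hc).1, lintegral_gauss n k hc, ENNReal.toReal_ofReal (G_pos n k hc).le]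

/-- Scaling of the Gaussian integral, in logarithmic form. -/
lemma log_G_mul : ∀ (n k : ℕ) {c l : ℝ}, 0 < c → 0 < l →
    Real.log (G n k (l * c)) = Real.log (G n k c) - Fintype.card (Idx n k) / 2 * Real.log l
  | n, 0, c, l, _, _ => by simp [G_k_zero, card_idx_k_zero]
  | 0, k + 1, c, l, hc, hl => by
    simp only [G, show Fintype.card (Idx 0 (k + 1)) = 1 from rfl]
    rw [Real.log_sqrt (by positivity), Real.log_sqrt (by positivity),
      Real.log_div Real.pi_ne_zero (by positivity), Real.log_div Real.pi_ne_zero hc.ne',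
      Real.log_mul hl.ne' hc.ne']
    simp only [Nat.cast_one]
    ring
  | n + 1, k + 1, c, l, hc, hl => by
    simp only [G]
    rw [show 2 * (l * c) = l * (2 * c) by ring, show l * c / 2 = l * (c / 2) by ring,
      Real.log_mul (G_pos _ _ (by positivity)).ne' (G_pos _ _ (by positivity)).ne',
      Real.log_mul (G_pos _ _ (by positivity)).ne' (G_pos _ _ (by positivity)).ne',
      log_G_mul n (k + 1) (by linarith) hl, log_G_mul n k (by linarith) hl, card_idx_succ,
      Nat.cast_add]
    ring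

/-- A crude lower bound for the Gaussian integral. -/
lemma log_G_ge : ∀ (n k : ℕ) {c C : ℝ}, 0 < c → c ≤ C →
    -(Fintype.card (Idx n k) / 2 * Real.log ((2 : ℝ) ^ n * C)) ≤ Real.log (G n k c)
  | n, 0, c, C, _, _ => by simp [G_k_zero, card_idx_k_zero]
  | 0, k + 1, c, C, hc, hC => by
    simp only [G, show Fintype.card (Idx 0 (k + 1)) = 1 from rfl, pow_zero, one_mul, Nat.cast_one]
    rw [Real.log_sqrt (by positivity), Real.log_div Real.pi_ne_zero hc.ne']
    have h1 : 0 ≤ Real.log Real.pi := Real.log_nonneg (by linarith [Real.pi_gt_three])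
    have h2 := Real.log_le_log hc hC
    linarith
  | n + 1, k + 1, c, C, hc, hC => by
    simp only [G]
    have h1 := log_G_ge n (k + 1) (c := 2 * c) (C := 2 * C) (by linarith) (by linarith)
    have h2 := log_G_ge n k (c := c / 2) (C := 2 * C) (by linarith) (by linarith)
    rw [Real.log_mul (G_pos _ _ (by positivity)).ne' (G_pos _ _ (by positivity)).ne',
      card_idx_succ, Nat.cast_add, show (2 : ℝ) ^ (n + 1) * C = 2 ^ n * (2 * C) by ring]
    linarith

end integral

section perm

open Equiv in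
/-- A transposition with the first coordinate acts on polynomials by relabelling coefficients. -/
lemma exists_relabel_swap : ∀ (n k : ℕ) (i : Fin (n + 1)), ∃ e : Idx (n + 1) k ≃ Idx (n + 1) k,
    ∀ (A : Type) [AddCommGroup A] (θ : Idx (n + 1) k → A) (x : Cube (n + 1)),
      ev (n + 1) k (θ ∘ e) x = ev (n + 1) k θ (x ∘ swap 0 i)
  | n, 0, i => ⟨Equiv.refl _, fun A _ θ x => by simp⟩
  | 0, k + 1, i => ⟨Equiv.refl _, fun A _ θ x => by
      rw [show i = 0 from Fin.ext (by omega), swap_self]; rfl⟩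
  | m + 1, k + 1, i => by
    have h01 : ∃ e : Idx (m + 2) (k + 1) ≃ Idx (m + 2) (k + 1),
        ∀ (A : Type) [AddCommGroup A] (θ : Idx (m + 2) (k + 1) → A) (x : Cube (m + 2)),
          ev (m + 2) (k + 1) (θ ∘ e) x = ev (m + 2) (k + 1) θ (x ∘ swap 0 1) := by
      cases k with
      | zero =>
        refine ⟨Equiv.refl _, fun A _ θ x => ?_⟩
        simp only [ev_succ, ev_k_zero, Fin.tail, ite_self, add_zero, Equiv.coe_refl, id_eq,
          Function.comp_apply, Fin.succ_zero_eq_one]
        congr 1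
      | succ k =>
        refine ⟨sumSumSumComm _ _ _ _, fun A _ θ x => ?_⟩
        have ht : ∀ y : Cube (m + 2), Fin.tail (Fin.tail (y ∘ swap 0 1)) = Fin.tail (Fin.tail y) := by
          intro y; funext j
          simp only [Fin.tail, Function.comp_apply]
          rw [swap_apply_of_ne_of_ne (Fin.succ_ne_zero _)]
          exact fun h => Fin.succ_ne_zero j (Fin.succ_injective _ (h.trans Fin.succ_zero_eq_one.symm))
        simp only [ev_succ, ht]
        have e1 : ∀ i, sumSumSumComm (Idx m (k + 2)) (Idx m (k + 1)) (Idx m (k + 1)) (Idx m k)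
            (.inl (.inl i)) = .inl (.inl i) := fun _ => rfl
        have e2 : ∀ i, sumSumSumComm (Idx m (k + 2)) (Idx m (k + 1)) (Idx m (k + 1)) (Idx m k)
            (.inl (.inr i)) = .inr (.inl i) := fun _ => rfl
        have e3 : ∀ i, sumSumSumComm (Idx m (k + 2)) (Idx m (k + 1)) (Idx m (k + 1)) (Idx m k)
            (.inr (.inl i)) = .inl (.inr i) := fun _ => rfl
        have e4 : ∀ i, sumSumSumComm (Idx m (k + 2)) (Idx m (k + 1)) (Idx m (k + 1)) (Idx m k)
            (.inr (.inr i)) = .inr (.inr i) := fun _ => rfl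
        simp only [Function.comp_apply, Fin.tail, Fin.succ_zero_eq_one, swap_apply_left,
          swap_apply_right, e1, e2, e3, e4]
        split_ifs <;> abel
    have h01ne : (0 : Fin (m + 2)) ≠ 1 := by simp
    induction i using Fin.cases with
    | zero => exact ⟨Equiv.refl _, fun A _ θ x => by rw [swap_self]; rfl⟩
    | succ j =>
      obtain ⟨e, he⟩ := h01
      obtain ⟨e₁, he₁⟩ := exists_relabel_swap m (k + 1) j
      obtain ⟨e₂, he₂⟩ := exists_relabel_swap m k j
      set e' : Idx (m + 2) (k + 1) ≃ Idx (m + 2) (k + 1) := Equiv.sumCongr e₁ e₂ with he'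
      have hl : ∀ (A : Type) [AddCommGroup A] (θ : Idx (m + 2) (k + 1) → A) (x : Cube (m + 2)),
          ev (m + 2) (k + 1) (θ ∘ e') x = ev (m + 2) (k + 1) θ (x ∘ swap 1 j.succ) := by
        intro A _ θ x
        have ht : Fin.tail (x ∘ swap 1 j.succ) = Fin.tail x ∘ swap 0 j := by
          funext l
          simp only [Fin.tail, Function.comp_apply, ← Fin.succ_zero_eq_one,
            ← (Fin.succ_injective _).map_swap]
        have h0 : (x ∘ swap 1 j.succ) 0 = x 0 := by
          simp only [Function.comp_apply]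
          rw [swap_apply_of_ne_of_ne h01ne (Fin.succ_ne_zero j).symm]
        rw [ev_succ (m + 1) k θ, ev_succ (m + 1) k (θ ∘ e'), ht, h0, ← he₁ A, ← he₂ A]
        rfl
      by_cases hj : j = 0
      · subst hj; exact ⟨e, fun A _ θ x => by rw [Fin.succ_zero_eq_one]; exact he A θ x⟩
      refine ⟨e'.trans (e.trans e'), fun A _ θ x => ?_⟩
      have hj' : (0 : Fin (m + 2)) ≠ j.succ := (Fin.succ_ne_zero j).symm
      have hswap : swap (0 : Fin (m + 2)) j.succ = swap 1 j.succ * swap 0 1 * swap 1 j.succ :=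
        (swap_comm _ _).trans (swap_mul_swap_mul_swap h01ne hj').symm
      rw [hswap]
      calc ev (m + 2) (k + 1) (θ ∘ (e'.trans (e.trans e'))) x
          = ev (m + 2) (k + 1) (((θ ∘ e') ∘ e) ∘ e') x := rfl
        _ = _ := by rw [hl, he, hl]; rfl

end perm

end Vale.Agent.P047.Disproof
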