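import Vale.Agent.P047.Disproof.Gauss
import Mathlib.MeasureTheory.Constructions.Polish.Basic
import Mathlib.MeasureTheory.Group.Measure
import Mathlib.Analysis.Normed.Module.FiniteDimension

/-!
Boxes of real polynomials, their images on the torus, and unfolding of integrals over them.
-/

namespace Vale.Agent.P047.Disproof

open MeasureTheory Set Finset

variable {n k : ℕ}

/-- Reduction modulo one. -/
def toT (n k : ℕ) (u : Idx n k → ℝ) : Torus n k := fun i => (u i : UnitAddCircle)

/-- The polynomials with all values in `[-r, r]`. -/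
def box (n k : ℕ) (r : ℝ) : Set (Idx n k → ℝ) := {u | ∀ x, |ev n k u x| ≤ r}

/-- The neighbourhood of a torus polynomial. -/
def nb (n k : ℕ) (P : Torus n k) (r : ℝ) : Set (Torus n k) := (fun u => P + toT n k u) '' box n k r

lemma toT_add (u v : Idx n k → ℝ) : toT n k (u + v) = toT n k u + toT n k v := rfl

lemma toT_sub (u v : Idx n k → ℝ) : toT n k (u - v) = toT n k u - toT n k v := rfl

lemma toT_zero : toT n k 0 = 0 := rfl

lemma toT_neg (u : Idx n k → ℝ) : toT n k (-u) = -toT n k u := rfl

lemma continuous_toT : Continuous (toT n k) :=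
  continuous_pi fun i => (AddCircle.continuous_mk' (1 : ℝ)).comp (continuous_apply i)

lemma ev_toT (u : Idx n k → ℝ) (x : Cube n) :
    ev n k (toT n k u) x = ((ev n k u x : ℝ) : UnitAddCircle) := (ev_coe n k u x).symm

lemma toT_surjective : Function.Surjective (toT n k) := fun θ => by
  choose u hu using fun i => QuotientAddGroup.mk_surjective (θ i)
  exact ⟨u, funext hu⟩

lemma continuous_ev_torus (x : Cube n) : Continuous fun θ : Torus n k => ev n k θ x := by
  induction n generalizing k with
  | zero => cases k <;> simp only [ev] <;> fun_prop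
  | succ n ih =>
    cases k with
    | zero => simp only [ev]; fun_prop
    | succ k =>
      simp only [ev]
      refine Continuous.add ((ih (k := k + 1) _).comp (by fun_prop)) ?_
      split_ifs
      · exact (ih (k := k) _).comp (by fun_prop)
      · exact continuous_const

lemma continuous_tenergy : Continuous (tenergy n k) :=
  continuous_finsetSum _ fun x _ => (continuous_ev_torus x).norm.pow 2

lemma energy_eq_zero {u : Idx n k → ℝ} (h : energy n k u = 0) : u = 0 := by
  obtain ⟨α, hα, h'⟩ := exists_energy_ge n k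
  have h1 : ∑ i, u i ^ 2 = 0 := le_antisymm
    (nonpos_of_mul_nonpos_right (h ▸ h' u : α * ∑ i, u i ^ 2 ≤ 0) hα)
    (sum_nonneg fun _ _ => sq_nonneg _)
  funext i
  exact pow_eq_zero_iff two_ne_zero |>.1
    ((sum_eq_zero_iff_of_nonneg fun _ _ => sq_nonneg _).1 h1 i (Finset.mem_univ i))

lemma ev_injective : Function.Injective (ev (A := ℝ) n k) := fun u v h => by
  refine sub_eq_zero.1 (energy_eq_zero ?_)
  simp [energy, ev_sub, h]

lemma isCompact_box (r : ℝ) : IsCompact (box n k r) := by
  have h : Topology.IsClosedEmbedding (evLin n k) :=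
    LinearMap.isClosedEmbedding_of_injective (LinearMap.ker_eq_bot.2 ev_injective)
  have : box n k r = evLin n k ⁻¹' Set.univ.pi fun _ => Icc (-r) r := by
    ext u; simp [box, abs_le, forall_and, Pi.le_def]
  rw [this]
  exact h.isCompact_preimage (isCompact_univ_pi fun _ => isCompact_Icc)

lemma convex_box (r : ℝ) : Convex ℝ (box n k r) := by
  intro u hu v hv a b ha hb hab x
  rw [ev_add, ev_smul, ev_smul]
  calc |a * ev n k u x + b * ev n k v x| ≤ |a * ev n k u x| + |b * ev n k v x| := abs_add_le _ _
    _ ≤ a * r + b * r := by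
        rw [abs_mul, abs_mul, abs_of_nonneg ha, abs_of_nonneg hb]
        exact add_le_add (mul_le_mul_of_nonneg_left (hu x) ha) (mul_le_mul_of_nonneg_left (hv x) hb)
    _ = r := by rw [← add_mul, hab, one_mul]

lemma zero_mem_box {r : ℝ} (hr : 0 ≤ r) : (0 : Idx n k → ℝ) ∈ box n k r := fun x => by simp [hr]

lemma neg_mem_box {r : ℝ} {u : Idx n k → ℝ} (h : u ∈ box n k r) : -u ∈ box n k r := fun x => by
  rw [ev_neg, abs_neg]; exact h x

lemma add_mem_box {r s : ℝ} {u v : Idx n k → ℝ} (hu : u ∈ box n k r) (hv : v ∈ box n k s) :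
    u + v ∈ box n k (r + s) := fun x => by
  rw [ev_add]; exact (abs_add_le _ _).trans (add_le_add (hu x) (hv x))

lemma box_mono {r s : ℝ} (h : r ≤ s) : box n k r ⊆ box n k s := fun _ hu x => (hu x).trans h

lemma self_mem_nb (P : Torus n k) {r : ℝ} (hr : 0 ≤ r) : P ∈ nb n k P r :=
  ⟨0, zero_mem_box hr, by simp [toT_zero]⟩

lemma mem_nb_symm {P θ : Torus n k} {r : ℝ} (h : θ ∈ nb n k P r) : P ∈ nb n k θ r := by
  obtain ⟨u, hu, rfl⟩ := h
  exact ⟨-u, neg_mem_box hu, by simp [toT_neg]⟩

lemma mem_nb_trans {P Q θ : Torus n k} {r s : ℝ} (h : θ ∈ nb n k Q r) (h' : Q ∈ nb n k P s) :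
    θ ∈ nb n k P (s + r) := by
  obtain ⟨u, hu, rfl⟩ := h
  obtain ⟨v, hv, rfl⟩ := h'
  exact ⟨v + u, add_mem_box hv hu, by simp [toT_add, add_assoc]⟩

lemma nb_mono (P : Torus n k) {r s : ℝ} (h : r ≤ s) : nb n k P r ⊆ nb n k P s :=
  image_mono (box_mono h)

lemma isCompact_nb (P : Torus n k) (r : ℝ) : IsCompact (nb n k P r) :=
  (isCompact_box r).image (continuous_const.add continuous_toT)

lemma measurableSet_nb (P : Torus n k) (r : ℝ) : MeasurableSet (nb n k P r) :=
  (isCompact_nb P r).isClosed.measurableSet

/-- Small real polynomials are determined by their reductions. -/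
lemma injOn_toT {r : ℝ} (hr : 2 * r < 1) : InjOn (toT n k) (box n k r) := by
  intro u hu v hv h
  choose m hm using fun i => by
    have := congr_fun h i
    exact AddSubgroup.mem_zmultiples_iff.1 ((QuotientAddGroup.eq_iff_sub_mem).1 this)
  simp only [zsmul_eq_mul, mul_one] at hm
  refine ev_injective (funext fun x => ?_)
  have e : ev n k u x - ev n k v x = ((ev n k m x : ℤ) : ℝ) := by
    rw [← ev_sub]
    exact (congrArg (ev n k · x) (funext fun i => (hm i).symm)).trans
      (map_ev (Int.castAddHom ℝ) n k m x).symm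
  have h1 : |((ev n k m x : ℤ) : ℝ)| < 1 := by
    rw [← e]; refine lt_of_le_of_lt (abs_sub _ _) ?_
    linarith [hu x, hv x]
  have h2 : ev n k m x = 0 := by
    have : |ev n k m x| < 1 := by exact_mod_cast h1
    exact Int.abs_lt_one_iff.1 this
  rw [h2] at e
  simpa [sub_eq_zero] using e

lemma measurePreserving_toT (a : Idx n k → ℝ) :
    MeasurePreserving (toT n k)
      (volume.restrict (Set.univ.pi fun i => Ioc (a i) (a i + 1))) volume := by
  have h := measurePreserving_pi (fun i => (volume : Measure ℝ).restrict (Ioc (a i) (a i + 1)))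
    (fun _ => (volume : Measure UnitAddCircle)) fun i => AddCircle.measurePreserving_mk 1 (a i)
  rwa [← Measure.restrict_pi_pi] at h

/-- Reduction preserves the volume of the sets on which it is injective. -/
lemma volume_image_toT {B : Set (Idx n k → ℝ)} (hB : MeasurableSet B) (hi : InjOn (toT n k) B) :
    volume (toT n k '' B) = volume B := by
  set cell : (Idx n k → ℤ) → Set (Idx n k → ℝ) :=
    fun z => Set.univ.pi fun i => Ioc (z i : ℝ) (z i + 1) with hcell
  have hmem : ∀ u z, u ∈ cell z ↔ ∀ i, ⌈u i⌉ = z i + 1 := fun u z => by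
    simp only [hcell, Set.mem_pi, Set.mem_univ, true_implies, Int.ceil_eq_iff, Set.mem_Ioc]
    push_cast; simp
  have hcm : ∀ z, MeasurableSet (cell z) := fun z => MeasurableSet.univ_pi fun _ => measurableSet_Ioc
  have hcover : ⋃ z, B ∩ cell z = B := by
    rw [← inter_iUnion, inter_eq_left]
    exact fun u _ => mem_iUnion.2 ⟨fun i => ⌈u i⌉ - 1, (hmem _ _).2 fun i => by ring⟩
  have hdisj : Pairwise (Function.onFun Disjoint fun z => B ∩ cell z) := fun z w hzw =>
    Set.disjoint_left.2 fun u h h' => hzw (funext fun i => by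
      have := (hmem u z).1 h.2 i; have := (hmem u w).1 h'.2 i; omega)
  have him : ∀ z, MeasurableSet (toT n k '' (B ∩ cell z)) := fun z =>
    (hB.inter (hcm z)).image_of_continuousOn_injOn continuous_toT.continuousOn
      (hi.mono inter_subset_left)
  have hpart : ∀ z, volume (toT n k '' (B ∩ cell z)) = volume (B ∩ cell z) := fun z => by
    rw [← (measurePreserving_toT fun i => (z i : ℝ)).measure_preimage (him z).nullMeasurableSet,
      Measure.restrict_apply (continuous_toT.measurable (him z))]
    congr 1
    refine Subset.antisymm ?_ fun u hu => ⟨mem_image_of_mem _ hu, hu.2⟩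
    rintro u ⟨⟨v, hv, he⟩, hu⟩
    suffices u = v by rwa [this]
    have he' : ∀ i, ((u i : ℝ) : UnitAddCircle) = v i := fun i => (congr_fun he i).symm
    funext i
    exact (AddCircle.coe_eq_coe_iff_of_mem_Ioc (hp := ⟨one_pos⟩) (a := (z i : ℝ))
      (hu i (mem_univ i)) (hv.2 i (mem_univ i))).1 (he' i)
  conv_lhs => rw [← hcover, image_iUnion]
  conv_rhs => rw [← hcover]
  rw [measure_iUnion ?_ him, measure_iUnion hdisj fun z => hB.inter (hcm z)]
  · exact tsum_congr hpart
  · intro z w hzw
    exact (hi.image_inter inter_subset_left inter_subset_left).symm.subset |> fun h =>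
      Set.disjoint_iff.2 (h.trans (by rw [(hdisj hzw).inter_eq, image_empty]))

/-- Unfolding: the volume on a neighbourhood is the image of the volume on the box. -/
lemma map_restrict_box (P : Torus n k) {r : ℝ} (hr : 2 * r < 1) :
    (volume.restrict (box n k r)).map (fun u => P + toT n k u) = volume.restrict (nb n k P r) := by
  have hg : Continuous fun u => P + toT n k u := continuous_const.add continuous_toT
  have hB := (isCompact_box (n := n) (k := k) r).isClosed.measurableSet
  ext A hA
  rw [Measure.map_apply hg.measurable hA, Measure.restrict_apply (hg.measurable hA),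
    Measure.restrict_apply hA, nb, inter_comm A, ← image_inter_preimage, inter_comm,
    ← volume_image_toT (hB.inter (hg.measurable hA)) ((injOn_toT hr).mono inter_subset_left),
    ← Set.image_image (fun θ => P + θ) (toT n k), Set.image_add_left, measure_preimage_add]

lemma setIntegral_nb {E : Type*} [NormedAddCommGroup E] [NormedSpace ℝ E] (P : Torus n k) {r : ℝ}
    (hr : 2 * r < 1) {g : Torus n k → E} (hg : Continuous g) :
    ∫ θ in nb n k P r, g θ = ∫ u in box n k r, g (P + toT n k u) := by
  rw [← map_restrict_box P hr,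
    integral_map (φ := fun u => P + toT n k u) (continuous_const.add continuous_toT).aemeasurable
      hg.aestronglyMeasurable]

end Vale.Agent.P047.Disproof
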