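import Vale.Agent.P047.Disproof.Assembly
import Vale.Agent.P047.Compose
import Mathlib.Analysis.SpecialFunctions.Log.Base
import Mathlib.Analysis.SpecialFunctions.Pow.Asymptotics

/-!
Composition turns one function beating the square root bound into polynomially faster growth.
-/

namespace Vale.Agent.P047.Disproof

open Finset

/-- The first level grows at least like a power of the degree with exponent above one half. -/
theorem exists_growth :
    ∃ α c : ℝ, 1 / 2 < α ∧ 0 < c ∧ ∀ d : ℕ, 1 ≤ d →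
      ∃ (n : ℕ) (f : Cube n → ℝ), IsBool f ∧ DegLE f d ∧ c * (d : ℝ) ^ α ≤ level1 f := by
  obtain ⟨n, f, d₀, hf, hd₀, hL⟩ := exists_counterexample
  have hd1 : 1 ≤ d₀ := by
    by_contra h
    have h0 : level1 f = 0 := Finset.sum_eq_zero fun i _ => hd₀ _ (by simp; omega)
    rw [h0] at hL
    linarith [Real.sqrt_nonneg ((d₀ + 1 : ℕ) : ℝ)]
  obtain ⟨b, hb⟩ := level1_le_oddExt f
  have hg := oddExt_isBool hf b (f := f)
  have hgd := degLE_oddExt hd₀ b
  have hg0 := balanced_oddExt f b
  set D := d₀ + 1 with hD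
  set l := level1 (oddExt b f) with hl
  have hlD : √(D : ℝ) < l := hL.trans_le hb
  have hD1 : (1 : ℝ) < D := by exact_mod_cast (by omega : 1 < D)
  have hl0 : 0 < l := (Real.sqrt_nonneg _).trans_lt hlD
  set α := Real.logb D l with hα
  have hαl : (D : ℝ) ^ α = l := Real.rpow_logb (by linarith) hD1.ne' hl0
  have hhalf : 1 / 2 < α := by
    rw [← Real.rpow_lt_rpow_left_iff hD1, hαl, ← Real.sqrt_eq_rpow]
    exact hlD
  have hα0 : 0 ≤ α := by linarith
  refine ⟨α, ((D : ℝ) ^ α)⁻¹, hhalf, by positivity, fun d hd => ?_⟩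
  have hDpow : 0 < (D : ℝ) ^ α := by positivity
  rcases lt_or_ge d D with hlt | hge
  · refine ⟨1, fun x => sgn (x 0), fun x => by cases h : x 0 <;> simp [sgn, h], fun S hS => ?_, ?_⟩
    · have := S.card_le_univ
      simp at this
      omega
    · have h1 : level1 (fun x : Cube 1 => sgn (x 0)) = 1 := by
        simp [level1, fhat, chi, sgn_mul_self]
      rw [h1, inv_mul_le_iff₀ hDpow, mul_one]
      exact Real.rpow_le_rpow (Nat.cast_nonneg _) (by exact_mod_cast hlt.le) hα0
  · set k := Nat.log D d with hk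
    have hk1 : 0 < k := Nat.log_pos (by omega) hge
    obtain ⟨N, G, hG, hGd, -, hGl⟩ := exists_power hg hgd hg0 (k - 1)
    rw [show k - 1 + 1 = k by omega] at hGd hGl
    have hle : D ^ k ≤ d := Nat.pow_log_le_self D (by omega)
    have hlt' : d < D ^ (k + 1) := Nat.lt_pow_succ_log_self (by omega) d
    refine ⟨N, G, hG, fun S hS => hGd S (lt_of_le_of_lt hle hS), ?_⟩
    rw [hGl, ← hl, ← hαl, inv_mul_le_iff₀ hDpow, ← pow_succ',
      Real.rpow_pow_comm (Nat.cast_nonneg _)]
    exact Real.rpow_le_rpow (Nat.cast_nonneg _) (by exact_mod_cast hlt'.le) hα0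

/-- Neither form of the square root bound holds. -/
theorem not_sqrt_bounds :
    (¬∀ (n : ℕ) (f : Cube n → ℝ) (d : ℕ), IsBool f → DegLE f d → level1 f ≤ √d) ∧
      ¬∃ C : ℝ, ∀ (n : ℕ) (f : Cube n → ℝ) (d : ℕ), IsBool f → DegLE f d → level1 f ≤ C * √d := by
  obtain ⟨n, f, d, hf, hd, hL⟩ := exists_counterexample
  refine ⟨fun H => ?_, fun H => ?_⟩
  · exact absurd hL (not_lt.2 (((H n f d hf hd)).trans (Real.sqrt_le_sqrt (by simp))))
  · exact absurd hL (not_lt.2 (forms_tfae.2.1 (forms_tfae.1.1 H) n f d hf hd))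

end Vale.Agent.P047.Disproof
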