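import Mathlib.Analysis.SpecialFunctions.Trigonometric.ArctanDeriv
import Mathlib.Analysis.SpecialFunctions.Trigonometric.DerivHyp
import Mathlib.MeasureTheory.Integral.IntervalIntegral.FundThmCalculus
import Mathlib.Analysis.Convex.Deriv
import Mathlib.Analysis.Convex.SpecificFunctions.Basic
import Mathlib.Analysis.SpecialFunctions.Trigonometric.Bounds
import Mathlib.Analysis.Complex.Trigonometric
import Mathlib.Analysis.Complex.ExponentialBounds
import Mathlib.Analysis.SpecialFunctions.Trigonometric.Series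
import Mathlib.Analysis.Real.Pi.Bounds

/-!
The log-concave majorant `exp (-F)` of `|cos (π t)|`: the two agree near zero, `F` is even and
`F t - t ^ 2` is convex.
-/

namespace Vale.Agent.P047.Disproof

open Real intervalIntegral

/-- The derivative of `-log |cos (π t)| - t ^ 2`. -/
noncomputable def psi (t : ℝ) : ℝ := π * tan (π * t) - 2 * t

/-- Clamping to `[-1/5, 1/5]`. -/
noncomputable def clamp (t : ℝ) : ℝ := max (-(1 / 5)) (min (1 / 5) t)

/-- The convex part of the potential. -/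
noncomputable def E (t : ℝ) : ℝ := ∫ s in (0 : ℝ)..t, psi (clamp s)

/-- The potential. -/
noncomputable def F (t : ℝ) : ℝ := t ^ 2 + E t

lemma cos_pi_mul_pos {t : ℝ} (h : |t| < 1 / 2) : 0 < cos (π * t) := by
  obtain ⟨h1, h2⟩ := abs_lt.1 h
  have := pi_pos
  exact cos_pos_of_mem_Ioo ⟨by nlinarith, by nlinarith⟩

lemma hasDerivAt_psi {t : ℝ} (h : |t| < 1 / 2) :
    HasDerivAt psi (π * (1 / cos (π * t) ^ 2 * π) - 2) t := by
  have h1 : HasDerivAt (fun s => π * s) π t := by simpa using (hasDerivAt_id t).const_mul π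
  have h2 := ((Real.hasDerivAt_tan (cos_pi_mul_pos h).ne').comp t h1).const_mul π
  have h3 := h2.sub ((hasDerivAt_id t).const_mul 2)
  simp only [mul_one] at h3
  exact h3

lemma psi_mono : MonotoneOn psi (Set.Ioo (-(1 / 2)) (1 / 2)) := by
  have hmem : ∀ t ∈ Set.Ioo (-(1 / 2) : ℝ) (1 / 2), |t| < 1 / 2 := fun t ht => abs_lt.2 ⟨ht.1, ht.2⟩
  refine monotoneOn_of_hasDerivWithinAt_nonneg (f' := fun t => π * (1 / cos (π * t) ^ 2 * π) - 2)
    (convex_Ioo _ _) (fun t ht => (hasDerivAt_psi (hmem t ht)).continuousAt.continuousWithinAt)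
    (fun t ht => (hasDerivAt_psi (hmem t (interior_subset ht))).hasDerivWithinAt) fun t ht => ?_
  have hc := cos_pi_mul_pos (hmem t (interior_subset ht))
  have h1 : (1 : ℝ) ≤ 1 / cos (π * t) ^ 2 := by
    rw [le_div_iff₀ (by positivity)]; nlinarith [cos_le_one (π * t)]
  nlinarith [pi_gt_three, mul_le_mul_of_nonneg_right h1 pi_pos.le]

lemma clamp_mem (t : ℝ) : clamp t ∈ Set.Icc (-(1 / 5) : ℝ) (1 / 5) :=
  ⟨le_max_left _ _, max_le (by norm_num) (min_le_left _ _)⟩

lemma clamp_mem' (t : ℝ) : clamp t ∈ Set.Ioo (-(1 / 2) : ℝ) (1 / 2) :=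
  ⟨by linarith [(clamp_mem t).1], by linarith [(clamp_mem t).2]⟩

lemma clamp_eq {t : ℝ} (h : |t| ≤ 1 / 5) : clamp t = t := by
  obtain ⟨h1, h2⟩ := abs_le.1 h
  rw [clamp, min_eq_right h2, max_eq_right h1]

lemma clamp_neg (t : ℝ) : clamp (-t) = -clamp t := by
  simp only [clamp]
  rcases le_total t (1 / 5) with h | h <;> rcases le_total (-(1 / 5)) t with h' | h' <;>
    simp only [min_def, max_def] <;> split_ifs <;> linarith

lemma continuous_psi_clamp : Continuous fun t => psi (clamp t) := by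
  have hc : Continuous clamp := by unfold clamp; fun_prop
  refine continuous_iff_continuousAt.2 fun t => ?_
  exact ContinuousAt.comp (hasDerivAt_psi (abs_lt.2 ⟨(clamp_mem' t).1, (clamp_mem' t).2⟩)).continuousAt
    hc.continuousAt

lemma psi_clamp_mono : Monotone fun t => psi (clamp t) := fun s t hst =>
  psi_mono (clamp_mem' s) (clamp_mem' t)
    (max_le_max le_rfl (min_le_min le_rfl hst))

lemma psi_neg (t : ℝ) : psi (-t) = -psi t := by
  simp [psi, tan_neg]; ring

lemma psi_clamp_neg (t : ℝ) : psi (clamp (-t)) = -psi (clamp t) := by rw [clamp_neg, psi_neg]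

lemma hasDerivAt_E (t : ℝ) : HasDerivAt E (psi (clamp t)) t :=
  integral_hasDerivAt_right (continuous_psi_clamp.intervalIntegrable _ _)
    (continuous_psi_clamp.stronglyMeasurableAtFilter _ _) continuous_psi_clamp.continuousAt

lemma E_zero : E 0 = 0 := by simp [E]

lemma E_neg (t : ℝ) : E (-t) = E t := by
  unfold E
  rw [show (∫ s in (0 : ℝ)..-t, psi (clamp s)) = ∫ s in -(0 : ℝ)..-t, psi (clamp s) by simp,
    integral_symm, ← integral_comp_neg, ← intervalIntegral.integral_neg]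
  simp [psi_clamp_neg]

lemma convexOn_E : ConvexOn ℝ Set.univ E := by
  refine Monotone.convexOn_univ_of_deriv (fun t => (hasDerivAt_E t).differentiableAt) ?_
  rw [show deriv E = fun t => psi (clamp t) from funext fun t => (hasDerivAt_E t).deriv]
  exact psi_clamp_mono

lemma continuous_E : Continuous E :=
  continuous_iff_continuousAt.2 fun t => (hasDerivAt_E t).continuousAt

lemma continuous_F : Continuous F := by
  unfold F; exact (by fun_prop : Continuous fun t : ℝ => t ^ 2).add continuous_E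

lemma F_neg (t : ℝ) : F (-t) = F t := by simp [F, E_neg]

lemma F_zero : F 0 = 0 := by simp [F, E_zero]

lemma psi_zero : psi 0 = 0 := by simp [psi]

lemma psi_clamp_nonneg {s : ℝ} (hs : 0 ≤ s) : 0 ≤ psi (clamp s) := by
  have := psi_clamp_mono hs
  simpa [clamp_eq, psi_zero] using this

lemma psi_fifth_le : psi (1 / 5) ≤ 4 := by
  have h : tan (π * (1 / 5)) ≤ 1 := by
    calc tan (π * (1 / 5)) ≤ tan (π / 4) := ?_
      _ = 1 := tan_pi_div_four
    exact strictMonoOn_tan.monotoneOn ⟨by nlinarith [pi_pos], by nlinarith [pi_pos]⟩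
      ⟨by nlinarith [pi_pos], by nlinarith [pi_pos]⟩ (by nlinarith [pi_pos])
  unfold psi
  nlinarith [pi_lt_four, pi_pos]

lemma psi_clamp_le (s : ℝ) : psi (clamp s) ≤ 4 := by
  refine le_trans ?_ psi_fifth_le
  exact psi_mono (clamp_mem' s) ⟨by norm_num, by norm_num⟩ (clamp_mem s).2

lemma sq_le_F (t : ℝ) : t ^ 2 ≤ F t := by
  suffices 0 ≤ E t by simp [F]; linarith
  rcases le_total 0 t with h | h
  · exact integral_nonneg h fun s hs => psi_clamp_nonneg hs.1
  · rw [← E_neg]; exact integral_nonneg (by linarith) fun s hs => psi_clamp_nonneg hs.1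

lemma F_le (t : ℝ) : F t ≤ t ^ 2 + 4 * |t| := by
  suffices E t ≤ 4 * |t| by simp [F]; linarith
  have key : ∀ u, 0 ≤ u → E u ≤ 4 * u := fun u hu => by
    calc E u ≤ ∫ _s in (0 : ℝ)..u, (4 : ℝ) :=
          integral_mono_on hu (continuous_psi_clamp.intervalIntegrable _ _)
            intervalIntegrable_const fun s _ => psi_clamp_le s
      _ = 4 * u := by simp; ring
  rcases le_total 0 t with h | h
  · rw [abs_of_nonneg h]; exact key t h
  · rw [← E_neg, abs_of_nonpos h]; exact key _ (by linarith)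

lemma hasDerivAt_negLogCos {t : ℝ} (h : |t| < 1 / 2) :
    HasDerivAt (fun s => -log (cos (π * s)) - s ^ 2) (psi t) t := by
  have h1 : HasDerivAt (fun s => π * s) π t := by simpa using (hasDerivAt_id t).const_mul π
  have h2 := ((h1.cos).log (cos_pi_mul_pos h).ne').neg.sub (hasDerivAt_pow 2 t)
  refine h2.congr_deriv ?_
  simp [psi, tan_eq_sin_div_cos]; ring

/-- Near zero the potential is exactly `-log (cos (π t))`. -/
lemma F_eq {t : ℝ} (h : |t| ≤ 1 / 5) : F t = -log (cos (π * t)) := by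
  have hd : ∀ s ∈ Set.uIcc 0 t, |s| ≤ 1 / 5 := fun s hs => by
    rcases Set.mem_uIcc.1 hs with ⟨a, b⟩ | ⟨a, b⟩ <;> obtain ⟨h1, h2⟩ := abs_le.1 h <;>
      exact abs_le.2 ⟨by linarith, by linarith⟩
  have := integral_eq_sub_of_hasDerivAt (f := fun s => -log (cos (π * s)) - s ^ 2)
    (f' := fun s => psi (clamp s)) (a := 0) (b := t)
    (fun s hs => by
      simpa [clamp_eq (hd s hs)] using hasDerivAt_negLogCos (by linarith [hd s hs] : |s| < 1 / 2))
    (continuous_psi_clamp.intervalIntegrable _ _)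
  simp only [F, E, this]
  simp

lemma exp_neg_F_eq {t : ℝ} (h : |t| ≤ 1 / 5) : exp (-F t) = cos (π * t) := by
  rw [F_eq h, neg_neg, exp_log (cos_pi_mul_pos (by linarith))]

lemma cos_le_exp_neg_F {t : ℝ} (h : |t| < 1 / 2) : cos (π * t) ≤ exp (-F t) := by
  wlog h0 : 0 ≤ t generalizing t
  · have := this (t := -t) (by simpa using h) (by linarith)
    simpa [F_neg] using this
  rcases le_total t (1 / 5) with h5 | h5
  · rw [exp_neg_F_eq (by rw [abs_of_nonneg h0]; exact h5)]
  obtain ⟨-, h2⟩ := abs_lt.1 h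
  have hmem : ∀ s ∈ Set.Icc (1 / 5) t, |s| < 1 / 2 := fun s hs =>
    abs_lt.2 ⟨by linarith [hs.1], by linarith [hs.2]⟩
  have hderiv : ∀ s ∈ Set.Icc (1 / 5) t,
      HasDerivAt (fun s => -log (cos (π * s)) - s ^ 2 - E s) (psi s - psi (clamp s)) s :=
    fun s hs => (hasDerivAt_negLogCos (hmem s hs)).sub (hasDerivAt_E s)
  have hmono : MonotoneOn (fun s => -log (cos (π * s)) - s ^ 2 - E s) (Set.Icc (1 / 5) t) := by
    refine monotoneOn_of_hasDerivWithinAt_nonneg (f' := fun s => psi s - psi (clamp s))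
      (convex_Icc _ _) (fun s hs => (hderiv s hs).continuousAt.continuousWithinAt)
      (fun s hs => (hderiv s (interior_subset hs)).hasDerivWithinAt) fun s hs => sub_nonneg.2 ?_
    obtain ⟨h3, h4⟩ := interior_subset hs
    refine psi_mono (clamp_mem' s) ⟨by linarith, by linarith⟩ ?_
    exact (clamp_mem s).2.trans h3
  have h5' := hmono (Set.left_mem_Icc.2 h5) (Set.right_mem_Icc.2 h5) h5
  have h6 := F_eq (t := 1 / 5) (by norm_num)
  simp only [F] at h6 ⊢
  calc cos (π * t) = exp (log (cos (π * t))) := (exp_log (cos_pi_mul_pos h)).symm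
    _ ≤ _ := exp_le_exp.2 (by linarith [h5', h6])

/-- The majorant of `|cos (π t)|` is valid a little beyond the half period. -/
lemma abs_cos_le_exp_neg_F {t : ℝ} (h : |t| ≤ 13 / 25) : |cos (π * t)| ≤ exp (-F t) := by
  rcases lt_or_ge |t| (1 / 2) with h2 | h2
  · rw [abs_of_pos (cos_pi_mul_pos h2)]; exact cos_le_exp_neg_F h2
  have h3 : |cos (π * t)| ≤ 2 / 25 := by
    rw [← cos_abs (π * t), abs_mul, abs_of_pos pi_pos,
      show π * |t| = π * (|t| - 1 / 2) + π / 2 by ring, cos_add_pi_div_two, abs_neg]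
    refine abs_sin_le_abs.trans ?_
    rw [abs_of_nonneg (by nlinarith [pi_pos])]
    nlinarith [pi_lt_four]
  have h4 : F t ≤ 5 / 2 := (F_le t).trans (by nlinarith [sq_abs t, abs_nonneg t])
  calc |cos (π * t)| ≤ 2 / 25 := h3
    _ ≤ exp (-(5 / 2)) := by
      rw [exp_neg, le_inv_comm₀ (by norm_num) (exp_pos _)]
      calc exp (5 / 2) ≤ exp (1 : ℝ) ^ 3 / exp (1 / 2) := by
            rw [le_div_iff₀ (exp_pos _), ← exp_add, ← exp_nat_mul]; norm_num
        _ ≤ (2 / 25 : ℝ)⁻¹ := by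
            have h1 := Real.exp_one_lt_d9
            have h0 := exp_pos 1
            have hh : (13 / 8 : ℝ) ≤ exp (1 / 2) := by
              have := quadratic_le_exp_of_nonneg (x := (1 / 2 : ℝ)) (by norm_num); linarith
            rw [div_le_iff₀ (exp_pos _)]
            have : exp (1 : ℝ) ^ 3 ≤ (2.7183 : ℝ) ^ 3 := pow_le_pow_left₀ h0.le (by linarith) 3
            refine this.trans ?_
            have hb : (2.7183 : ℝ) ^ 3 ≤ (2 / 25)⁻¹ * (13 / 8) := by norm_num
            exact hb.trans (mul_le_mul_of_nonneg_left hh (by norm_num))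
    _ ≤ exp (-F t) := exp_le_exp.2 (by linarith)

/-- A crude lower bound on the majorant. -/
lemma one_le_mul_exp_neg_F {t : ℝ} (h : |t| ≤ 13 / 25) : 1 ≤ 16 * exp (-F t) := by
  have h4 : F t ≤ 5 / 2 := (F_le t).trans (by nlinarith [sq_abs t, abs_nonneg t])
  have h5 : exp (5 / 2) ≤ 16 := by
    have h1 := Real.exp_one_lt_d9
    have h0 := exp_pos 1
    have : exp (5 / 2) ≤ exp (1 : ℝ) ^ 3 / exp (1 / 2) := by
      rw [le_div_iff₀ (exp_pos _), ← exp_add, ← exp_nat_mul]; norm_num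
    have h3 : exp (1 : ℝ) ^ 3 ≤ (2.7183 : ℝ) ^ 3 := pow_le_pow_left₀ h0.le (by linarith) 3
    have hh : (13 / 8 : ℝ) ≤ exp (1 / 2) := by
      have := quadratic_le_exp_of_nonneg (x := (1 / 2 : ℝ)) (by norm_num); linarith
    have hb : (2.7183 : ℝ) ^ 3 ≤ 16 * (13 / 8) := by norm_num
    exact this.trans ((div_le_iff₀ (exp_pos _)).2 ((h3.trans hb).trans (by linarith)))
  calc (1 : ℝ) = exp (5 / 2) * exp (-(5 / 2)) := by rw [← exp_add]; simp
    _ ≤ 16 * exp (-F t) := mul_le_mul h5 (exp_le_exp.2 (by linarith)) (exp_pos _).le (by norm_num)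

/-- The tilted factor `|cosh (b + iπt)|`. -/
lemma tilt_le {t : ℝ} (h : |t| ≤ 13 / 25) (b : ℝ) :
    sinh b ^ 2 + cos (π * t) ^ 2 ≤ exp (256 * b ^ 2) * exp (-F t) ^ 2 := by
  have h1 : cos (π * t) ^ 2 ≤ exp (-F t) ^ 2 := by
    rw [← sq_abs]; exact pow_le_pow_left₀ (abs_nonneg _) (abs_cos_le_exp_neg_F h) 2
  have h2 : (1 : ℝ) ≤ 256 * exp (-F t) ^ 2 := by
    have := one_le_mul_exp_neg_F h; nlinarith
  have h3 : sinh b ^ 2 ≤ exp (b ^ 2) - 1 := by
    rw [sinh_sq]
    have := pow_le_pow_left₀ (cosh_pos b).le (cosh_le_exp_half_sq b) 2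
    rw [← exp_nat_mul] at this
    have e : ((2 : ℕ) : ℝ) * (b ^ 2 / 2) = b ^ 2 := by push_cast; ring
    rw [e] at this; linarith
  have h4 : 1 + 256 * (exp (b ^ 2) - 1) ≤ exp (256 * b ^ 2) := by
    have := one_add_mul_le_pow (a := exp (b ^ 2) - 1) (by linarith [exp_pos (b ^ 2)]) 256
    rw [add_sub_cancel, ← exp_nat_mul] at this
    push_cast at this; linarith
  nlinarith [mul_le_mul_of_nonneg_left h2 (sq_nonneg (sinh b)), sq_nonneg (exp (-F t)),
    mul_le_mul_of_nonneg_right h4 (sq_nonneg (exp (-F t))),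
    mul_le_mul_of_nonneg_right h3 (sq_nonneg (exp (-F t)))]

end Vale.Agent.P047.Disproof
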