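import Vale.Agent.P047.Disproof.Fourier
import Vale.Agent.P047.Disproof.Cover

/-!
Bounds on averages over the event `hit` from pointwise bounds on phase averages.
-/

namespace Vale.Agent.P047.Disproof

open MeasureTheory Finset Real

variable {n k : ℕ} {γ₀ c₀ δ γ : ℝ} {S : Finset (Cube n)}

/-- The points of `S` where the signs agree with `s`. -/
def keep (S : Finset (Cube n)) (s a : Cube n → Bool) : Finset (Cube n) :=
  S.filter fun x => a x = s x

lemma sum_keep (S : Finset (Cube n)) (s a : Cube n → Bool) (f : Cube n → ℝ) :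
    ∑ x ∈ keep S s a, f x = (∑ x ∈ S, f x + ∑ x ∈ S, sgn (s x) * sgn (a x) * f x) / 2 := by
  rw [keep, sum_filter, ← sum_add_distrib, sum_div]
  refine sum_congr rfl fun x _ => ?_
  cases s x <;> cases a x <;> simp [sgn]

lemma Cover.Good.pd {C : Cover n k γ₀ c₀ δ} (hG : C.Good γ S) (hγ : 0 < γ) : PD γ S k :=
  ⟨hγ, hG.1⟩

lemma hitAvg_nonneg {Φ : (Cube n → Bool) → ℝ} (h : ∀ a, 0 ≤ Φ a) : 0 ≤ hitAvg k S Φ :=
  div_nonneg (sum_nonneg fun a _ => by split_ifs <;> simp [h a]) (Nat.cast_nonneg _)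

lemma hitAvg_mono {Φ Ψ : (Cube n → Bool) → ℝ} (h : ∀ a, Φ a ≤ Ψ a) :
    hitAvg k S Φ ≤ hitAvg k S Ψ :=
  div_le_div_of_nonneg_right (sum_le_sum fun a _ => by split_ifs <;> simp [h a])
    (Nat.cast_nonneg _)

lemma hitAvg_add (Φ Ψ : (Cube n → Bool) → ℝ) :
    hitAvg k S (fun a => Φ a + Ψ a) = hitAvg k S Φ + hitAvg k S Ψ := by
  simp only [hitAvg, avg, ← add_div, ← sum_add_distrib]
  congr 1
  exact sum_congr rfl fun a _ => by split_ifs <;> simp

lemma hitAvg_const_mul (c : ℝ) (Φ : (Cube n → Bool) → ℝ) :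
    hitAvg k S (fun a => c * Φ a) = c * hitAvg k S Φ := by
  simp only [hitAvg, avg, ← mul_div_assoc, mul_sum, mul_ite, mul_zero]

lemma hitAvg_sum {ι : Type*} (t : Finset ι) (Φ : ι → (Cube n → Bool) → ℝ) :
    hitAvg k S (fun a => ∑ i ∈ t, Φ i a) = ∑ i ∈ t, hitAvg k S (Φ i) := by
  simp only [hitAvg, avg, ← sum_div]
  congr 1
  rw [sum_comm]
  exact sum_congr rfl fun a _ => by split_ifs <;> simp

lemma norm_GF_toT_le (hS : EvenOn k S) {Φ : (Cube n → Bool) → ℝ} {B : ℝ}
    (hΦ : ∀ t : Cube n → ℝ, (∀ x ∈ S, |t x| ≤ 13 / 25) → ‖avgPhase S Φ t‖ ≤ B * wt S t)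
    (u : Idx n k → ℝ) (z : Cube n → ℤ) (hz : ∀ x ∈ S, |ev n k u x - z x| ≤ 13 / 25) :
    ‖GF k S Φ (toT n k u)‖ ≤ B * wt S fun x => ev n k u x - z x := by
  rw [GF_toT hS, ← norm_avgPhase_sub_int S Φ (ev n k u) z]
  exact hΦ _ hz

/-- Off the central neighbourhood everything is small. -/
lemma integral_minor_le (C : Cover n k γ₀ c₀ δ) (hS : EvenOn k S) (hG : C.Good γ S) (hγ : 0 < γ)
    (hγ₀ : c₀ ≤ γ) (hγ₁ : γ ≤ 1) {Φ : (Cube n → Bool) → ℝ} {B : ℝ} (hB : 0 ≤ B)
    (hΦ : ∀ t : Cube n → ℝ, (∀ x ∈ S, |t x| ≤ 13 / 25) → ‖avgPhase S Φ t‖ ≤ B * wt S t) :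
    ∫ θ in (nb n k 0 (1 / 5))ᶜ, ‖GF k S Φ θ‖ ≤ B * δ * J k S := by
  set g : Torus n k → ℝ := fun θ => ‖GF k S Φ θ‖
  have hg : Continuous g := (continuous_GF k S Φ).norm
  have hgi : Integrable g := hg.integrable_of_hasCompactSupport (HasCompactSupport.of_compactSpace _)
  set U : Fin C.m → Set (Torus n k) := fun j => nb n k (toT n k (C.P j)) (C.r j)
  have hJ := (J_pos (hG.pd hγ)).le
  have hi : ∀ j, Integrable ((U j).indicator g) := fun j => hgi.indicator (measurableSet_nb _ _)
  calc ∫ θ in (nb n k 0 (1 / 5))ᶜ, g θ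
      ≤ ∫ θ in (nb n k 0 (1 / 5))ᶜ, ∑ j, (U j).indicator g θ := by
        refine setIntegral_mono_on hgi.integrableOn
          (integrable_finsetSum _ fun j _ => hi j).integrableOn
          (measurableSet_nb _ _).compl fun θ hθ => ?_
        obtain ⟨j, hj⟩ := (C.cover θ).resolve_left hθ
        refine le_trans ?_ (single_le_sum (fun i _ => Set.indicator_nonneg (fun _ _ => norm_nonneg _) θ)
          (Finset.mem_univ j))
        rw [Set.indicator_of_mem hj]
    _ ≤ ∫ θ, ∑ j, (U j).indicator g θ :=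
        setIntegral_le_integral (integrable_finsetSum _ fun j _ => hi j)
          (.of_forall fun θ => sum_nonneg fun i _ =>
            Set.indicator_nonneg (fun _ _ => norm_nonneg _) θ)
    _ ≤ ∑ j, B * (Real.exp (-γ * C.W j) * J k S) := by
        rw [integral_finsetSum _ fun j _ => hi j]
        refine sum_le_sum fun j _ => ?_
        rw [integral_indicator (measurableSet_nb _ _),
          setIntegral_nb _ (by linarith [(C.rad j).2]) hg]
        calc ∫ u in box n k (C.r j), g (toT n k (C.P j) + toT n k u)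
            ≤ ∫ u in box n k (C.r j), B * wt S (fun x => C.p j x + ev n k u x) := by
              refine setIntegral_mono_on ?_ ((integrable_wt (hG.pd hγ) _).const_mul B).integrableOn
                (isCompact_box _).isClosed.measurableSet fun u hu => ?_
              · exact (hg.comp (continuous_const.add continuous_toT)).continuousOn.integrableOn_compact
                  (isCompact_box _)
              · have e : ∀ x, ev n k (C.P j + u) x - C.z j x = C.p j x + ev n k u x := fun x => by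
                  rw [ev_add, Cover.p]; ring
                have hz : ∀ x ∈ S, |ev n k (C.P j + u) x - C.z j x| ≤ 13 / 25 := fun x _ => by
                  rw [e, Cover.p]
                  refine (abs_add_le _ _).trans ?_
                  have := C.near j x
                  have := hu x
                  have := (C.rad j).2
                  linarith
                have := norm_GF_toT_le hS hΦ (C.P j + u) (C.z j) hz
                simpa only [g, e, ← toT_add] using this
          _ ≤ _ := by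
              rw [integral_const_mul, neg_mul]
              exact mul_le_mul_of_nonneg_left
                (setIntegral_box_le (hG.pd hγ) _ (C.rad j).1 (hG.2 j)) hB
    _ ≤ _ := by
        rw [← mul_sum, ← sum_mul, mul_assoc]
        exact mul_le_mul_of_nonneg_left (mul_le_mul_of_nonneg_right (C.sum_le γ hγ₀ hγ₁) hJ) hB

/-- The average on `hit` is the central integral up to the minor contribution. -/
lemma abs_hitAvg_sub_le (C : Cover n k γ₀ c₀ δ) (hS : EvenOn k S) (hG : C.Good γ S) (hγ : 0 < γ)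
    (hγ₀ : c₀ ≤ γ) (hγ₁ : γ ≤ 1) {Φ : (Cube n → Bool) → ℝ} {B : ℝ} (hB : 0 ≤ B)
    (hΦ : ∀ t : Cube n → ℝ, (∀ x ∈ S, |t x| ≤ 13 / 25) → ‖avgPhase S Φ t‖ ≤ B * wt S t) :
    ‖(hitAvg k S Φ : ℂ) - ∫ u in box n k (1 / 5), avgPhase S Φ (ev n k u)‖ ≤ B * δ * J k S := by
  have hi : Integrable (GF k S Φ) :=
    (continuous_GF k S Φ).integrable_of_hasCompactSupport (HasCompactSupport.of_compactSpace _)
  rw [hitAvg_eq_integral hS, ← integral_add_compl (measurableSet_nb 0 (1 / 5)) hi,
    setIntegral_nb _ (by norm_num) (continuous_GF k S Φ)]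
  simp only [zero_add, GF_toT hS, add_sub_cancel_left]
  exact (norm_integral_le_integral_norm _).trans (integral_minor_le C hS hG hγ hγ₀ hγ₁ hB hΦ)

/-- A pointwise bound on phase averages bounds the average on `hit`. -/
lemma abs_hitAvg_le (C : Cover n k γ₀ c₀ δ) (hS : EvenOn k S) (hG : C.Good γ S) (hγ : 0 < γ)
    (hγ₀ : c₀ ≤ γ) (hγ₁ : γ ≤ 1) {Φ : (Cube n → Bool) → ℝ} {B : ℝ} (hB : 0 ≤ B)
    (hΦ : ∀ t : Cube n → ℝ, (∀ x ∈ S, |t x| ≤ 13 / 25) → ‖avgPhase S Φ t‖ ≤ B * wt S t) :
    |hitAvg k S Φ| ≤ B * (1 + δ) * J k S := by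
  have h := abs_hitAvg_sub_le C hS hG hγ hγ₀ hγ₁ hB hΦ
  have hm : ‖∫ u in box n k (1 / 5), avgPhase S Φ (ev n k u)‖ ≤ B * J k S := by
    calc _ ≤ ∫ u in box n k (1 / 5), B * wt S (ev n k u) :=
          norm_integral_le_of_norm_le ((integrable_wt_ev (hG.pd hγ)).const_mul B).integrableOn
            ((ae_restrict_mem (isCompact_box _).isClosed.measurableSet).mono fun u hu =>
              hΦ _ fun x _ => (hu x).trans (by norm_num))
      _ ≤ ∫ u, B * wt S (ev n k u) :=
          setIntegral_le_integral ((integrable_wt_ev (hG.pd hγ)).const_mul B)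
            (.of_forall fun u => mul_nonneg hB (wt_pos _ _).le)
      _ = _ := integral_const_mul B _
  have := (norm_le_norm_sub_add (hitAvg k S Φ : ℂ) _).trans (add_le_add h hm)
  rw [Complex.norm_real, Real.norm_eq_abs] at this
  linarith

end Vale.Agent.P047.Disproof
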