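import Vale.Agent.P047.Disproof.Chess

/-!
The inductive step of the key theorem: bounds for `∫ ∏ ψ (Q x)` at one node `(n', k', c)`.
-/

namespace Vale.Agent.P047.Disproof

open MeasureTheory Finset
open scoped ENNReal


/-- `exp` in `ℝ≥0∞`. -/
noncomputable def ee (x : ℝ) : ℝ≥0∞ := ENNReal.ofReal (Real.exp x)

lemma ee_add (x y : ℝ) : ee (x + y) = ee x * ee y := by
  rw [ee, ee, ee, Real.exp_add, ENNReal.ofReal_mul (Real.exp_pos _).le]

lemma ee_le {x y : ℝ} (h : x ≤ y) : ee x ≤ ee y :=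
  ENNReal.ofReal_le_ofReal (Real.exp_le_exp.2 h)

lemma ee_zero : ee 0 = 1 := by simp [ee]

lemma ee_rpow (x r : ℝ) : ee x ^ r = ee (x * r) := by
  rw [ee, ee, ENNReal.ofReal_rpow_of_pos (Real.exp_pos _), Real.exp_mul]

lemma ee_sum {ι : Type*} (s : Finset ι) (f : ι → ℝ) : ∏ i ∈ s, ee (f i) = ee (∑ i ∈ s, f i) := by
  simp only [ee, ← ENNReal.ofReal_prod_of_nonneg fun i _ => (Real.exp_pos (f i)).le, Real.exp_sum]

lemma exists_lift (b : UnitAddCircle) : ∃ s : ℝ, (s : UnitAddCircle) = b ∧ |s| ≤ 1 / 2 ∧ ‖b‖ = |s| := by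
  obtain ⟨r, rfl⟩ := QuotientAddGroup.mk_surjective b
  exact ⟨r - round r, by simp, abs_sub_round r, UnitAddCircle.norm_eq⟩

lemma norm_coe_of_le {s : ℝ} (h : |s| ≤ 1 / 2) : ‖(s : UnitAddCircle)‖ = |s| :=
  (AddCircle.norm_coe_eq_abs_iff 1 one_ne_zero).2 (by simpa using h)

/-- The even binomial inequality behind the perturbation of a node. -/
lemma sym_pow_le (p : ℕ) {L : ℝ} (hL : 0 < L) (hL1 : L ≤ 1) (b h : ℝ) :
    (b + h) ^ (2 * p) + (b - h) ^ (2 * p) - 2 * h ^ (2 * p) ≤
      2 * (1 + 4 ^ p * L) * b ^ (2 * p) + 2 * 4 ^ p * (1 / L) ^ p * ((h ^ 2) ^ (p - 1) * b ^ 2) := by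
  set B := L * b ^ (2 * p) + (1 / L) ^ p * ((h ^ 2) ^ (p - 1) * b ^ 2) with hB
  have hb0 : 0 ≤ b ^ (2 * p) := by rw [pow_mul]; positivity
  have hh0 : 0 ≤ h ^ (2 * p) := by rw [pow_mul]; positivity
  have hB0 : 0 ≤ B := by rw [hB]; positivity
  have hterm : ∀ i ∈ range (2 * p + 1),
      b ^ i * h ^ (2 * p - i) * ((2 * p).choose i : ℝ) + b ^ i * (-h) ^ (2 * p - i) * ((2 * p).choose i : ℝ)
        ≤ 2 * ((2 * p).choose i : ℝ) * B + ((if i = 0 then 2 * h ^ (2 * p) else 0)
          + if i = 2 * p then 2 * b ^ (2 * p) else 0) := by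
    intro i hi
    have hi' : i ≤ 2 * p := Nat.lt_succ_iff.1 (mem_range.1 hi)
    have hC : (0 : ℝ) ≤ ((2 * p).choose i : ℝ) := Nat.cast_nonneg _
    have hrest : 0 ≤ (if i = 0 then 2 * h ^ (2 * p) else 0)
          + if i = 2 * p then 2 * b ^ (2 * p) else 0 := by split_ifs <;> linarith
    rcases Nat.even_or_odd i with ⟨j, rfl⟩ | ho
    · rcases Nat.eq_zero_or_pos j with rfl | hj
      · have := mul_nonneg (mul_nonneg zero_le_two hC) hB0
        simp only [add_zero, Nat.sub_zero, pow_zero, one_mul, Nat.choose_zero_right, Nat.cast_one,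
          mul_one, (even_two_mul p).neg_pow, if_true] at this ⊢
        split_ifs <;> linarith
      rcases (show j ≤ p by omega).eq_or_lt with rfl | hjp
      · have := mul_nonneg (mul_nonneg zero_le_two hC) hB0
        simp only [← two_mul, Nat.sub_self, pow_zero, mul_one, Nat.choose_self, Nat.cast_one,
          if_true] at this ⊢
        split_ifs <;> linarith
      have heven : Even (2 * p - (j + j)) := ⟨p - j, by omega⟩
      rw [heven.neg_pow]
      have hkey : b ^ (j + j) * h ^ (2 * p - (j + j)) ≤ B := by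
        rw [show b ^ (j + j) = (b ^ 2) ^ j by rw [← pow_mul, two_mul],
          show h ^ (2 * p - (j + j)) = (h ^ 2) ^ (p - j) by rw [← pow_mul]; congr 1; omega]
        rw [hB, show b ^ (2 * p) = (b ^ 2) ^ p by rw [pow_mul]]
        have hx : 0 ≤ b ^ 2 := sq_nonneg b
        have hy : 0 ≤ h ^ 2 := sq_nonneg h
        generalize b ^ 2 = x at hx ⊢
        generalize h ^ 2 = y at hy ⊢
        by_cases hc : y ≤ L * x
        · calc x ^ j * y ^ (p - j) ≤ x ^ j * (L * x) ^ (p - j) := by gcongr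
            _ = L ^ (p - j) * x ^ p := by
                rw [mul_pow, mul_left_comm, ← pow_add, Nat.add_sub_cancel' hjp.le]
            _ ≤ L * x ^ p := by
                gcongr
                exact pow_le_of_le_one hL.le hL1 (Nat.sub_ne_zero_of_lt hjp)
            _ ≤ _ := le_add_of_nonneg_right (by positivity)
        · have hxy : x ≤ 1 / L * y := by
            rw [div_mul_eq_mul_div, one_mul, le_div_iff₀ hL]; linarith
          obtain ⟨j, rfl⟩ : ∃ i, j = i + 1 := ⟨j - 1, by omega⟩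
          calc x ^ (j + 1) * y ^ (p - (j + 1)) ≤ (1 / L * y) ^ j * x * y ^ (p - (j + 1)) := by
                rw [pow_succ]; gcongr
            _ = (1 / L) ^ j * (y ^ (p - 1) * x) := by
                rw [mul_pow, show p - 1 = j + (p - (j + 1)) by omega, pow_add]; ring
            _ ≤ (1 / L) ^ p * (y ^ (p - 1) * x) := by
                gcongr
                · exact (one_le_div hL).2 hL1
                · omega
            _ ≤ _ := le_add_of_nonneg_left (by positivity)
      calc _ = 2 * ((2 * p).choose (j + j) : ℝ) * (b ^ (j + j) * h ^ (2 * p - (j + j))) := by ring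
        _ ≤ 2 * ((2 * p).choose (j + j) : ℝ) * B := by gcongr
        _ ≤ _ := le_add_of_nonneg_right hrest
    · have hodd : Odd (2 * p - i) := by
        obtain ⟨j, rfl⟩ := ho
        exact ⟨p - j - 1, by omega⟩
      rw [hodd.neg_pow]
      have := mul_nonneg (mul_nonneg zero_le_two hC) hB0
      linarith
  rw [add_pow b h, sub_eq_add_neg b h, add_pow b (-h), ← sum_add_distrib]
  refine le_trans (sub_le_sub_right (sum_le_sum hterm) _) (le_of_eq ?_)
  rw [sum_add_distrib, sum_add_distrib, ← sum_mul, ← mul_sum, ← Nat.cast_sum,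
    Nat.sum_range_choose, sum_ite_eq', sum_ite_eq', if_pos (by simp), if_pos (by simp),
    Nat.cast_pow, Nat.cast_ofNat, pow_mul (2 : ℝ) 2 p |>.trans (by norm_num : ((2 : ℝ) ^ 2) ^ p = 4 ^ p), hB]
  ring

/-- The cut-off `σ ^ 2`. -/
noncomputable def sigsq (n p : ℕ) (P0 : ℝ) : ℝ := P0 * 4 ^ p * (n : ℝ) ^ (3 * p)

/-- The error per point. -/
noncomputable def errC (n p : ℕ) (P0 : ℝ) : ℝ :=
  2 ^ n * 256 ^ p * (4 ^ p * (n : ℝ) ^ (2 * p)) * sigsq n p P0 ^ (p - 1)

/-- The error per node. -/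
noncomputable def errX (n p : ℕ) (P0 : ℝ) : ℝ := 2 ^ n * errC n p P0

/-- The zone radius at depth `j`. -/
noncomputable def rad (n j : ℕ) : ℝ := 1 / 8 - j / (n : ℝ) ^ 3

/-- The slack at depth `j`. -/
noncomputable def slack (n j : ℕ) : ℝ := j / (n : ℝ) ^ 2

/-- Conditions on the global parameters. -/
structure Par (n p : ℕ) (P0 : ℝ) : Prop where
  hp : 3 ≤ p
  hn : (1024 : ℝ) ^ p ≤ n
  hP : 0 < P0
  hsig : sigsq n p P0 ≤ 1 / 256
  heps : 4000 * (n : ℝ) ^ (6 * p + 3) * P0 ≤ 1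
  htail : Real.exp (-(n : ℝ) ^ (3 * p) / 2) * 2 ^ n ≤ errX n p P0 / 2

/-- A weight of the class of depth `j` at concentration `c`. -/
structure Weight (n p j : ℕ) (c a : ℝ) (ψ : UnitAddCircle → ℝ≥0∞) : Prop where
  meas : Measurable ψ
  a_nonneg : 0 ≤ a
  small : a * (rad n j ^ 2) ^ (p - 1) ≤ slack n j * c
  zone : ∀ s : ℝ, |s| ≤ rad n j → ψ s ≤ ee (-c * s ^ 2 + a * s ^ (2 * p))
  outer : ∀ b : UnitAddCircle, ψ b ≤ ee (-(1 - slack n j) * c * ‖b‖ ^ 2)

/-- What is proved at nodes with `n'` variables. -/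
def NodeBound (n p : ℕ) (P0 : ℝ) (n' : ℕ) : Prop :=
  ∀ (k' j : ℕ) (c a : ℝ) (ψ : UnitAddCircle → ℝ≥0∞), j + n' = n → 0 < c → c ≤ 2 ^ j →
    3 ^ k' * (2 / 3 : ℝ) ^ n' ≤ P0 * c → Weight n p j c a ψ →
    cubeInt n' k' (fun _ => ψ) ≤ ee ((2 ^ (n' + 1) - 1) * errX n p P0 + Real.log (G n' k' c))

section facts

variable {n p : ℕ} {P0 : ℝ} (H : Par n p P0)
include H

lemma Par.n_ge : (1024 : ℝ) ≤ n := by
  refine le_trans ?_ H.hn
  calc (1024 : ℝ) = 1024 ^ 1 := (pow_one _).symm
    _ ≤ 1024 ^ p := pow_le_pow_right₀ (by norm_num) (by linarith [H.hp])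

lemma Par.n_pos : (0 : ℝ) < n := lt_of_lt_of_le (by norm_num) H.n_ge

lemma Par.one_le_n : (1 : ℝ) ≤ n := le_trans (by norm_num) H.n_ge

lemma Par.errC_nonneg : 0 ≤ errC n p P0 := by
  have := H.hP; unfold errC sigsq; positivity

lemma Par.errX_nonneg : 0 ≤ errX n p P0 := mul_nonneg (by positivity) H.errC_nonneg

lemma Par.four_pow_le : 4 * (4 : ℝ) ^ p ≤ n := by
  refine le_trans ?_ H.hn
  calc 4 * (4 : ℝ) ^ p ≤ 256 ^ p * 4 ^ p := by
        gcongr
        calc (4 : ℝ) ≤ 256 ^ 1 := by norm_num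
          _ ≤ _ := pow_le_pow_right₀ (by norm_num) (by linarith [H.hp])
    _ = 1024 ^ p := by rw [← mul_pow]; norm_num

lemma Par.rad_bounds {j : ℕ} (hj : j ≤ n) : 1 / 16 ≤ rad n j ∧ rad n j ≤ 1 / 8 := by
  have := H.n_pos
  have hn := H.n_ge
  have hjr : (j : ℝ) ≤ n := Nat.cast_le.2 hj
  refine ⟨?_, sub_le_self _ (by positivity)⟩
  have h1 : (j : ℝ) / (n : ℝ) ^ 3 ≤ 1 / 16 := by
    rw [div_le_iff₀ (by positivity)]
    nlinarith [mul_le_mul hn hn (by norm_num) this.le]
  unfold rad; linarith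

lemma Par.slack_bounds {j : ℕ} (hj : j ≤ n) : 0 ≤ slack n j ∧ slack n j ≤ 1 / n := by
  have := H.n_pos
  have hjr : (j : ℝ) ≤ n := Nat.cast_le.2 hj
  refine ⟨by unfold slack; positivity, ?_⟩
  unfold slack
  rw [div_le_div_iff₀ (by positivity) this]
  nlinarith

lemma Par.P0_le : 2 * P0 * (n : ℝ) ≤ 1 ∧ 2 * P0 ≤ 1 ∧ 1000 * P0 * (n : ℝ) ^ 3 ≤ 1 := by
  have h1 := H.one_le_n
  have h := H.heps
  have hP := H.hP
  have h3 : (n : ℝ) ^ 3 ≤ (n : ℝ) ^ (6 * p + 3) := pow_le_pow_right₀ h1 (by omega)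
  have h13 : (n : ℝ) ≤ (n : ℝ) ^ 3 := le_self_pow₀ h1 (by norm_num)
  have h03 : (1 : ℝ) ≤ (n : ℝ) ^ 3 := one_le_pow₀ h1
  refine ⟨?_, ?_, ?_⟩ <;> nlinarith [mul_le_mul_of_nonneg_left h3 hP.le,
    mul_le_mul_of_nonneg_left h13 hP.le, mul_le_mul_of_nonneg_left h03 hP.le]

lemma Weight.a_le {j : ℕ} (hj : j ≤ n) {c a : ℝ} {ψ : UnitAddCircle → ℝ≥0∞}
    (hw : Weight n p j c a ψ) : a ≤ slack n j * c * 256 ^ (p - 1) := by
  have h16 := (H.rad_bounds hj).1
  have ha := hw.a_nonneg
  calc a = a * ((1 / 16 : ℝ) ^ 2) ^ (p - 1) * 256 ^ (p - 1) := by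
        rw [mul_assoc, ← mul_pow]; norm_num
    _ ≤ a * (rad n j ^ 2) ^ (p - 1) * 256 ^ (p - 1) := by gcongr
    _ ≤ _ := mul_le_mul_of_nonneg_right hw.small (by positivity)

/-- One variable. -/
lemma nodeBound_zero : NodeBound n p P0 0 := by
  intro k' j c a ψ hj hc hcj hP hw
  have hjn : j ≤ n := by omega
  have hs := H.slack_bounds hjn
  have hr := H.rad_bounds hjn
  have hn1 : 1 / (n : ℝ) ≤ 1 / 2 :=
    one_div_le_one_div_of_le two_pos (le_trans (by norm_num) H.n_ge)
  have hX := H.errX_nonneg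
  cases k' with
  | zero =>
    rw [cubeInt, lintegral_idx_k_zero 0 _ (0 : Torus 0 0), G_k_zero, Real.log_one, add_zero]
    refine le_trans ?_ (ee_le (show (0 : ℝ) ≤ _ by nlinarith [one_le_pow₀ (M₀ := ℝ) one_le_two (n := 0 + 1)]))
    rw [ee_zero]
    refine Finset.prod_le_one' fun x _ => ?_
    simpa [ee_zero] using hw.outer 0
  | succ k =>
    have hsig0 : 0 ≤ sigsq n p P0 := by have := H.hP; unfold sigsq; positivity
    set σ := Real.sqrt (sigsq n p P0) with hσ
    have hσ2 : σ ^ 2 = sigsq n p P0 := Real.sq_sqrt hsig0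
    have hσr : σ ≤ rad n j := by
      refine le_trans ?_ hr.1
      calc σ ≤ Real.sqrt ((1 / 16 : ℝ) ^ 2) := Real.sqrt_le_sqrt (by have := H.hsig; norm_num; linarith)
        _ = 1 / 16 := Real.sqrt_sq (by norm_num)
    set η := a * sigsq n p P0 ^ (p - 1) / c with hη
    have hη0 : 0 ≤ η := by have := hw.a_nonneg; rw [hη]; positivity
    have hη1 : η ≤ slack n j * (256 * sigsq n p P0) ^ (p - 1) := by
      rw [hη, div_le_iff₀ hc, mul_pow]
      calc a * sigsq n p P0 ^ (p - 1) ≤ slack n j * c * 256 ^ (p - 1) * sigsq n p P0 ^ (p - 1) := by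
            gcongr; exact hw.a_le H hjn
        _ = _ := by ring
    have hη2 : η ≤ 1 / 2 := by
      refine hη1.trans ((mul_le_of_le_one_right hs.1 (pow_le_one₀ (by positivity) ?_)).trans ?_)
      · linarith [H.hsig]
      · linarith [hs.2]
    have hη3 : η ≤ errX n p P0 / 2 := by
      refine hη1.trans ?_
      have h1 : (2 : ℝ) ≤ 2 ^ n := by
        calc (2 : ℝ) = 2 ^ 1 := (pow_one _).symm
          _ ≤ _ := pow_le_pow_right₀ one_le_two (by exact_mod_cast (le_trans (by norm_num) H.n_ge : (1 : ℝ) ≤ n))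
      calc slack n j * (256 * sigsq n p P0) ^ (p - 1) ≤ 1 * (256 * sigsq n p P0) ^ (p - 1) := by
            gcongr; linarith [hs.2]
        _ ≤ errC n p P0 := by
            rw [one_mul, mul_pow, errC]
            gcongr
            calc (256 : ℝ) ^ (p - 1) ≤ 256 ^ p := pow_le_pow_right₀ (by norm_num) (Nat.sub_le _ _)
              _ = 1 * 256 ^ p * (1 * 1) := by ring
              _ ≤ _ := by
                  gcongr
                  · linarith
                  · exact one_le_pow₀ (by norm_num)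
                  · exact one_le_pow₀ H.one_le_n
        _ ≤ errX n p P0 / 2 := by
            rw [errX]; nlinarith [H.errC_nonneg]
    have hmeas : Measurable ψ := hw.meas
    have hint : cubeInt 0 (k + 1) (fun _ => ψ) = ∫⁻ b : UnitAddCircle, ψ b := by
      have h := (volume_preserving_funUnique Unit UnitAddCircle).lintegral_comp_emb
        (MeasurableEquiv.measurableEmbedding _) ψ
      rw [← h, cubeInt]
      exact lintegral_congr fun θ => by simp
    rw [hint, ← UnitAddCircle.lintegral_preimage (-(1 / 2)) ψ]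
    have hpt : ∀ s ∈ Set.Ioc (-(1 / 2) : ℝ) (-(1 / 2) + 1), ψ s ≤
        ENNReal.ofReal (Real.exp (-(c * (1 - η)) * s ^ 2))
          + ee (-(1 - slack n j) * c * sigsq n p P0) := by
      intro s hs'
      have habs : |s| ≤ 1 / 2 := abs_le.2 ⟨hs'.1.le, by linarith [hs'.2]⟩
      by_cases h : |s| ≤ σ
      · refine le_add_right ((hw.zone s (h.trans hσr)).trans (ee_le ?_))
        have : (s ^ 2) ^ (p - 1) ≤ sigsq n p P0 ^ (p - 1) := by
          gcongr
          rw [← hσ2, ← sq_abs s]; gcongr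
        have hsp : s ^ (2 * p) = (s ^ 2) ^ (p - 1) * s ^ 2 := by
          rw [← pow_succ, ← pow_mul]; congr 1; have := H.hp; omega
        rw [hsp]
        calc -c * s ^ 2 + a * ((s ^ 2) ^ (p - 1) * s ^ 2)
            ≤ -c * s ^ 2 + a * (sigsq n p P0 ^ (p - 1) * s ^ 2) := by
              gcongr; exact hw.a_nonneg
          _ = -(c * (1 - η)) * s ^ 2 := by rw [hη]; field_simp; ring
      · refine le_add_left ((hw.outer _).trans (ee_le ?_))
        rw [norm_coe_of_le habs, sq_abs]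
        have : sigsq n p P0 ≤ s ^ 2 := by
          rw [← hσ2, ← sq_abs s]; gcongr; exact (not_le.1 h).le
        have h1 : 0 ≤ (1 - slack n j) * c := mul_nonneg (by linarith [hs.2]) hc.le
        nlinarith [mul_le_mul_of_nonneg_left this h1]
    refine (setLIntegral_mono' measurableSet_Ioc hpt).trans ?_
    rw [lintegral_add_left (by fun_prop)]
    have hc' : 0 < c * (1 - η) := by nlinarith
    have h1 : ∫⁻ s in Set.Ioc (-(1 / 2) : ℝ) (-(1 / 2) + 1),
        ENNReal.ofReal (Real.exp (-(c * (1 - η)) * s ^ 2))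
          ≤ ENNReal.ofReal √(Real.pi / (c * (1 - η))) := by
      refine (setLIntegral_le_lintegral _ _).trans (le_of_eq ?_)
      rw [← ofReal_integral_eq_lintegral_ofReal (integrable_exp_neg_mul_sq hc')
        (Filter.Eventually.of_forall fun t => (Real.exp_pos _).le), integral_gaussian]
    refine (add_le_add h1 le_rfl).trans ?_
    rw [lintegral_const, Measure.restrict_apply_univ, Real.volume_Ioc,
      show (-(1 / 2) + 1 - -(1 / 2) : ℝ) = 1 by ring, ENNReal.ofReal_one, mul_one, ee,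
      ← ENNReal.ofReal_add (Real.sqrt_nonneg _) (Real.exp_pos _).le, ee,
      show G 0 (k + 1) c = √(Real.pi / c) from rfl, Real.exp_add,
      Real.exp_log (by positivity)]
    refine ENNReal.ofReal_le_ofReal ?_
    set S := √(Real.pi / c) with hS
    have hS0 : 0 ≤ S := Real.sqrt_nonneg _
    have hA : √(Real.pi / (c * (1 - η))) ≤ (1 + η) * S := by
      rw [← div_div, Real.sqrt_div' _ (by linarith : (0 : ℝ) ≤ 1 - η), div_le_iff₀
        (Real.sqrt_pos.2 (by linarith))]
      have : 1 ≤ (1 + η) * √(1 - η) := by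
        rw [← Real.sqrt_sq (by linarith : (0 : ℝ) ≤ 1 + η), ← Real.sqrt_mul (sq_nonneg _)]
        refine Real.one_le_sqrt.2 ?_
        nlinarith [mul_nonneg hη0 hη0]
      nlinarith [mul_le_mul_of_nonneg_left this hS0]
    have hB : Real.exp (-(1 - slack n j) * c * sigsq n p P0) ≤ errX n p P0 / 2 * S := by
      have h3 : (1 : ℝ) ≤ P0 * c := by
        refine le_trans ?_ hP
        simpa using one_le_pow₀ (by norm_num : (1 : ℝ) ≤ 3) (n := k + 1)
      have h4 : (n : ℝ) ^ (3 * p) ≤ c * sigsq n p P0 := by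
        calc (n : ℝ) ^ (3 * p) = 1 * 1 * (n : ℝ) ^ (3 * p) := by ring
          _ ≤ P0 * c * 4 ^ p * (n : ℝ) ^ (3 * p) := by
              gcongr
              exact one_le_pow₀ (by norm_num)
          _ = _ := by rw [sigsq]; ring
      have h5 : 1 / (2 : ℝ) ^ n ≤ S := by
        rw [hS, Real.le_sqrt (by positivity) (by positivity), div_pow, one_pow]
        calc 1 / ((2 : ℝ) ^ n) ^ 2 ≤ 1 / (2 : ℝ) ^ n :=
              one_div_le_one_div_of_le (by positivity) (le_self_pow₀ (one_le_pow₀ one_le_two) two_ne_zero)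
          _ ≤ Real.pi / c := by
              have : c ≤ (2 : ℝ) ^ n := hcj.trans (pow_le_pow_right₀ one_le_two hjn)
              gcongr
              linarith [Real.pi_gt_three]
      calc Real.exp (-(1 - slack n j) * c * sigsq n p P0)
          ≤ Real.exp (-(n : ℝ) ^ (3 * p) / 2) := by
            refine Real.exp_le_exp.2 ?_
            have h6 : (1 / 2 : ℝ) * (c * sigsq n p P0) ≤ (1 - slack n j) * (c * sigsq n p P0) :=
              mul_le_mul_of_nonneg_right (by linarith [hs.2]) (by positivity)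
            linarith
        _ = Real.exp (-(n : ℝ) ^ (3 * p) / 2) * 2 ^ n * (1 / 2 ^ n) := by field_simp
        _ ≤ _ := mul_le_mul H.htail h5 (by positivity) (by linarith)
    calc _ ≤ (1 + η) * S + errX n p P0 / 2 * S := add_le_add hA hB
      _ ≤ (1 + errX n p P0) * S := by nlinarith [mul_le_mul_of_nonneg_right hη3 hS0]
      _ ≤ _ := by
        gcongr
        have h0 : ((2 : ℝ) ^ (0 + 1) - 1) * errX n p P0 = errX n p P0 := by norm_num
        rw [h0, add_comm]
        exact Real.add_one_le_exp _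

end facts

end Vale.Agent.P047.Disproof
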