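import Vale.Agent.P047.Disproof.KeyNode

/-!
The step of the key theorem: splitting on the first coordinate, the chessboard inequality, and the
three bounds on the one-point function.
-/

namespace Vale.Agent.P047.Disproof

open MeasureTheory Finset
open scoped ENNReal


lemma cubeInt_prob_le (n k : ℕ) {ψ : UnitAddCircle → ℝ≥0∞} {x : ℝ} (h : ∀ b, ψ b ≤ ee x) :
    cubeInt n k (fun _ => ψ) ≤ ee ((2 : ℝ) ^ n * x) := by
  calc cubeInt n k (fun _ => ψ) ≤ ∫⁻ _ : Torus n k, ∏ _y : Cube n, ee x :=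
        lintegral_mono fun θ => Finset.prod_le_prod' fun y _ => h _
    _ = _ := by
      rw [lintegral_const, measure_univ, mul_one, ee_sum, Finset.sum_const, Finset.card_univ,
        nsmul_eq_mul]
      simp

lemma measurable_pairInt (n k : ℕ) {ψ : UnitAddCircle → ℝ≥0∞} (hψ : Measurable ψ) :
    Measurable fun d : UnitAddCircle => cubeInt n k fun _ b => ψ b * ψ (b + d) := by
  refine Measurable.lintegral_prod_right'
    (f := fun q : UnitAddCircle × Torus n k => ∏ y, ψ (ev n k q.2 y) * ψ (ev n k q.2 y + q.1)) ?_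
  exact Finset.measurable_fun_prod _ fun y _ =>
    (hψ.comp ((measurable_ev n k y).comp measurable_snd)).mul
      (hψ.comp (((measurable_ev n k y).comp measurable_snd).add measurable_fst))

/-- A pair integral, recentred. -/
lemma pairInt_center (n k : ℕ) (ψ : UnitAddCircle → ℝ≥0∞) (t : ℝ) :
    cubeInt n (k + 1) (fun _ b => ψ b * ψ (b + (t : UnitAddCircle))) =
      cubeInt n (k + 1) fun _ b => ψ (b - (t / 2 : ℝ)) * ψ (b + (t / 2 : ℝ)) := by
  rw [cubeInt, cubeInt, ← lintegral_add_right_eq_self (μ := (volume : Measure (Torus n (k + 1))))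
    (fun θ => ∏ y, ψ (ev n (k + 1) θ y) * ψ (ev n (k + 1) θ y + (t : UnitAddCircle)))
    (-cst n k ((t / 2 : ℝ) : UnitAddCircle))]
  refine lintegral_congr fun θ => Finset.prod_congr rfl fun y _ => ?_
  have h2 : (t : UnitAddCircle) = ((t / 2 : ℝ) : UnitAddCircle) + ((t / 2 : ℝ) : UnitAddCircle) := by
    rw [← AddCircle.coe_add, add_halves]
  rw [ev_add, ev_neg, ev_cst, h2, ← sub_eq_add_neg]
  congr 2
  abel

lemma ee_ne_top (x : ℝ) : ee x ≠ ⊤ := ENNReal.ofReal_ne_top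

lemma outer_arith {c a T θ ι s h hp u v : ℝ} (hc : 0 < c) (hT0 : 0 ≤ T) (hT1 : T ≤ 1) (hθ : 0 ≤ θ)
    (hah : 0 ≤ a * hp) (k1 : 2 * |s| * |h| + h ^ 2 ≤ ι * s ^ 2) (q1 : (|s| - |h|) ^ 2 ≤ u ^ 2)
    (q2 : (|s| - |h|) ^ 2 ≤ v ^ 2) (hι : 0 ≤ 1 - T - ι) :
    -(1 - T) * c * u ^ 2 + -(1 - T) * c * v ^ 2 + (2 * c * h ^ 2 - 2 * a * hp) ≤
      -(1 - (T + ι)) * (2 * c * (1 - θ)) * s ^ 2 := by
  have e1 : (|s| - |h|) ^ 2 = s ^ 2 - 2 * |s| * |h| + h ^ 2 := by
    rw [sub_sq, sq_abs, sq_abs]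
  have h0 : 0 ≤ (1 - T) * c := mul_nonneg (by linarith) hc.le
  have A := mul_le_mul_of_nonneg_left q1 h0
  have B := mul_le_mul_of_nonneg_left q2 h0
  rw [e1] at A B
  have C : 0 ≤ (1 - T - ι) * c * θ * s ^ 2 := by positivity
  have D : (1 - T) * (2 * |s| * |h|) ≤ 1 * (2 * |s| * |h|) :=
    mul_le_mul_of_nonneg_right (by linarith) (by positivity)
  have E1 : 0 ≤ (1 - T) * c * h ^ 2 := by positivity
  have F1 := mul_le_mul_of_nonneg_left (D.trans_eq (one_mul _)) hc.le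
  have G1 := mul_le_mul_of_nonneg_left k1 hc.le
  linarith

lemma tiny_arith {n p : ℕ} {P0 : ℝ} (H : Par n p P0) {a c T h : ℝ}
    (haT : a ≤ T * c * 256 ^ (p - 1)) (ha : 0 ≤ a) (hc : 0 < c) (hT1 : T ≤ 1)
    (hcn : c ≤ 2 ^ n) (hhp : h ^ (2 * p) = (h ^ 2) ^ (p - 1) * h ^ 2) :
    2 * P0 * (a * (4 ^ p * (n : ℝ) ^ (2 * p)) * (h ^ 2) ^ (p - 1)) ≤
      2 * a * h ^ (2 * p) / n + errC n p P0 := by
  have hn0 := H.n_pos
  have hn1 := H.one_le_n
  have hP0 := H.hP
  by_cases hσ : sigsq n p P0 ≤ h ^ 2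
  · refine le_add_of_le_of_nonneg ?_ H.errC_nonneg
    rw [hhp, le_div_iff₀ hn0]
    calc 2 * P0 * (a * (4 ^ p * (n : ℝ) ^ (2 * p)) * (h ^ 2) ^ (p - 1)) * n
        = 2 * a * ((h ^ 2) ^ (p - 1) * (P0 * 4 ^ p * (n : ℝ) ^ (2 * p + 1))) := by ring
      _ ≤ _ := by
          refine mul_le_mul_of_nonneg_left (mul_le_mul_of_nonneg_left ?_ (by positivity)) (by positivity)
          refine le_trans ?_ hσ
          refine mul_le_mul_of_nonneg_left (pow_le_pow_right₀ hn1 ?_) (by positivity)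
          have := H.hp; omega
  · refine le_add_of_nonneg_of_le (by rw [pow_mul]; positivity) ?_
    have hsig0 : 0 ≤ sigsq n p P0 := by unfold sigsq; positivity
    have hPa : 2 * P0 * a ≤ 2 ^ n * 256 ^ p := by
      calc 2 * P0 * a ≤ 1 * (1 * 2 ^ n * 256 ^ p) := by
            refine mul_le_mul H.P0_le.2.1 (haT.trans ?_) ha zero_le_one
            refine mul_le_mul (mul_le_mul hT1 hcn hc.le zero_le_one) ?_ (by positivity) (by positivity)
            exact pow_le_pow_right₀ (by norm_num) (Nat.sub_le _ _)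
        _ = _ := by ring
    calc 2 * P0 * (a * (4 ^ p * (n : ℝ) ^ (2 * p)) * (h ^ 2) ^ (p - 1))
        = 2 * P0 * a * (4 ^ p * (n : ℝ) ^ (2 * p)) * (h ^ 2) ^ (p - 1) := by ring
      _ ≤ _ := by
          rw [errC]
          exact mul_le_mul (mul_le_mul_of_nonneg_right hPa (by positivity))
            (pow_le_pow_left₀ (sq_nonneg h) (not_le.1 hσ).le _) (by positivity) (by positivity)

section step

variable {n p : ℕ} {P0 : ℝ} (H : Par n p P0)
include H

variable {j : ℕ} {c a : ℝ} {ψ : UnitAddCircle → ℝ≥0∞}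

/-- Bound (i): far pairs. -/
lemma Weight.pair_le_far (hj : j ≤ n) (hc : 0 < c) (hw : Weight n p j c a ψ) (b d : UnitAddCircle) :
    ψ b * ψ (b + d) ≤ ee (-(1 - slack n j) * (c / 2) * ‖d‖ ^ 2) := by
  refine (mul_le_mul' (hw.outer b) (hw.outer _)).trans ?_
  rw [← ee_add]
  refine ee_le ?_
  have hs : 0 ≤ (1 - slack n j) * c := mul_nonneg (sub_nonneg.2
    ((H.slack_bounds hj).2.trans ((div_le_one H.n_pos).2 H.one_le_n))) hc.le
  have h1 : ‖d‖ ≤ ‖b + d‖ + ‖b‖ :=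
    calc ‖d‖ = ‖(b + d) - b‖ := by rw [add_sub_cancel_left]
      _ ≤ _ := norm_sub_le _ _
  have h2 : ‖d‖ ^ 2 ≤ 2 * ‖b + d‖ ^ 2 + 2 * ‖b‖ ^ 2 := by
    nlinarith [sq_nonneg (‖b + d‖ - ‖b‖), norm_nonneg d]
  nlinarith [mul_le_mul_of_nonneg_left h2 hs]

/-- Bound (ii): pairs at a shift inside the zone. -/
lemma Weight.pair_le_zone (hj : j ≤ n) (hc : 0 < c) (hw : Weight n p j c a ψ) (b : UnitAddCircle) {t : ℝ}
    (ht : |t| ≤ rad n j) :
    ψ b * ψ (b + (t : UnitAddCircle)) ≤ ee (-(c / 2) * t ^ 2 + 2 * a * (t / 2) ^ (2 * p)) := by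
  have hr := H.rad_bounds hj
  have hs := H.slack_bounds hj
  have hn2 : 1 / (n : ℝ) ≤ 1 / 2 :=
    one_div_le_one_div_of_le two_pos (le_trans (by norm_num) H.n_ge)
  have hah : 0 ≤ a * (t / 2) ^ (2 * p) := mul_nonneg hw.a_nonneg (by rw [pow_mul]; positivity)
  by_cases hb : ‖b‖ ≤ rad n j ∧ ‖b + (t : UnitAddCircle)‖ ≤ rad n j
  · obtain ⟨s, rfl, hs2, hbs⟩ := exists_lift b
    obtain ⟨h1, h2⟩ := hb
    rw [hbs] at h1
    rw [← AddCircle.coe_add] at h2 ⊢
    rw [norm_coe_of_le ((abs_add_le s t).trans (by linarith))] at h2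
    refine (mul_le_mul' (hw.zone s h1) (hw.zone _ h2)).trans ?_
    rw [← ee_add]
    refine ee_le ?_
    set β := s + t / 2 with hβ
    set h := t / 2 with hh
    have e1 : s = β - h := by rw [hβ]; ring
    have e2 : s + t = β + h := by rw [hβ, hh]; ring
    rw [e2, e1]
    have hbin := sym_pow_le p one_pos le_rfl β h
    simp only [mul_one, div_one, one_pow] at hbin
    have hβr : β ^ 2 ≤ rad n j ^ 2 := by
      have : |β| ≤ rad n j := by
        rw [abs_le]; constructor <;> linarith [(abs_le.1 h1).1, (abs_le.1 h1).2, (abs_le.1 h2).1, (abs_le.1 h2).2]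
      rw [← sq_abs β]; gcongr
    have hhr : h ^ 2 ≤ rad n j ^ 2 := by
      rw [← sq_abs h]; gcongr
      rw [hh, abs_div, abs_two]; linarith [abs_nonneg t]
    have hb1 : β ^ (2 * p) ≤ (rad n j ^ 2) ^ (p - 1) * β ^ 2 := by
      rw [show β ^ (2 * p) = (β ^ 2) ^ (p - 1) * β ^ 2 by
        rw [← pow_succ, ← pow_mul]; congr 1; have := H.hp; omega]
      gcongr
    have hb2 : (h ^ 2) ^ (p - 1) * β ^ 2 ≤ (rad n j ^ 2) ^ (p - 1) * β ^ 2 := by gcongr
    have hq : slack n j * (2 + 4 * 4 ^ p) ≤ 2 := by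
      calc slack n j * (2 + 4 * 4 ^ p) ≤ 1 / n * (2 + 4 * 4 ^ p) := by gcongr; exact hs.2
        _ ≤ 2 := by
          rw [div_mul_eq_mul_div, one_mul, div_le_iff₀ H.n_pos]
          linarith [H.four_pow_le, H.n_ge]
    have key : a * ((β + h) ^ (2 * p) + (β - h) ^ (2 * p) - 2 * h ^ (2 * p)) ≤ 2 * c * β ^ 2 :=
      calc _ ≤ a * ((2 + 4 * 4 ^ p) * ((rad n j ^ 2) ^ (p - 1) * β ^ 2)) := by
            refine mul_le_mul_of_nonneg_left ?_ hw.a_nonneg
            have h4 : (0 : ℝ) ≤ 4 ^ p := by positivity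
            nlinarith [mul_le_mul_of_nonneg_left hb1 h4, mul_le_mul_of_nonneg_left hb2 h4]
        _ = (2 + 4 * 4 ^ p) * (a * (rad n j ^ 2) ^ (p - 1)) * β ^ 2 := by ring
        _ ≤ (2 + 4 * 4 ^ p) * (slack n j * c) * β ^ 2 := mul_le_mul_of_nonneg_right
            (mul_le_mul_of_nonneg_left hw.small (by positivity)) (sq_nonneg β)
        _ ≤ _ := by
            rw [show (2 + 4 * (4 : ℝ) ^ p) * (slack n j * c) = slack n j * (2 + 4 * 4 ^ p) * c by ring]
            gcongr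
    have et : t = 2 * h := by rw [hh]; ring
    rw [et]
    linarith
  · refine (mul_le_mul' (hw.outer b) (hw.outer _)).trans ?_
    rw [← ee_add]
    refine ee_le ?_
    rcases not_and_or.1 hb with h | h
    all_goals
      have h' := mul_le_mul (not_le.1 h).le (not_le.1 h).le (by linarith) (norm_nonneg _)
      have ht2 : t ^ 2 ≤ rad n j * rad n j := by rw [← sq, ← sq_abs t]; gcongr
      have hw0 : (1 / 2 : ℝ) * c ≤ (1 - slack n j) * c := by gcongr; linarith [hs.2]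
      have h0 : 0 ≤ (1 - slack n j) * c := le_trans (by positivity) hw0
      nlinarith [mul_le_mul_of_nonneg_left ht2 h0, mul_le_mul_of_nonneg_left h' h0,
        mul_nonneg h0 (sq_nonneg ‖b‖), mul_nonneg h0 (sq_nonneg ‖b + (t : UnitAddCircle)‖),
        mul_le_mul_of_nonneg_right hw0 (sq_nonneg t)]

/-- Bound (iii): pairs at a tiny shift form a weight of the child node. -/
lemma Weight.center (hj : j < n) (hc : 0 < c) (hw : Weight n p j c a ψ) {h : ℝ}
    (hh : |h| ≤ 1 / (n : ℝ) ^ 3) :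
    ∃ θh : ℝ, 0 ≤ θh ∧ θh ≤ 1 / (n : ℝ) ^ 3 ∧
      θh * c = a * (4 ^ p * (n : ℝ) ^ (2 * p)) * (h ^ 2) ^ (p - 1) ∧
      Weight n p (j + 1) (2 * c * (1 - θh)) (2 * a * (1 + 4 ^ p / (n : ℝ) ^ 2))
        (fun b => ψ (b - (h : UnitAddCircle)) * ψ (b + (h : UnitAddCircle)) * ee (2 * c * h ^ 2 - 2 * a * h ^ (2 * p))) := by
  have hn0 := H.n_pos
  have hn := H.n_ge
  have hn1 := H.one_le_n
  have hr := H.rad_bounds hj.le
  have hr' := H.rad_bounds (j := j + 1) hj
  have hs := H.slack_bounds hj.le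
  have ha := hw.a_nonneg
  have hrad : rad n (j + 1) = rad n j - 1 / (n : ℝ) ^ 3 := by
    simp only [rad, Nat.cast_add, Nat.cast_one]; ring
  have hsl : slack n (j + 1) = slack n j + 1 / (n : ℝ) ^ 2 := by
    simp only [slack, Nat.cast_add, Nat.cast_one]; ring
  set T := slack n j with hT
  have hT1 : T ≤ 1 := hs.2.trans ((div_le_one hn0).2 hn1)
  set θh := a * (4 ^ p * (n : ℝ) ^ (2 * p)) * (h ^ 2) ^ (p - 1) / c with hθ
  have hθ0 : 0 ≤ θh := by rw [hθ]; positivity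
  have hθn : θh ≤ 1 / (n : ℝ) ^ 3 := by
    rw [hθ, div_le_div_iff₀ hc (by positivity), one_mul]
    have hh2 : h ^ 2 ≤ 1 / (n : ℝ) ^ 6 := by
      calc h ^ 2 = |h| ^ 2 := (sq_abs h).symm
        _ ≤ (1 / (n : ℝ) ^ 3) ^ 2 := by gcongr
        _ = _ := by ring
    calc a * (4 ^ p * (n : ℝ) ^ (2 * p)) * (h ^ 2) ^ (p - 1) * (n : ℝ) ^ 3
        ≤ (1 * c * 256 ^ (p - 1)) * (4 ^ p * (n : ℝ) ^ (2 * p)) * (1 / (n : ℝ) ^ 6) ^ (p - 1) * (n : ℝ) ^ 3 := by
          gcongr
          exact (hw.a_le H hj.le).trans (by gcongr)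
      _ ≤ c * ((n : ℝ) * (n : ℝ) ^ (2 * p) * (n : ℝ) ^ 3 / (n : ℝ) ^ (6 * (p - 1))) := by
          rw [one_div_pow, ← pow_mul]
          have : (256 : ℝ) ^ (p - 1) * 4 ^ p ≤ n := by
            refine le_trans ?_ H.hn
            calc (256 : ℝ) ^ (p - 1) * 4 ^ p ≤ 256 ^ p * 4 ^ p := by
                  gcongr
                  · norm_num
                  · omega
              _ = _ := by rw [← mul_pow]; norm_num
          calc _ = c * (((256 : ℝ) ^ (p - 1) * 4 ^ p) * (n : ℝ) ^ (2 * p) * (n : ℝ) ^ 3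
                / (n : ℝ) ^ (6 * (p - 1))) := by ring
            _ ≤ _ := by gcongr
      _ ≤ c * 1 := by
          gcongr
          rw [div_le_one (by positivity)]
          calc (n : ℝ) * (n : ℝ) ^ (2 * p) * (n : ℝ) ^ 3 = (n : ℝ) ^ (2 * p + 4) := by ring
            _ ≤ _ := pow_le_pow_right₀ hn1 (by have := H.hp; omega)
      _ = c := mul_one c
  have hθc : θh * c = a * (4 ^ p * (n : ℝ) ^ (2 * p)) * (h ^ 2) ^ (p - 1) := by
    rw [hθ, div_mul_cancel₀ _ hc.ne']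
  have hn32 : 1 / (n : ℝ) ^ 3 ≤ 1 / (n : ℝ) ^ 2 :=
    one_div_le_one_div_of_le (by positivity) (pow_le_pow_right₀ hn1 (by norm_num))
  have h4n : 4 ^ p / (n : ℝ) ≤ 1 / 4 := by
    rw [div_le_iff₀ hn0]; linarith [H.four_pow_le]
  have hsmall : 2 * a * (1 + 4 ^ p / (n : ℝ) ^ 2) * (rad n (j + 1) ^ 2) ^ (p - 1) ≤
      slack n (j + 1) * (2 * c * (1 - θh)) := by
    have h1 : a * (rad n (j + 1) ^ 2) ^ (p - 1) ≤ T * c := by
      refine le_trans ?_ hw.small
      gcongr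
      · linarith [hr'.1]
      · rw [hrad]; linarith [show (0 : ℝ) ≤ 1 / (n : ℝ) ^ 3 by positivity]
    have h2 : T * (4 ^ p / (n : ℝ) ^ 2) + θh * (T + 1 / (n : ℝ) ^ 2) ≤ 1 / (n : ℝ) ^ 2 := by
      have e : T * (4 ^ p / (n : ℝ) ^ 2) ≤ 1 / (n : ℝ) ^ 2 * (1 / 4) := by
        calc T * (4 ^ p / (n : ℝ) ^ 2) ≤ 1 / n * (4 ^ p / (n : ℝ) ^ 2) := by gcongr; exact hs.2
          _ = 1 / (n : ℝ) ^ 2 * (4 ^ p / n) := by ring
          _ ≤ _ := by gcongr
      have e2 : θh * (T + 1 / (n : ℝ) ^ 2) ≤ 1 / (n : ℝ) ^ 2 * (2 / n) := by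
        calc θh * (T + 1 / (n : ℝ) ^ 2) ≤ 1 / (n : ℝ) ^ 3 * 2 := by
              refine mul_le_mul hθn ?_ (add_nonneg hs.1 (by positivity)) (by positivity)
              have : 1 / (n : ℝ) ^ 2 ≤ 1 := (div_le_one (by positivity)).2 (one_le_pow₀ hn1)
              linarith
          _ = _ := by ring
      have e3 : (2 : ℝ) / n ≤ 3 / 4 := by rw [div_le_iff₀ hn0]; linarith
      nlinarith [mul_le_mul_of_nonneg_left e3 (show (0 : ℝ) ≤ 1 / (n : ℝ) ^ 2 by positivity)]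
    rw [hsl]
    calc _ = 2 * (1 + 4 ^ p / (n : ℝ) ^ 2) * (a * (rad n (j + 1) ^ 2) ^ (p - 1)) := by ring
      _ ≤ 2 * (1 + 4 ^ p / (n : ℝ) ^ 2) * (T * c) := by gcongr
      _ ≤ _ := by nlinarith [mul_le_mul_of_nonneg_left h2 hc.le]
  refine ⟨θh, hθ0, hθn, hθc, ?_⟩
  have hzone : ∀ s : ℝ, |s| ≤ rad n (j + 1) →
      ψ ((s : UnitAddCircle) - (h : UnitAddCircle)) * ψ ((s : UnitAddCircle) + (h : UnitAddCircle)) * ee (2 * c * h ^ 2 - 2 * a * h ^ (2 * p)) ≤
        ee (-(2 * c * (1 - θh)) * s ^ 2 + 2 * a * (1 + 4 ^ p / (n : ℝ) ^ 2) * s ^ (2 * p)) := by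
    intro s hsr
    rw [hrad] at hsr
    have e1 : |s - h| ≤ rad n j := (abs_sub _ _).trans (by linarith)
    have e2 : |s + h| ≤ rad n j := (abs_add_le _ _).trans (by linarith)
    rw [← AddCircle.coe_add, ← AddCircle.coe_sub]
    refine (mul_le_mul' (mul_le_mul' (hw.zone _ e1) (hw.zone _ e2)) le_rfl).trans ?_
    rw [← ee_add, ← ee_add]
    refine ee_le ?_
    have hbin := mul_le_mul_of_nonneg_left (sym_pow_le p (L := 1 / (n : ℝ) ^ 2) (by positivity)
      ((div_le_one (by positivity)).2 (one_le_pow₀ hn1)) s h) ha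
    rw [one_div_one_div, ← pow_mul (n : ℝ) 2 p,
      show a * (2 * (1 + 4 ^ p * (1 / (n : ℝ) ^ 2)) * s ^ (2 * p) +
          2 * 4 ^ p * (n : ℝ) ^ (2 * p) * ((h ^ 2) ^ (p - 1) * s ^ 2))
        = 2 * a * (1 + 4 ^ p / (n : ℝ) ^ 2) * s ^ (2 * p)
          + 2 * (a * (4 ^ p * (n : ℝ) ^ (2 * p)) * (h ^ 2) ^ (p - 1)) * s ^ 2 by ring, ← hθc] at hbin
    linarith
  refine ⟨?_, by positivity, hsmall, hzone, ?_⟩
  · exact ((hw.meas.comp (measurable_id.sub_const _)).mul
      (hw.meas.comp (measurable_id.add_const _))).mul_const _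
  · intro b
    obtain ⟨s, rfl, hs2, hbs⟩ := exists_lift b
    rw [hbs, sq_abs]
    by_cases hsr : |s| ≤ rad n (j + 1)
    · refine (hzone s hsr).trans (ee_le ?_)
      have : (s ^ 2) ^ (p - 1) ≤ (rad n (j + 1) ^ 2) ^ (p - 1) :=
        pow_le_pow_left₀ (sq_nonneg s)
          ((sq_abs s).symm.le.trans (pow_le_pow_left₀ (abs_nonneg s) hsr 2)) _
      rw [show s ^ (2 * p) = (s ^ 2) ^ (p - 1) * s ^ 2 by
        rw [← pow_succ, ← pow_mul]; congr 1; have := H.hp; omega]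
      have h5 : 2 * a * (1 + 4 ^ p / (n : ℝ) ^ 2) * (s ^ 2) ^ (p - 1) ≤
          slack n (j + 1) * (2 * c * (1 - θh)) := le_trans (by gcongr) hsmall
      nlinarith [mul_le_mul_of_nonneg_right h5 (sq_nonneg s)]
    · refine (mul_le_mul' (mul_le_mul' (hw.outer _) (hw.outer _)) le_rfl).trans ?_
      rw [← ee_add, ← ee_add]
      refine ee_le ?_
      have hs16 : 1 / 16 ≤ |s| := le_trans hr'.1 (not_le.1 hsr).le
      have hhn : |h| ≤ 1 / 1024 := hh.trans (one_div_le_one_div_of_le (by norm_num)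
        (hn.trans (le_self_pow₀ hn1 (by norm_num))))
      have hnh : ‖(h : UnitAddCircle)‖ = |h| := norm_coe_of_le (by linarith)
      have n1 : |s| - |h| ≤ ‖(s : UnitAddCircle) - (h : UnitAddCircle)‖ := by
        have := norm_sub_norm_le (s : UnitAddCircle) (h : UnitAddCircle); rwa [hbs, hnh] at this
      have n2 : |s| - |h| ≤ ‖(s : UnitAddCircle) + (h : UnitAddCircle)‖ := by
        have := norm_sub_norm_le (s : UnitAddCircle) (-(h : UnitAddCircle)); rwa [hbs, norm_neg, hnh, sub_neg_eq_add] at this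
      have hd : 0 ≤ |s| - |h| := by linarith
      have q1 := pow_le_pow_left₀ hd n1 2
      have q2 := pow_le_pow_left₀ hd n2 2
      have h0 : 0 ≤ (1 - T) * c := mul_nonneg (by linarith) hc.le
      have hah : 0 ≤ a * h ^ (2 * p) := mul_nonneg ha (by rw [pow_mul]; positivity)
      have k1 : 2 * |s| * |h| + h ^ 2 ≤ 1 / (n : ℝ) ^ 2 * s ^ 2 := by
        rw [← sq_abs s, ← sq_abs h]
        have e : 2 * |h| ≤ 1 / (n : ℝ) ^ 2 * (|s| / 2) := by
          calc 2 * |h| ≤ 2 * (1 / (n : ℝ) ^ 3) := by gcongr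
            _ = 1 / (n : ℝ) ^ 2 * (2 / n) := by ring
            _ ≤ _ := by
              refine mul_le_mul_of_nonneg_left ?_ (by positivity)
              calc (2 : ℝ) / n ≤ 2 / 1024 := by gcongr
                _ ≤ _ := by linarith
        have A := mul_le_mul_of_nonneg_left e (abs_nonneg s)
        have B := mul_le_mul_of_nonneg_left (show |h| ≤ |s| by linarith) (abs_nonneg h)
        have C : 0 ≤ |s| * |h| := by positivity
        linarith
      rw [hsl]
      exact outer_arith hc hs.1 hT1 hθ0 hah k1 q1 q2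
        (by linarith [hs.2, one_div_le_one_div_of_le (by norm_num) (by linarith : (4 : ℝ) ≤ n),
          one_div_le_one_div_of_le hn0 (le_self_pow₀ hn1 (by norm_num : 2 ≠ 0))])

/-- The bound (iii) on the one-point function, from the bound at the first child. -/
lemma pairInt_tiny {n' k : ℕ} (ih : NodeBound n p P0 n') (hjn : j + (n' + 1) = n) (hc : 0 < c)
    (hcj : c ≤ 2 ^ j) (hP : 3 ^ (k + 1) * (2 / 3 : ℝ) ^ (n' + 1) ≤ P0 * c)
    (hw : Weight n p j c a ψ) {t : ℝ} (ht : |t| ≤ 2 * (1 / (n : ℝ) ^ 3)) :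
    cubeInt n' (k + 1) (fun _ b => ψ b * ψ (b + (t : UnitAddCircle))) ≤
      ee ((2 ^ (n' + 1) - 1) * errX n p P0 + Real.log (G n' (k + 1) (2 * c)) + (2 : ℝ) ^ n' *
        (-(c / 2) * t ^ 2 + 2 * a * (1 + 1 / n) / 4 ^ p * t ^ (2 * p) + errC n p P0)) := by
  have hjlt : j < n := by omega
  have hn0 := H.n_pos
  have hn := H.n_ge
  have hn1 := H.one_le_n
  have hP0 := H.hP
  have hs := H.slack_bounds hjlt.le
  have ha := hw.a_nonneg
  have hh : |t / 2| ≤ 1 / (n : ℝ) ^ 3 := by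
    rw [abs_div, abs_two, div_le_iff₀ two_pos]; linarith
  obtain ⟨θh, hθ0, hθn, hθc, hW⟩ := hw.center H hjlt hc hh
  have hhp : (t / 2) ^ (2 * p) = ((t / 2) ^ 2) ^ (p - 1) * (t / 2) ^ 2 := by
    rw [← pow_succ, ← pow_mul]; congr 1; have := H.hp; omega
  have hθ14 : θh ≤ 1 / 4 := hθn.trans (one_div_le_one_div_of_le (by norm_num)
    (le_trans (by linarith) (le_self_pow₀ hn1 (by norm_num : 3 ≠ 0))))
  set N : ℝ := ((Fintype.card (Idx n' (k + 1)) : ℕ) : ℝ) with hN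
  have h23 : (3 : ℝ) ^ (k + 1) * (2 / 3) ^ n' = 3 / 2 * (3 ^ (k + 1) * (2 / 3) ^ (n' + 1)) := by ring
  have hb := ih (k + 1) (j + 1) (2 * c * (1 - θh)) _ _ (by omega)
    (mul_pos (by linarith) (by linarith))
    (by
      rw [pow_succ (2 : ℝ) j]
      calc 2 * c * (1 - θh) ≤ 2 * c * 1 := mul_le_mul_of_nonneg_left (by linarith) (by linarith)
        _ ≤ _ := by linarith)
    (by
      rw [h23]
      calc 3 / 2 * (3 ^ (k + 1) * (2 / 3 : ℝ) ^ (n' + 1)) ≤ 3 / 2 * (P0 * c) :=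
            mul_le_mul_of_nonneg_left hP (by norm_num)
        _ = P0 * (2 * c * (3 / 4)) := by ring
        _ ≤ _ := mul_le_mul_of_nonneg_left
            (mul_le_mul_of_nonneg_left (by linarith) (by linarith)) hP0.le) hW
  have hlog : Real.log (G n' (k + 1) (2 * c * (1 - θh))) ≤
      Real.log (G n' (k + 1) (2 * c)) + N * θh := by
    rw [mul_comm (2 * c), log_G_mul _ _ (by linarith) (by linarith)]
    have h1 := Real.one_sub_inv_le_log_of_pos (by linarith : 0 < 1 - θh)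
    have h2 : (1 - θh)⁻¹ ≤ 1 + 2 * θh := by
      rw [inv_le_iff_one_le_mul₀ (by linarith)]; nlinarith
    have h4 := mul_le_mul_of_nonneg_left (show -Real.log (1 - θh) ≤ 2 * θh by linarith)
      (show (0 : ℝ) ≤ N / 2 by positivity)
    linarith
  set h := t / 2 with hht
  set E := 2 * c * h ^ 2 - 2 * a * h ^ (2 * p) with hE
  have heq : cubeInt n' (k + 1) (fun _ b => ψ (b - (h : UnitAddCircle)) * ψ (b + (h : UnitAddCircle)) * ee E) =
      cubeInt n' (k + 1) (fun _ b => ψ b * ψ (b + (t : UnitAddCircle))) * ee ((2 : ℝ) ^ n' * E) := by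
    rw [pairInt_center, ← hht, cubeInt, cubeInt, ← lintegral_mul_const' _ _ (ee_ne_top _)]
    refine lintegral_congr fun θ => ?_
    rw [Finset.prod_mul_distrib, ee_sum, Finset.sum_const, Finset.card_univ, nsmul_eq_mul]
    simp
  rw [heq] at hb
  calc cubeInt n' (k + 1) (fun _ b => ψ b * ψ (b + (t : UnitAddCircle)))
      = cubeInt n' (k + 1) (fun _ b => ψ b * ψ (b + (t : UnitAddCircle))) * ee ((2 : ℝ) ^ n' * E) *
          ee (-((2 : ℝ) ^ n' * E)) := by
        rw [mul_assoc, ← ee_add, add_neg_cancel, ee_zero, mul_one]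
    _ ≤ _ := mul_le_mul' hb le_rfl
    _ ≤ _ := by
      rw [← ee_add]
      refine ee_le ?_
      have hNm : N ≤ 2 * P0 * c * 2 ^ n' := by
        calc N ≤ 3 ^ (k + 1) * (4 / 3) ^ n' := card_idx_le _ _
          _ = 3 / 2 * (3 ^ (k + 1) * (2 / 3) ^ (n' + 1)) * 2 ^ n' := by
              rw [← h23, mul_assoc, ← mul_pow]; norm_num
          _ ≤ _ := mul_le_mul_of_nonneg_right (by linarith [mul_pos hP0 hc]) (by positivity)
      have hNθ : N * θh ≤ 2 ^ n' * (2 * a * h ^ (2 * p) / n + errC n p P0) := by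
        refine le_trans (mul_le_mul_of_nonneg_right hNm hθ0) ?_
        rw [show 2 * P0 * c * 2 ^ n' * θh = 2 ^ n' * (2 * P0 * (θh * c)) by ring, hθc]
        refine mul_le_mul_of_nonneg_left ?_ (by positivity)
        exact tiny_arith H (hw.a_le H hjlt.le) ha hc (hs.2.trans ((div_le_one hn0).2 hn1))
          (hcj.trans (pow_le_pow_right₀ one_le_two hjlt.le)) hhp
      have e2 : -(c / 2) * t ^ 2 + 2 * a * (1 + 1 / n) / 4 ^ p * t ^ (2 * p)
          = -E + 2 * a * h ^ (2 * p) / n := by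
        rw [hE, hht, div_pow t 2 (2 * p), pow_mul (2 : ℝ) 2 p]; norm_num; ring
      rw [e2]
      linarith

/-- The second child. -/
lemma Weight.child (hj : j < n) (hc : 0 < c) (hw : Weight n p j c a ψ) {ψD : UnitAddCircle → ℝ≥0∞}
    (hm : Measurable ψD) {ε : ℝ} (hε0 : 0 ≤ ε) (hεc : ε ≤ 2 * P0 * (n : ℝ) * c)
    (hfar : ∀ d : UnitAddCircle, ψD d ≤ ee (-(1 - slack n j) * (c / 2) * ‖d‖ ^ 2 + ε))
    (hzone : ∀ t : ℝ, |t| ≤ rad n j →
      ψD t ≤ ee (-(c / 2) * t ^ 2 + 2 * a * (t / 2) ^ (2 * p) + ε))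
    (htiny : ∀ t : ℝ, |t| ≤ 2 * (1 / (n : ℝ) ^ 3) →
      ψD t ≤ ee (-(c / 2) * t ^ 2 + 2 * a * (1 + 1 / n) / 4 ^ p * t ^ (2 * p))) :
    Weight n p (j + 1) (c / 2)
      (2 * a * (1 + 1 / n) / 4 ^ p + ε / (2 * (1 / (n : ℝ) ^ 3)) ^ (2 * p)) ψD := by
  have hn0 := H.n_pos
  have hn1 := H.one_le_n
  have hP0 := H.hP
  have hs := H.slack_bounds hj.le
  have ha := hw.a_nonneg
  have haD0 : 0 ≤ ε / (2 * (1 / (n : ℝ) ^ 3)) ^ (2 * p) := by positivity
  have haD1 : 0 ≤ 2 * a * (1 + 1 / n) / 4 ^ p := by positivity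
  have hsl : slack n (j + 1) = slack n j + 1 / (n : ℝ) ^ 2 := by
    simp only [slack, Nat.cast_add, Nat.cast_one]; ring
  have hrle : rad n (j + 1) ≤ rad n j := by
    simp only [rad, Nat.cast_add, Nat.cast_one, add_div]; linarith [show (0 : ℝ) ≤ 1 / (n : ℝ) ^ 3 by positivity]
  have hr' := H.rad_bounds (j := j + 1) hj
  refine ⟨hm, add_nonneg haD1 haD0, ?_, ?_, ?_⟩
  · have h1 : a * (rad n (j + 1) ^ 2) ^ (p - 1) ≤ slack n j * c := by
      refine le_trans ?_ hw.small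
      gcongr
      linarith [hr'.1]
    have h8 : (16 : ℝ) ≤ 4 ^ p := by
      calc (16 : ℝ) = 4 ^ 2 := by norm_num
        _ ≤ _ := pow_le_pow_right₀ (by norm_num) (by linarith [H.hp])
    have A1 : 2 * a * (1 + 1 / n) / 4 ^ p * (rad n (j + 1) ^ 2) ^ (p - 1) ≤ slack n j * (c / 2) := by
      calc _ = a * (rad n (j + 1) ^ 2) ^ (p - 1) * (2 * (1 + 1 / n) / 4 ^ p) := by ring
        _ ≤ slack n j * c * (1 / 2) := by
            refine mul_le_mul h1 ?_ (by positivity) (mul_nonneg hs.1 hc.le)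
            rw [div_le_iff₀ (by positivity)]
            have : (1 : ℝ) / n ≤ 1 := (div_le_one hn0).2 hn1
            linarith
        _ = _ := by ring
    have A2 : ε / (2 * (1 / (n : ℝ) ^ 3)) ^ (2 * p) * (rad n (j + 1) ^ 2) ^ (p - 1) ≤
        1 / (n : ℝ) ^ 2 * (c / 2) := by
      calc _ ≤ ε / (1 / (n : ℝ) ^ 3) ^ (2 * p) * 1 := by
            gcongr
            · linarith [show (0 : ℝ) ≤ 1 / (n : ℝ) ^ 3 by positivity]
            · exact pow_le_one₀ (sq_nonneg _) (by nlinarith [hr'.1, hr'.2])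
        _ = ε * (n : ℝ) ^ (6 * p) := by
            rw [mul_one, one_div_pow, ← pow_mul, div_div_eq_mul_div, div_one]
            congr 2; ring
        _ ≤ 2 * P0 * (n : ℝ) * c * (n : ℝ) ^ (6 * p) := by gcongr
        _ = 4000 * (n : ℝ) ^ (6 * p + 3) * P0 * (1 / (n : ℝ) ^ 2 * c / 2000) := by
            field_simp; ring
        _ ≤ 1 * (1 / (n : ℝ) ^ 2 * c / 2000) := by gcongr; exact H.heps
        _ ≤ _ := by linarith [show (0 : ℝ) ≤ 1 / (n : ℝ) ^ 2 * c by positivity]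
    rw [hsl, add_mul, add_mul]
    linarith
  · intro t ht
    by_cases h2 : |t| ≤ 2 * (1 / (n : ℝ) ^ 3)
    · refine (htiny t h2).trans (ee_le ?_)
      have : 0 ≤ ε / (2 * (1 / (n : ℝ) ^ 3)) ^ (2 * p) * t ^ (2 * p) :=
        mul_nonneg haD0 (by rw [pow_mul]; positivity)
      rw [add_mul]; linarith
    · refine (hzone t (ht.trans hrle)).trans (ee_le ?_)
      have hp2 : (2 * (1 / (n : ℝ) ^ 3)) ^ (2 * p) ≤ t ^ (2 * p) := by
        rw [← (even_two_mul p).pow_abs t]; gcongr; exact (not_le.1 h2).le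
      have e1 : ε ≤ ε / (2 * (1 / (n : ℝ) ^ 3)) ^ (2 * p) * t ^ (2 * p) := by
        rw [div_mul_eq_mul_div, le_div_iff₀ (by positivity)]
        gcongr
      have e2 : 2 * a * (t / 2) ^ (2 * p) ≤ 2 * a * (1 + 1 / n) / 4 ^ p * t ^ (2 * p) := by
        rw [div_pow, show (2 : ℝ) ^ (2 * p) = 4 ^ p by rw [pow_mul]; norm_num]
        have : 0 ≤ 2 * a * (1 / n) / 4 ^ p * t ^ (2 * p) :=
          mul_nonneg (by positivity) (by rw [pow_mul]; positivity)
        linarith [show 2 * a * (t ^ (2 * p) / 4 ^ p) = 2 * a / 4 ^ p * t ^ (2 * p) by ring,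
          show 2 * a * (1 + 1 / n) / 4 ^ p * t ^ (2 * p)
            = 2 * a / 4 ^ p * t ^ (2 * p) + 2 * a * (1 / n) / 4 ^ p * t ^ (2 * p) by ring]
      rw [add_mul]; linarith
  · intro d
    obtain ⟨t, rfl, ht2, hdt⟩ := exists_lift d
    rw [hdt, sq_abs]
    by_cases hz : |t| ≤ rad n (j + 1)
    · by_cases h2 : |t| ≤ 2 * (1 / (n : ℝ) ^ 3)
      · refine (htiny t h2).trans (ee_le ?_)
        have hr : (t ^ 2) ^ (p - 1) ≤ (rad n j ^ 2) ^ (p - 1) := by
          exact pow_le_pow_left₀ (sq_nonneg t)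
            ((sq_abs t).symm.le.trans (pow_le_pow_left₀ (abs_nonneg t) (hz.trans hrle) 2)) _
        have h1 := (mul_le_mul_of_nonneg_left hr ha).trans hw.small
        rw [show t ^ (2 * p) = (t ^ 2) ^ (p - 1) * t ^ 2 by
          rw [← pow_succ, ← pow_mul]; congr 1; have := H.hp; omega, hsl]
        have e : 2 * a * (1 + 1 / n) / 4 ^ p * ((t ^ 2) ^ (p - 1) * t ^ 2) ≤ slack n j * (c / 2) * t ^ 2 := by
          calc _ = a * (t ^ 2) ^ (p - 1) * (2 * (1 + 1 / n) / 4 ^ p) * t ^ 2 := by ring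
            _ ≤ slack n j * c * (1 / 2) * t ^ 2 := by
                refine mul_le_mul_of_nonneg_right (mul_le_mul h1 ?_ (by positivity) (mul_nonneg hs.1 hc.le)) (sq_nonneg t)
                rw [div_le_iff₀ (by positivity)]
                have : (1 : ℝ) / n ≤ 1 := (div_le_one hn0).2 hn1
                have : (16 : ℝ) ≤ 4 ^ p := by
                  calc (16 : ℝ) = 4 ^ 2 := by norm_num
                    _ ≤ _ := pow_le_pow_right₀ (by norm_num) (by linarith [H.hp])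
                linarith
            _ = _ := by ring
        have : 0 ≤ 1 / (n : ℝ) ^ 2 * (c / 2) * t ^ 2 := by positivity
        linarith
      · refine (hfar t).trans (ee_le ?_)
        rw [hdt, sq_abs, hsl]
        have h3 : ε ≤ 1 / (n : ℝ) ^ 2 * (c / 2) * t ^ 2 := by
          have ht6 : 4 / (n : ℝ) ^ 6 ≤ t ^ 2 := by
            rw [← sq_abs t, show 4 / (n : ℝ) ^ 6 = (2 * (1 / (n : ℝ) ^ 3)) ^ 2 by ring]
            gcongr; exact (not_le.1 h2).le
          calc ε ≤ 2 * P0 * (n : ℝ) * c := hεc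
            _ = 4000 * (n : ℝ) ^ 9 * P0 * (c / (2000 * (n : ℝ) ^ 8)) := by field_simp; ring
            _ ≤ 1 * (c / (2000 * (n : ℝ) ^ 8)) := by
                gcongr
                refine le_trans ?_ H.heps
                gcongr
                have := H.hp; omega
            _ ≤ 1 / (n : ℝ) ^ 2 * (c / 2) * (4 / (n : ℝ) ^ 6) := by
                rw [show 1 / (n : ℝ) ^ 2 * (c / 2) * (4 / (n : ℝ) ^ 6) = c / (1 / 2 * (n : ℝ) ^ 8) by ring,
                  one_mul]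
                gcongr
                norm_num
            _ ≤ _ := by gcongr
        linarith
    · refine (hfar t).trans (ee_le ?_)
      rw [hdt, sq_abs, hsl]
      have ht6 : (1 / 16 : ℝ) ^ 2 ≤ t ^ 2 := by
        rw [← sq_abs t]; gcongr; exact hr'.1.trans (not_le.1 hz).le
      have h3 : ε ≤ 1 / (n : ℝ) ^ 2 * (c / 2) * t ^ 2 := by
        calc ε ≤ 2 * P0 * (n : ℝ) * c := hεc
          _ = 4000 * (n : ℝ) ^ 3 * P0 * (c / (2000 * (n : ℝ) ^ 2)) := by field_simp; ring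
          _ ≤ 1 * (c / (2000 * (n : ℝ) ^ 2)) := by
              gcongr
              refine le_trans ?_ H.heps
              gcongr
              omega
          _ ≤ 1 / (n : ℝ) ^ 2 * (c / 2) * (1 / 16) ^ 2 := by
              rw [show 1 / (n : ℝ) ^ 2 * (c / 2) * (1 / 16) ^ 2 = c / (512 * (n : ℝ) ^ 2) by ring,
                one_mul]
              gcongr
              norm_num
          _ ≤ _ := by gcongr
      linarith
/-- The inductive step. -/
lemma nodeBound_succ {n' : ℕ} (ih : NodeBound n p P0 n') : NodeBound n p P0 (n' + 1) := by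
  intro k' j c a ψ hjn hc hcj hP hw
  have hjlt : j < n := by omega
  have hn0 := H.n_pos
  have hn1 := H.one_le_n
  have hn := H.n_ge
  have hX := H.errX_nonneg
  have hC := H.errC_nonneg
  have hP0 := H.hP
  have hs := H.slack_bounds hjlt.le
  have ha := hw.a_nonneg
  cases k' with
  | zero =>
    rw [G_k_zero, Real.log_one, add_zero]
    have h1 : ∀ b, ψ b ≤ ee 0 := fun b => (hw.outer b).trans (ee_le (by
      have : 0 ≤ (1 - slack n j) * c * ‖b‖ ^ 2 :=
        mul_nonneg (mul_nonneg (sub_nonneg.2 (hs.2.trans ((div_le_one hn0).2 hn1))) hc.le) (sq_nonneg _)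
      linarith))
    refine (cubeInt_prob_le _ _ h1).trans (ee_le ?_)
    rw [mul_zero]
    exact mul_nonneg (sub_nonneg.2 (one_le_pow₀ one_le_two)) hX
  | succ k =>
  obtain ⟨Φ, hΦ⟩ : ∃ f : UnitAddCircle → ℝ≥0∞, f = fun d => cubeInt n' (k + 1) fun _ b => ψ b * ψ (b + d) :=
    ⟨_, rfl⟩
  have hm : (0 : ℝ) < 2 ^ n' := by positivity
  have hΦm : Measurable Φ := hΦ ▸ measurable_pairInt _ _ hw.meas
  set m := (2 : ℝ) ^ n' with hmdef
  set LG := Real.log (G n' (k + 1) (2 * c)) with hLG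
  set δS := (2 ^ (n' + 1) - 1) * errX n p P0 with hδS
  have hδ0 : 0 ≤ δS := mul_nonneg (sub_nonneg.2 (one_le_pow₀ one_le_two)) hX
  set K := (δS + LG) / m + errC n p P0 with hK
  set ψD : UnitAddCircle → ℝ≥0∞ := fun d => Φ d ^ (1 / m) * ee (-K) with hψD
  have hψDm : Measurable ψD := (hΦm.pow_const _).mul_const _
  have hψD_le : ∀ {d : UnitAddCircle} {x : ℝ}, Φ d ≤ ee x → ψD d ≤ ee (x / m - K) := by
    intro d x h
    calc ψD d ≤ ee x ^ (1 / m) * ee (-K) :=
          mul_le_mul' (ENNReal.rpow_le_rpow h (by positivity)) le_rfl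
      _ = _ := by rw [ee_rpow, ← ee_add]; congr 1; ring
  set N : ℝ := ((Fintype.card (Idx n' (k + 1)) : ℕ) : ℝ) with hN
  have hNm : N ≤ 2 * P0 * c * m := by
    have h2 : (3 : ℝ) ^ (k + 1) * (2 / 3) ^ n' = 3 / 2 * (3 ^ (k + 1) * (2 / 3) ^ (n' + 1)) := by ring
    calc N ≤ 3 ^ (k + 1) * (4 / 3) ^ n' := card_idx_le _ _
      _ = 3 ^ (k + 1) * (2 / 3) ^ n' * m := by rw [hmdef, mul_assoc, ← mul_pow]; norm_num
      _ ≤ _ := by
        refine mul_le_mul_of_nonneg_right ?_ hm.le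
        rw [h2]
        linarith [mul_pos hP0 hc]
  set ε := max 0 (-LG / m) with hε
  have hε0 : 0 ≤ ε := le_max_left _ _
  have hεc : ε ≤ 2 * P0 * (n : ℝ) * c := by
    refine max_le (by positivity) ?_
    rw [div_le_iff₀ hm]
    have h1 := log_G_ge n' (k + 1) (c := 2 * c) (C := 2 * 2 ^ j) (by linarith) (by linarith)
    have h2 : Real.log ((2 : ℝ) ^ n' * (2 * 2 ^ j)) ≤ n := by
      rw [show (2 : ℝ) ^ n' * (2 * 2 ^ j) = 2 ^ n by
        rw [← hjn, pow_add, pow_succ]; ring, Real.log_pow]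
      refine mul_le_of_le_one_right (Nat.cast_nonneg _) ?_
      linarith [Real.log_le_sub_one_of_pos (two_pos : (0 : ℝ) < 2)]
    have h3 : N / 2 * Real.log ((2 : ℝ) ^ n' * (2 * 2 ^ j)) ≤ N / 2 * n := by gcongr
    have h4 : N * n ≤ 2 * P0 * c * m * n := by gcongr
    have h5 : 0 ≤ N * n := by positivity
    linarith
  -- the three bounds
  have hfar : ∀ d : UnitAddCircle, ψD d ≤ ee (-(1 - slack n j) * (c / 2) * ‖d‖ ^ 2 + ε) := by
    intro d
    refine (hψD_le (x := m * (-(1 - slack n j) * (c / 2) * ‖d‖ ^ 2)) (by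
      rw [hΦ]; exact cubeInt_prob_le n' (k + 1) fun b => hw.pair_le_far H hjlt.le hc b d)).trans
      (ee_le ?_)
    rw [mul_div_cancel_left₀ _ hm.ne', hK, add_div]
    have : -LG / m ≤ ε := le_max_right _ _
    rw [neg_div] at this
    linarith [div_nonneg hδ0 hm.le]
  have hzone : ∀ t : ℝ, |t| ≤ rad n j →
      ψD t ≤ ee (-(c / 2) * t ^ 2 + 2 * a * (t / 2) ^ (2 * p) + ε) := by
    intro t ht
    refine (hψD_le (x := m * (-(c / 2) * t ^ 2 + 2 * a * (t / 2) ^ (2 * p))) (by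
      rw [hΦ]; exact cubeInt_prob_le n' (k + 1) fun b => hw.pair_le_zone H hjlt.le hc b ht)).trans
      (ee_le ?_)
    rw [mul_div_cancel_left₀ _ hm.ne', hK, add_div]
    have : -LG / m ≤ ε := le_max_right _ _
    rw [neg_div] at this
    linarith [div_nonneg hδ0 hm.le]
  have htiny : ∀ t : ℝ, |t| ≤ 2 * (1 / (n : ℝ) ^ 3) →
      ψD t ≤ ee (-(c / 2) * t ^ 2 + 2 * a * (1 + 1 / n) / 4 ^ p * t ^ (2 * p)) := by
    intro t ht
    refine (hψD_le (x := δS + LG + m * (-(c / 2) * t ^ 2 + 2 * a * (1 + 1 / n) / 4 ^ p * t ^ (2 * p) + errC n p P0)) (by rw [hΦ]; exact pairInt_tiny H ih hjn hc hcj hP hw ht)).trans (ee_le ?_)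
    rw [hK, add_div, mul_div_cancel_left₀ _ hm.ne']
    linarith
  -- the weight of the second child
  have hWD := hw.child H hjlt hc hψDm hε0 hεc hfar hzone htiny
  -- assembling
  have hsplit : cubeInt (n' + 1) (k + 1) (fun _ => ψ)
      ≤ cubeInt n' k (fun _ => ψD) * ee (m * K) := by
    rw [cubeInt_succ n' k fun _ => hw.meas, cubeInt, ← lintegral_mul_const' _ _ (ee_ne_top _)]
    refine lintegral_mono fun D => ?_
    have hd : ∀ x, Φ (ev n' k D x) ^ (1 / m) = ψD (ev n' k D x) * ee K := by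
      intro x; simp only [hψD]
      rw [mul_assoc, ← ee_add, neg_add_cancel, ee_zero, mul_one]
    simp only [← Finset.prod_mul_distrib]
    refine (chessboard n' (k + 1) (g := fun x b => ψ b * ψ (b + ev n' k D x)) fun x =>
      hw.meas.mul (hw.meas.comp (measurable_id.add_const _))).trans (le_of_eq ?_)
    have hc2 : ∀ x, cubeInt n' (k + 1) (fun _ b => ψ b * ψ (b + ev n' k D x)) = Φ (ev n' k D x) :=
      fun x => by rw [hΦ]
    simp only [hc2, ← hmdef, hd]
    rw [Finset.prod_mul_distrib, ee_sum, Finset.sum_const, Finset.card_univ, nsmul_eq_mul]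
    simp only [Fintype.card_fun, Fintype.card_bool, Fintype.card_fin, Nat.cast_pow, Nat.cast_ofNat]
    rfl
  have hbD := ih k (j + 1) (c / 2) _ ψD (by omega) (by linarith)
    (by rw [pow_succ]; linarith [show (0 : ℝ) ≤ 2 ^ j by positivity]) (by
      have h2 : (3 : ℝ) ^ (k + 1) * (2 / 3) ^ (n' + 1) = 2 * (3 ^ k * (2 / 3) ^ n') := by ring
      rw [h2] at hP; linarith) hWD
  refine hsplit.trans ((mul_le_mul' hbD le_rfl).trans ?_)
  rw [← ee_add]
  refine ee_le ?_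
  have hmK : m * K = δS + LG + m * errC n p P0 := by rw [hK]; field_simp
  have hmC : m * errC n p P0 ≤ errX n p P0 := by
    rw [errX, hmdef]; gcongr
    · norm_num
    · omega
  rw [show G (n' + 1) (k + 1) c = G n' (k + 1) (2 * c) * G n' k (c / 2) from rfl,
    Real.log_mul (G_pos _ _ (by linarith)).ne' (G_pos _ _ (by linarith)).ne', hmK, hδS, hLG,
    pow_succ (2 : ℝ) (n' + 1)]
  linarith

/-- The bound at every node. -/
lemma nodeBound : ∀ n', NodeBound n p P0 n'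
  | 0 => nodeBound_zero H
  | n' + 1 => nodeBound_succ H (nodeBound n')

end step

end Vale.Agent.P047.Disproof
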