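import Vale.Agent.P047.Disproof.MomentBasic
import Mathlib.LinearAlgebra.Lagrange
import Mathlib.Data.Complex.Basic
import Mathlib.Analysis.Complex.Norm

/-!
# P047: trace moments of signed frame matrices at imaginary biases
-/

namespace Vale.Agent.P047.Disproof.Moment

open Matrix Finset

/-- The constant of the real moment bound. -/
noncomputable def momC : ℕ → ℝ
  | 0 => 1
  | m + 1 => 8 * (2 * m + 1) * momC m

theorem momC_nonneg : ∀ m, 0 ≤ momC m
  | 0 => zero_le_one
  | m + 1 => mul_nonneg (by positivity) (momC_nonneg m)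

variable {ι κ : Type*} [Fintype ι] [DecidableEq ι] [Fintype κ] [DecidableEq κ]

theorem moment_bound (v : ι → κ → ℝ) (a μ : ι → ℝ) (R η : ℝ)
    (hv : ∀ u : κ → ℝ, ∑ x, (v x ⬝ᵥ u) ^ 2 ≤ u ⬝ᵥ u) (hR : ∀ x, v x ⬝ᵥ v x ≤ R) (hR0 : 0 ≤ R)
    (ha : ∀ x, |a x| ≤ 1) (hη : 0 ≤ η) (hη1 : η ≤ 1) (hμ : ∀ x, |μ x| ≤ η) (m : ℕ) :
    ∑ σ, bw μ σ * (frameMat v a σ ^ (2 * m)).trace ≤
      momC m * Fintype.card κ * (η + √R) ^ (2 * m) := by
  induction m with
  | zero =>
    simp only [mul_zero, pow_zero, Matrix.trace_one, momC, one_mul, mul_one, ← Finset.sum_mul,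
      sum_bw, le_refl]
  | succ m ih =>
    refine (moment_step v a μ R η m hv hR hR0 ha hη1 hμ).trans ?_
    refine (mul_le_mul_of_nonneg_left ih (by positivity)).trans ?_
    have hs : η ^ 2 + 8 * (2 * (m : ℝ) + 1) * R ≤ 8 * (2 * m + 1) * (η + √R) ^ 2 := by
      have h1 := Real.sq_sqrt hR0
      have h2 : (0 : ℝ) ≤ η * √R := mul_nonneg hη (Real.sqrt_nonneg R)
      have h3 : (1 : ℝ) ≤ 8 * (2 * m + 1) := by
        have : (0 : ℝ) ≤ m := Nat.cast_nonneg m
        linarith
      nlinarith [mul_le_mul_of_nonneg_right h3 (sq_nonneg η)]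
    refine (mul_le_mul_of_nonneg_right hs ?_).trans_eq ?_
    · exact mul_nonneg (mul_nonneg (momC_nonneg m) (Nat.cast_nonneg _)) (by positivity)
    · rw [momC, show 2 * (m + 1) = 2 * m + 2 by ring, pow_add]
      ring

/-- Interpolation at `I` from equally spaced nodes in `[0, 1]`. -/
theorem exists_nodes (D : ℕ) : ∃ w : Fin (D + 1) → ℂ, ∀ d ≤ D,
    Complex.I ^ d = ∑ j, w j * ((((j : ℕ) : ℝ) / (D + 1) : ℝ) : ℂ) ^ d := by
  set s : Fin (D + 1) → ℂ := fun j => ((((j : ℕ) : ℝ) / (D + 1) : ℝ) : ℂ) with hs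
  have hinj : Set.InjOn s (Finset.univ : Finset (Fin (D + 1))) := by
    intro i _ j _ h
    simp only [hs, Complex.ofReal_inj] at h
    have h' : ((i : ℕ) : ℝ) = (j : ℕ) := by
      field_simp at h
      exact h
    exact Fin.ext (by exact_mod_cast h')
  refine ⟨fun j => (Lagrange.basis Finset.univ s j).eval Complex.I, fun d hd => ?_⟩
  have hdeg : ((Polynomial.X : Polynomial ℂ) ^ d).degree < ((univ : Finset (Fin (D + 1))).card) := by
    rw [Polynomial.degree_X_pow, Finset.card_univ, Fintype.card_fin]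
    exact_mod_cast Nat.lt_succ_of_le hd
  have h := congrArg (Polynomial.eval Complex.I) (Lagrange.eq_interpolate hinj hdeg)
  simp only [Lagrange.interpolate_apply, Polynomial.eval_finsetSum, Polynomial.eval_mul,
    Polynomial.eval_C, Polynomial.eval_pow, Polynomial.eval_X] at h
  rw [h]
  exact Finset.sum_congr rfl fun j _ => mul_comm _ _

omit [DecidableEq ι] in
theorem chain (v : ι → κ → ℝ) (a : ι → ℝ) (hR : ∀ x, v x ⬝ᵥ v x ≤ 1) (ha : ∀ x, |a x| ≤ 1)
    (n : ℕ) : ∀ x z : ι, ∃ c : (Fin n → ι) → ℝ, (∀ y, |c y| ≤ 1) ∧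
      ∀ σ, v x ⬝ᵥ (frameMat v a σ ^ n).mulVec (v z) = ∑ y, c y * ∏ j, sgn (σ (y j)) := by
  induction n with
  | zero =>
    intro x z
    refine ⟨fun _ => v x ⬝ᵥ v z, fun _ => ?_, fun σ => ?_⟩
    · have h := Finset.sum_mul_sq_le_sq_mul_sq Finset.univ (v x) (v z)
      have hz : 0 ≤ v z ⬝ᵥ v z := dot_self_nonneg _
      refine abs_le.2 ?_
      simp only [dotProduct, ← sq] at h hz hR ⊢
      constructor <;>
        nlinarith [mul_le_mul (hR x) (hR z) hz zero_le_one]
    · simp
  | succ n ih =>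
    intro x z
    choose c hc hcs using fun t => ih t z
    refine ⟨fun y => a (y 0) * (v x ⬝ᵥ v (y 0)) * c (y 0) (Fin.tail y), fun y => ?_, fun σ => ?_⟩
    · have h := Finset.sum_mul_sq_le_sq_mul_sq Finset.univ (v x) (v (y 0))
      have hz : 0 ≤ v (y 0) ⬝ᵥ v (y 0) := dot_self_nonneg _
      have hd : |v x ⬝ᵥ v (y 0)| ≤ 1 := by
        refine abs_le.2 ?_
        simp only [dotProduct, ← sq] at h hz hR ⊢
        constructor <;>
          nlinarith [mul_le_mul (hR x) (hR (y 0)) hz zero_le_one]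
      rw [abs_mul, abs_mul]
      exact mul_le_one₀ (mul_le_one₀ (ha _) (abs_nonneg _) hd) (abs_nonneg _) (hc _ _)
    · rw [pow_succ', ← mulVec_mulVec]
      conv_lhs => arg 2; arg 1; rw [frameMat]
      rw [sum_mulVec, dotProduct_sum, ← (Fin.consEquiv fun _ => ι).sum_comp,
        Fintype.sum_prod_type]
      refine Finset.sum_congr rfl fun t _ => ?_
      rw [smul_mulVec, vecMulVec_mulVec, op_smul_eq_smul, smul_smul, dotProduct_smul, smul_eq_mul,
        hcs t σ, Finset.mul_sum, Finset.sum_mul]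
      refine Finset.sum_congr rfl fun y _ => ?_
      simp [Fin.consEquiv, Fin.prod_univ_succ]
      ring

omit [DecidableEq ι] in
theorem trace_coef (v : ι → κ → ℝ) (a : ι → ℝ) (hR : ∀ x, v x ⬝ᵥ v x ≤ 1) (ha : ∀ x, |a x| ≤ 1)
    {N : ℕ} (hN : 0 < N) : ∃ coef : (Fin N → ι) → ℝ, (∀ y, |coef y| ≤ 1) ∧
      ∀ σ, (frameMat v a σ ^ N).trace = ∑ y, coef y * ∏ j, sgn (σ (y j)) := by
  obtain ⟨n, rfl⟩ : ∃ n, N = n + 1 := ⟨N - 1, by omega⟩
  choose c hc hcs using fun t => chain v a hR ha n t t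
  refine ⟨fun y => a (y 0) * c (y 0) (Fin.tail y), fun y => ?_, fun σ => ?_⟩
  · rw [abs_mul]
    exact mul_le_one₀ (ha _) (abs_nonneg _) (hc _ _)
  · rw [trace_pow_succ, ← (Fin.consEquiv fun _ => ι).sum_comp, Fintype.sum_prod_type]
    refine Finset.sum_congr rfl fun t _ => ?_
    rw [hcs t σ, Finset.mul_sum]
    refine Finset.sum_congr rfl fun y _ => ?_
    simp [Fin.consEquiv, Fin.prod_univ_succ]
    ring

omit [Fintype κ] [DecidableEq κ] in
/-- The multilinear extension of a sign monomial. -/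
theorem sum_weight_prod {N : ℕ} (y : Fin N → ι) (τ : ι → ℝ) :
    ∃ (d : ℕ) (p : ℂ), d ≤ N ∧ ∀ z : ℂ,
      ∑ σ : ι → Bool, (∏ x, (1 + (sgn (σ x) : ℂ) * (z * τ x)) / 2) *
        ((∏ j, sgn (σ (y j)) : ℝ) : ℂ) = p * z ^ d := by
  set S := Finset.univ.filter fun x => Odd (Finset.univ.filter fun j => y j = x).card with hS
  refine ⟨S.card, ∏ x ∈ S, (τ x : ℂ), ?_, fun z => ?_⟩
  · refine le_trans (Finset.card_le_card (t := Finset.univ.image y) fun x hx => ?_)
      (Finset.card_image_le.trans (by simp))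
    obtain ⟨j, hj⟩ := Finset.card_pos.1 (Finset.mem_filter.1 hx).2.pos
    exact Finset.mem_image.2 ⟨j, Finset.mem_univ j, (Finset.mem_filter.1 hj).2⟩
  · have hfib : ∀ σ : ι → Bool, ((∏ j, sgn (σ (y j)) : ℝ) : ℂ) =
        ∏ x, (sgn (σ x) : ℂ) ^ (Finset.univ.filter fun j => y j = x).card := by
      intro σ
      push_cast
      rw [← Finset.prod_fiberwise Finset.univ y fun j => (sgn (σ (y j)) : ℂ)]
      refine Finset.prod_congr rfl fun x _ => ?_
      rw [← Finset.prod_const]
      exact Finset.prod_congr rfl fun j hj => by rw [(Finset.mem_filter.1 hj).2]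
    simp only [hfib, ← Finset.prod_mul_distrib]
    rw [← Fintype.prod_sum fun x b => (1 + (sgn b : ℂ) * (z * τ x)) / 2 *
      (sgn b : ℂ) ^ (Finset.univ.filter fun j => y j = x).card]
    rw [← Finset.prod_const, ← Finset.prod_mul_distrib, Finset.prod_filter]
    refine Finset.prod_congr rfl fun x _ => ?_
    simp only [Fintype.sum_bool, sgn]
    rcases Nat.even_or_odd (Finset.univ.filter fun j => y j = x).card with h | h
    · rw [if_neg (Nat.not_odd_iff_even.2 h)]
      simp [h.neg_one_pow]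
      ring
    · rw [if_pos h]
      simp [h.neg_one_pow]
      ring

/-- Part C: trace moments of signed frame matrices. -/
theorem matrixMoment : MatrixMoment := by
  intro r hr
  obtain ⟨w, hw⟩ := exists_nodes (2 * r)
  refine ⟨(∑ j, ‖w j‖) * momC r, ?_⟩
  intro ι κ _ _ _ _ v a τ R η hv hR hR1 ha hη hη1 hτ
  obtain ⟨coef, hcoef, hexp⟩ := trace_coef v a (fun x => (hR x).trans hR1) ha
    (show 0 < 2 * r by omega)
  refine ⟨?_, ⟨coef, hcoef, hexp⟩, ?_⟩
  · set R' := max R 0 with hR'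
    have hsq : √R' = √R := by
      rcases le_total R 0 with h | h
      · rw [hR', max_eq_right h, Real.sqrt_zero, Real.sqrt_eq_zero_of_nonpos h]
      · rw [hR', max_eq_left h]
    set Φ : ℂ → ℂ := fun z => ∑ σ : ι → Bool, (∏ x, (1 + (sgn (σ x) : ℂ) * (z * τ x)) / 2) *
      ((frameMat v a σ ^ (2 * r)).trace : ℂ) with hΦ
    choose d p hd hp using fun y : Fin (2 * r) → ι => sum_weight_prod y τ
    have hpoly : ∀ z, Φ z = ∑ y, (coef y : ℂ) * (p y * z ^ d y) := by
      intro z
      simp only [hΦ, hexp, Complex.ofReal_sum, Finset.mul_sum]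
      rw [Finset.sum_comm]
      refine Finset.sum_congr rfl fun y _ => ?_
      rw [← hp y z, Finset.mul_sum]
      refine Finset.sum_congr rfl fun σ _ => ?_
      push_cast
      ring
    set s : Fin (2 * r + 1) → ℝ := fun j => ((j : ℕ) : ℝ) / ((2 * r : ℕ) + 1) with hs
    have hI : Φ Complex.I = ∑ j, w j * Φ (s j) := by
      simp only [hpoly, Finset.mul_sum]
      rw [Finset.sum_comm]
      refine Finset.sum_congr rfl fun y _ => ?_
      rw [hw (d y) (hd y), Finset.mul_sum, Finset.mul_sum]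
      exact Finset.sum_congr rfl fun j _ => by ring
    have hnode : ∀ j, ‖Φ (s j)‖ ≤ momC r * Fintype.card κ * (η + √R) ^ (2 * r) := by
      intro j
      have hs0 : 0 ≤ s j := by positivity
      have hs1 : s j ≤ 1 := by
        rw [hs]
        rw [div_le_one (by positivity)]
        have hj : ((j : ℕ) : ℝ) < ((2 * r + 1 : ℕ) : ℝ) := by exact_mod_cast j.isLt
        push_cast at hj ⊢
        linarith
      have hμ : ∀ x, |s j * τ x| ≤ η := fun x => by
        rw [abs_mul, abs_of_nonneg hs0]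
        exact (mul_le_of_le_one_left (abs_nonneg _) hs1).trans (hτ x)
      have hreal : Φ (s j) =
          ((∑ σ, bw (fun x => s j * τ x) σ * (frameMat v a σ ^ (2 * r)).trace : ℝ) : ℂ) := by
        simp only [hΦ, bw]
        push_cast
        rfl
      have hnn : 0 ≤ ∑ σ, bw (fun x => s j * τ x) σ * (frameMat v a σ ^ (2 * r)).trace := by
        refine Finset.sum_nonneg fun σ _ =>
          mul_nonneg (bw_nonneg (fun x => (hμ x).trans hη1) σ) ?_
        obtain ⟨ev, hev, -⟩ := exists_spectrum (frameMat_symm v a σ)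
        rw [hev]
        exact Finset.sum_nonneg fun i _ => Even.pow_nonneg ⟨r, two_mul r⟩ _
      rw [hreal, Complex.norm_real, Real.norm_eq_abs, abs_of_nonneg hnn, ← hsq]
      exact moment_bound v a _ R' η hv (fun x => (hR x).trans (le_max_left _ _))
        (le_max_right _ _) ha hη hη1 hμ r
    calc ‖∑ σ : ι → Bool, (∏ x, (1 + (sgn (σ x) : ℂ) * (Complex.I * τ x)) / 2) *
          ((frameMat v a σ ^ (2 * r)).trace : ℂ)‖ = ‖∑ j, w j * Φ (s j)‖ := by rw [← hI]
      _ ≤ ∑ j, ‖w j‖ * (momC r * Fintype.card κ * (η + √R) ^ (2 * r)) := by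
          refine (norm_sum_le _ _).trans (Finset.sum_le_sum fun j _ => ?_)
          rw [norm_mul]
          exact mul_le_mul_of_nonneg_left (hnode j) (norm_nonneg _)
      _ = _ := by rw [← Finset.sum_mul]; ring
  · intro σ u
    obtain ⟨ev, hev, hspec⟩ := exists_spectrum (frameMat_symm v a σ)
    obtain ⟨q, hq, hq1, hqn⟩ := hspec u
    have h1 := hqn 1
    simp only [pow_one] at h1
    rw [h1, hev, ← hq1]
    rcases isEmpty_or_nonempty κ with h | h
    · simp [show 2 * r ≠ 0 by omega]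
    obtain ⟨i₀, -, hmax⟩ := Finset.exists_max_image Finset.univ (fun i => |ev i|)
      Finset.univ_nonempty
    have hb : |∑ i, q i * ev i| ≤ (∑ i, q i) * |ev i₀| := by
      rw [Finset.sum_mul]
      refine (Finset.abs_sum_le_sum_abs _ _).trans (Finset.sum_le_sum fun i _ => ?_)
      rw [abs_mul, abs_of_nonneg (hq i)]
      exact mul_le_mul_of_nonneg_left (hmax i (Finset.mem_univ i)) (hq i)
    have hev2 : Even (2 * r) := ⟨r, two_mul r⟩
    calc (∑ i, q i * ev i) ^ (2 * r) = |∑ i, q i * ev i| ^ (2 * r) := (hev2.pow_abs _).symm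
      _ ≤ ((∑ i, q i) * |ev i₀|) ^ (2 * r) := pow_le_pow_left₀ (abs_nonneg _) hb _
      _ = (∑ i, q i) ^ (2 * r) * ev i₀ ^ (2 * r) := by rw [mul_pow, hev2.pow_abs]
      _ ≤ _ := by
          refine mul_le_mul_of_nonneg_left ?_ (hev2.pow_nonneg _)
          exact Finset.single_le_sum (f := fun i => ev i ^ (2 * r))
            (fun i _ => hev2.pow_nonneg _) (Finset.mem_univ i₀)

end Vale.Agent.P047.Disproof.Moment

namespace Vale.Agent.P047.Disproof

/-- Part C: trace moments of signed frame matrices, continued to imaginary biases. -/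
theorem matrixMoment : MatrixMoment := Moment.matrixMoment

end Vale.Agent.P047.Disproof
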