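import Vale.Agent.P047.Disproof.Defs
import Mathlib.Analysis.Matrix.Spectrum
import Mathlib.Tactic.Positivity
import Mathlib.Tactic.Ring
import Mathlib.Tactic.Linarith

/-!
# P047: one step of the trace-moment recursion for signed frame matrices
-/

namespace Vale.Agent.P047.Disproof.Moment

open Matrix Finset

variable {ι κ : Type*} [Fintype κ] [DecidableEq κ]

theorem symm_pow {A : Matrix κ κ ℝ} (hA : Aᵀ = A) (i : ℕ) : (A ^ i)ᵀ = A ^ i := by
  rw [transpose_pow, hA]

theorem dot_pow_add {A : Matrix κ κ ℝ} (hA : Aᵀ = A) (v w : κ → ℝ) (i j : ℕ) :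
    v ⬝ᵥ (A ^ (i + j)).mulVec w = (A ^ i).mulVec v ⬝ᵥ (A ^ j).mulVec w := by
  rw [pow_add, ← mulVec_mulVec, dotProduct_mulVec, ← mulVec_transpose, symm_pow hA]

omit [DecidableEq κ] in
theorem dot_self_nonneg (v : κ → ℝ) : 0 ≤ v ⬝ᵥ v :=
  Finset.sum_nonneg fun i _ => mul_self_nonneg (v i)

theorem qpow_nonneg {A : Matrix κ κ ℝ} (hA : Aᵀ = A) (v : κ → ℝ) (m : ℕ) :
    0 ≤ v ⬝ᵥ (A ^ (2 * m)).mulVec v := by
  rw [two_mul, dot_pow_add hA]
  exact dot_self_nonneg _

theorem qpow_odd_le {A : Matrix κ κ ℝ} (hA : Aᵀ = A) (v : κ → ℝ) (m : ℕ) (t : ℝ) :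
    |t * (v ⬝ᵥ (A ^ (2 * m + 1)).mulVec v)| ≤
      t ^ 2 / 2 * (v ⬝ᵥ (A ^ (2 * m)).mulVec v) +
        1 / 2 * (v ⬝ᵥ (A ^ (2 * (m + 1))).mulVec v) := by
  rw [show 2 * m + 1 = m + (m + 1) by ring, show 2 * m = m + m by ring,
    show 2 * (m + 1) = (m + 1) + (m + 1) by ring, dot_pow_add hA v v m (m + 1),
    dot_pow_add hA v v m m, dot_pow_add hA v v (m + 1) (m + 1)]
  simp only [dotProduct, Finset.mul_sum, ← Finset.sum_add_distrib]
  refine (Finset.abs_sum_le_sum_abs _ _).trans (Finset.sum_le_sum fun i _ => ?_)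
  rw [abs_le]
  constructor <;>
    nlinarith [sq_nonneg (t * ((A ^ m).mulVec v i) - (A ^ (m + 1)).mulVec v i),
      sq_nonneg (t * ((A ^ m).mulVec v i) + (A ^ (m + 1)).mulVec v i)]

theorem frame_trace [Fintype ι] {A : Matrix κ κ ℝ} (hA : Aᵀ = A) (v : ι → κ → ℝ)
    (hv : ∀ u : κ → ℝ, ∑ x, (v x ⬝ᵥ u) ^ 2 ≤ u ⬝ᵥ u) (m : ℕ) :
    ∑ x, v x ⬝ᵥ (A ^ (2 * m)).mulVec (v x) ≤ (A ^ (2 * m)).trace := by
  have hs := symm_pow hA m
  calc ∑ x, v x ⬝ᵥ (A ^ (2 * m)).mulVec (v x)
      = ∑ x, ∑ k, (v x ⬝ᵥ (A ^ m) k) ^ 2 := by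
        refine Finset.sum_congr rfl fun x _ => ?_
        rw [two_mul, dot_pow_add hA]
        refine Finset.sum_congr rfl fun k _ => ?_
        rw [sq, dotProduct_comm (v x)]
        rfl
    _ = ∑ k, ∑ x, (v x ⬝ᵥ (A ^ m) k) ^ 2 := Finset.sum_comm
    _ ≤ ∑ k, (A ^ m) k ⬝ᵥ (A ^ m) k := Finset.sum_le_sum fun k _ => hv _
    _ = (A ^ (2 * m)).trace := by
        rw [two_mul, pow_add]
        simp only [Matrix.trace, Matrix.diag, Matrix.mul_apply, dotProduct]
        refine Finset.sum_congr rfl fun k _ => Finset.sum_congr rfl fun l _ => ?_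
        congr 1
        exact congrFun (congrFun hs l) k

theorem exists_spectrum {A : Matrix κ κ ℝ} (hA : Aᵀ = A) :
    ∃ ev : κ → ℝ, (∀ n : ℕ, (A ^ n).trace = ∑ i, ev i ^ n) ∧
      ∀ v : κ → ℝ, ∃ w : κ → ℝ, (∀ i, 0 ≤ w i) ∧ ∑ i, w i = v ⬝ᵥ v ∧
        ∀ n : ℕ, v ⬝ᵥ (A ^ n).mulVec v = ∑ i, w i * ev i ^ n := by
  have hH : A.IsHermitian := hA
  set U : Matrix κ κ ℝ := (hH.eigenvectorUnitary : Matrix κ κ ℝ) with hU
  have hUU : star U * U = 1 := Unitary.coe_star_mul_self _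
  have hst : star U = Uᵀ := rfl
  have hpow : ∀ n : ℕ, A ^ n = U * diagonal (fun i => hH.eigenvalues i ^ n) * star U := by
    intro n
    conv_lhs => rw [hH.spectral_theorem]
    rw [← map_pow, Unitary.conjStarAlgAut_apply, diagonal_pow]
    rfl
  refine ⟨hH.eigenvalues, fun n => ?_, fun v => ?_⟩
  · rw [hpow, trace_mul_cycle, hUU, one_mul, trace_diagonal]
  · have key : ∀ n : ℕ, v ⬝ᵥ (A ^ n).mulVec v =
        ∑ i, (star U).mulVec v i ^ 2 * hH.eigenvalues i ^ n := by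
      intro n
      rw [hpow, ← mulVec_mulVec, ← mulVec_mulVec, dotProduct_mulVec, ← mulVec_transpose, ← hst]
      refine Finset.sum_congr rfl fun i _ => ?_
      rw [mulVec_diagonal]
      ring
    refine ⟨fun i => (star U).mulVec v i ^ 2, fun i => sq_nonneg _, ?_, key⟩
    simpa using (key 0).symm

theorem qpow_mul_le {A B : Matrix κ κ ℝ} (hA : Aᵀ = A) (hB : Bᵀ = B) (v : κ → ℝ) {j l m : ℕ}
    (hjl : j + l = 2 * m) :
    |(v ⬝ᵥ (A ^ j).mulVec v) * (v ⬝ᵥ (B ^ l).mulVec v)| ≤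
      (v ⬝ᵥ v) * (v ⬝ᵥ (A ^ (2 * m)).mulVec v + v ⬝ᵥ (B ^ (2 * m)).mulVec v) := by
  obtain ⟨p, -, hp⟩ := exists_spectrum hA
  obtain ⟨q, -, hq⟩ := exists_spectrum hB
  obtain ⟨w, hw, hw1, hwn⟩ := hp v
  obtain ⟨u, hu, hu1, hun⟩ := hq v
  rw [hwn, hun, hwn, hun, Finset.sum_mul_sum]
  have hpt : ∀ a b : ℝ, |a ^ j * b ^ l| ≤ a ^ (2 * m) + b ^ (2 * m) := by
    intro a b
    have e1 : |a| ^ (2 * m) = a ^ (2 * m) := Even.pow_abs ⟨m, by ring⟩ a
    have e2 : |b| ^ (2 * m) = b ^ (2 * m) := Even.pow_abs ⟨m, by ring⟩ b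
    have n1 : 0 ≤ a ^ (2 * m) := e1 ▸ pow_nonneg (abs_nonneg a) _
    have n2 : 0 ≤ b ^ (2 * m) := e2 ▸ pow_nonneg (abs_nonneg b) _
    rw [abs_mul, abs_pow, abs_pow]
    rcases le_total |a| |b| with h | h
    · calc |a| ^ j * |b| ^ l ≤ |b| ^ j * |b| ^ l :=
            mul_le_mul_of_nonneg_right (pow_le_pow_left₀ (abs_nonneg a) h j) (by positivity)
        _ ≤ a ^ (2 * m) + b ^ (2 * m) := by rw [← pow_add, hjl, e2]; linarith
    · calc |a| ^ j * |b| ^ l ≤ |a| ^ j * |a| ^ l :=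
            mul_le_mul_of_nonneg_left (pow_le_pow_left₀ (abs_nonneg b) h l) (by positivity)
        _ ≤ a ^ (2 * m) + b ^ (2 * m) := by rw [← pow_add, hjl, e1]; linarith
  calc |∑ i, ∑ k, w i * p i ^ j * (u k * q k ^ l)|
      ≤ ∑ i, ∑ k, w i * u k * (p i ^ (2 * m) + q k ^ (2 * m)) := by
        refine (Finset.abs_sum_le_sum_abs _ _).trans (Finset.sum_le_sum fun i _ => ?_)
        refine (Finset.abs_sum_le_sum_abs _ _).trans (Finset.sum_le_sum fun k _ => ?_)
        rw [show w i * p i ^ j * (u k * q k ^ l) = w i * u k * (p i ^ j * q k ^ l) by ring,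
          abs_mul, abs_of_nonneg (mul_nonneg (hw i) (hu k))]
        exact mul_le_mul_of_nonneg_left (hpt _ _) (mul_nonneg (hw i) (hu k))
    _ = (∑ i, w i * p i ^ (2 * m)) * ∑ k, u k + (∑ i, w i) * ∑ k, u k * q k ^ (2 * m) := by
        rw [Finset.sum_mul_sum, Finset.sum_mul_sum, ← Finset.sum_add_distrib]
        refine Finset.sum_congr rfl fun i _ => ?_
        rw [← Finset.sum_add_distrib]
        exact Finset.sum_congr rfl fun k _ => by ring
    _ = _ := by rw [hu1, hw1]; ring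

theorem qpow_sub_le {A B : Matrix κ κ ℝ} (hA : Aᵀ = A) (hB : Bᵀ = B) (v : κ → ℝ) (c : ℝ)
    (hAB : A - B = c • vecMulVec v v) (m : ℕ) :
    |v ⬝ᵥ (A ^ (2 * m + 1)).mulVec v - v ⬝ᵥ (B ^ (2 * m + 1)).mulVec v| ≤
      (2 * m + 1 : ℕ) * (|c| * ((v ⬝ᵥ v) *
        (v ⬝ᵥ (A ^ (2 * m)).mulVec v + v ⬝ᵥ (B ^ (2 * m)).mulVec v))) := by
  set f : ℕ → ℝ := fun j => v ⬝ᵥ (A ^ j * B ^ (2 * m + 1 - j)).mulVec v with hf
  have h1 : f (2 * m + 1) = v ⬝ᵥ (A ^ (2 * m + 1)).mulVec v := by simp [hf]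
  have h0 : f 0 = v ⬝ᵥ (B ^ (2 * m + 1)).mulVec v := by simp [hf]
  rw [← h1, ← h0, ← Finset.sum_range_sub f]
  refine (Finset.abs_sum_le_sum_abs _ _).trans ?_
  refine (Finset.sum_le_card_nsmul _ _ _ fun j hj => ?_).trans_eq
    (by rw [Finset.card_range, nsmul_eq_mul])
  rw [Finset.mem_range] at hj
  have e : f (j + 1) - f j =
      c * ((v ⬝ᵥ (A ^ j).mulVec v) * (v ⬝ᵥ (B ^ (2 * m - j)).mulVec v)) := by
    simp only [hf]
    rw [show 2 * m + 1 - (j + 1) = 2 * m - j by omega,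
      show 2 * m + 1 - j = 2 * m - j + 1 by omega, pow_succ A j, pow_succ' B (2 * m - j),
      mul_assoc, ← dotProduct_sub, ← sub_mulVec, ← mul_sub, ← sub_mul, hAB, ← mulVec_mulVec,
      ← mulVec_mulVec, smul_mulVec, vecMulVec_mulVec, op_smul_eq_smul, smul_smul, mulVec_smul,
      dotProduct_smul, smul_eq_mul]
    ring
  rw [e, abs_mul]
  exact mul_le_mul_of_nonneg_left (qpow_mul_le hA hB v (by omega)) (abs_nonneg c)

variable [Fintype ι]

omit [DecidableEq κ] [Fintype κ] in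
theorem frameMat_symm (v : ι → κ → ℝ) (a : ι → ℝ) (σ : ι → Bool) :
    (frameMat v a σ)ᵀ = frameMat v a σ := by
  rw [frameMat, transpose_sum]
  refine Finset.sum_congr rfl fun x _ => ?_
  rw [transpose_smul, transpose_vecMulVec]

omit [DecidableEq κ] [Fintype κ] in
theorem frameMat_update [DecidableEq ι] (v : ι → κ → ℝ) (a : ι → ℝ) (σ : ι → Bool) (x : ι) :
    frameMat v a (Function.update σ x true) - frameMat v a (Function.update σ x false) =
      (2 * a x) • vecMulVec (v x) (v x) := by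
  rw [frameMat, frameMat, ← Finset.sum_sub_distrib, Finset.sum_eq_single x]
  · rw [← sub_smul]
    congr 1
    simp [sgn]
    ring
  · intro y _ hy
    simp [Function.update_of_ne hy]
  · simp

theorem trace_pow_succ (v : ι → κ → ℝ) (a : ι → ℝ) (σ : ι → Bool) (n : ℕ) :
    (frameMat v a σ ^ (n + 1)).trace =
      ∑ x, a x * sgn (σ x) * (v x ⬝ᵥ (frameMat v a σ ^ n).mulVec (v x)) := by
  rw [pow_succ]
  generalize frameMat v a σ ^ n = Y
  rw [frameMat, Finset.mul_sum, trace_sum]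
  refine Finset.sum_congr rfl fun x _ => ?_
  rw [Matrix.mul_smul, trace_smul, mul_vecMulVec, trace_vecMulVec, smul_eq_mul,
    dotProduct_comm]

/-- The product weight with means `μ`. -/
noncomputable def bw (μ : ι → ℝ) (σ : ι → Bool) : ℝ := ∏ x, (1 + sgn (σ x) * μ x) / 2

theorem bw_nonneg {μ : ι → ℝ} (h : ∀ x, |μ x| ≤ 1) (σ : ι → Bool) : 0 ≤ bw μ σ := by
  refine Finset.prod_nonneg fun x _ => div_nonneg ?_ zero_le_two
  have := abs_le.1 (h x)
  cases σ x <;> simp [sgn] <;> linarith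

theorem sum_bw [DecidableEq ι] (μ : ι → ℝ) : ∑ σ, bw μ σ = 1 := by
  simp only [bw]
  rw [← Fintype.prod_sum fun x b => (1 + sgn b * μ x) / 2]
  refine Finset.prod_eq_one fun x _ => ?_
  simp [sgn]
  ring

/-- Conditioning on all coordinates but `x`. -/
theorem bw_split [DecidableEq ι] (μ : ι → ℝ) (h : (ι → Bool) → ℝ) (x : ι) :
    ∑ σ, bw μ σ * h σ = ∑ σ, bw μ σ * ((1 + μ x) / 2 * h (Function.update σ x true) +
      (1 - μ x) / 2 * h (Function.update σ x false)) := by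
  set fl : (ι → Bool) → ι → Bool := fun σ => Function.update σ x (!σ x) with hfl
  have hinv : Function.Involutive fl := by
    intro σ
    simp [hfl]
  have hsum : ∀ F : (ι → Bool) → ℝ, ∑ σ, F (fl σ) = ∑ σ, F σ := fun F =>
    Equiv.sum_comp (hinv.toPerm fl) F
  have hP : ∀ σ, bw μ σ = (1 + sgn (σ x) * μ x) / 2 *
      ∏ y ∈ Finset.univ.erase x, (1 + sgn (σ y) * μ y) / 2 := fun σ =>
    (Finset.mul_prod_erase _ _ (Finset.mem_univ x)).symm
  have hPfl : ∀ σ, ∏ y ∈ Finset.univ.erase x, (1 + sgn (fl σ y) * μ y) / 2 =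
      ∏ y ∈ Finset.univ.erase x, (1 + sgn (σ y) * μ y) / 2 := fun σ =>
    Finset.prod_congr rfl fun y hy => by
      rw [Finset.mem_erase] at hy
      simp [hfl, Function.update_of_ne hy.1]
  suffices e : ∀ σ, bw μ σ * h σ + bw μ (fl σ) * h (fl σ) =
      bw μ σ * ((1 + μ x) / 2 * h (Function.update σ x true) +
          (1 - μ x) / 2 * h (Function.update σ x false)) +
        bw μ (fl σ) * ((1 + μ x) / 2 * h (Function.update (fl σ) x true) +
          (1 - μ x) / 2 * h (Function.update (fl σ) x false)) by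
    have := Finset.sum_congr rfl fun σ (_ : σ ∈ Finset.univ) => e σ
    rw [Finset.sum_add_distrib, Finset.sum_add_distrib, hsum fun σ => bw μ σ * h σ,
      hsum fun σ => bw μ σ * ((1 + μ x) / 2 * h (Function.update σ x true) +
        (1 - μ x) / 2 * h (Function.update σ x false))] at this
    linarith
  intro σ
  have hu : ∀ b, Function.update (fl σ) x b = Function.update σ x b := fun b => by simp [hfl]
  rw [hu, hu, hP, hP (fl σ), hPfl]
  cases hb : σ x
  · have e1 : fl σ = Function.update σ x true := by simp [hfl, hb]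
    have e2 : Function.update σ x false = σ := by rw [← hb]; exact Function.update_eq_self x σ
    rw [e2, e1]
    simp [sgn]
    ring
  · have e1 : fl σ = Function.update σ x false := by simp [hfl, hb]
    have e2 : Function.update σ x true = σ := by rw [← hb]; exact Function.update_eq_self x σ
    rw [e2, e1]
    simp [sgn]
    ring

/-- One step of the recursion. -/
theorem moment_step [DecidableEq ι] (v : ι → κ → ℝ) (a μ : ι → ℝ) (R η : ℝ) (m : ℕ)
    (hv : ∀ u : κ → ℝ, ∑ x, (v x ⬝ᵥ u) ^ 2 ≤ u ⬝ᵥ u) (hR : ∀ x, v x ⬝ᵥ v x ≤ R) (hR0 : 0 ≤ R)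
    (ha : ∀ x, |a x| ≤ 1) (hη1 : η ≤ 1) (hμ : ∀ x, |μ x| ≤ η) :
    ∑ σ, bw μ σ * (frameMat v a σ ^ (2 * (m + 1))).trace ≤
      (η ^ 2 + 8 * (2 * m + 1) * R) *
        ∑ σ, bw μ σ * (frameMat v a σ ^ (2 * m)).trace := by
  have hμ1 : ∀ x, |μ x| ≤ 1 := fun x => (hμ x).trans hη1
  have hw := bw_nonneg hμ1
  set g : ι → (ι → Bool) → ℝ := fun x σ =>
    v x ⬝ᵥ (frameMat v a σ ^ (2 * m + 1)).mulVec (v x) with hg
  set q : ℕ → ι → (ι → Bool) → ℝ := fun i x σ =>
    v x ⬝ᵥ (frameMat v a σ ^ (2 * i)).mulVec (v x) with hq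
  have hq0 : ∀ i x σ, 0 ≤ q i x σ := fun i x σ => qpow_nonneg (frameMat_symm v a σ) _ i
  have hpt : ∀ x, ∑ σ, bw μ σ * (a x * sgn (σ x) * g x σ) ≤ ∑ σ, bw μ σ *
      ((η ^ 2 / 2 + 4 * (2 * m + 1) * R) * q m x σ + 1 / 2 * q (m + 1) x σ) := by
    intro x
    have hx := abs_le.1 (hμ1 x)
    have hsplit : ∑ σ, bw μ σ * (a x * sgn (σ x) * g x σ) =
        a x * ∑ σ, bw μ σ * (μ x * g x σ) +
          a x * ∑ σ, bw μ σ * ((1 - μ x ^ 2) / 2 *
            (g x (Function.update σ x true) - g x (Function.update σ x false))) := by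
      rw [bw_split μ (fun σ => μ x * g x σ) x,
        bw_split μ (fun σ => a x * sgn (σ x) * g x σ) x, ← mul_add, ← Finset.sum_add_distrib,
        Finset.mul_sum]
      refine Finset.sum_congr rfl fun σ _ => ?_
      simp [sgn]
      ring
    have hA : |∑ σ, bw μ σ * (μ x * g x σ)| ≤
        ∑ σ, bw μ σ * (η ^ 2 / 2 * q m x σ + 1 / 2 * q (m + 1) x σ) := by
      refine (Finset.abs_sum_le_sum_abs _ _).trans (Finset.sum_le_sum fun σ _ => ?_)
      rw [abs_mul, abs_of_nonneg (hw σ)]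
      refine mul_le_mul_of_nonneg_left ?_ (hw σ)
      refine (qpow_odd_le (frameMat_symm v a σ) (v x) m (μ x)).trans ?_
      have : μ x ^ 2 ≤ η ^ 2 := sq_le_sq' (abs_le.1 (hμ x)).1 (abs_le.1 (hμ x)).2
      exact add_le_add (mul_le_mul_of_nonneg_right (by linarith) (hq0 m x σ)) le_rfl
    have hB : |∑ σ, bw μ σ * ((1 - μ x ^ 2) / 2 *
        (g x (Function.update σ x true) - g x (Function.update σ x false)))| ≤
        4 * (2 * m + 1) * R * ∑ σ, bw μ σ * q m x σ := by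
      rw [bw_split μ (q m x) x, Finset.mul_sum]
      refine (Finset.abs_sum_le_sum_abs _ _).trans (Finset.sum_le_sum fun σ _ => ?_)
      have hfac : 0 ≤ (1 - μ x ^ 2) / 2 := by nlinarith
      rw [abs_mul, abs_of_nonneg (hw σ), abs_mul, abs_of_nonneg hfac,
        mul_left_comm (4 * (2 * (m : ℝ) + 1) * R)]
      refine mul_le_mul_of_nonneg_left ?_ (hw σ)
      have h := qpow_sub_le (frameMat_symm v a _) (frameMat_symm v a _) (v x) (2 * a x)
        (frameMat_update v a σ x) m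
      have p1 := hq0 m x (Function.update σ x true)
      have p2 := hq0 m x (Function.update σ x false)
      have h2 : |g x (Function.update σ x true) - g x (Function.update σ x false)| ≤
          (2 * m + 1) * (2 * (R *
            (q m x (Function.update σ x true) + q m x (Function.update σ x false)))) := by
        refine h.trans ?_
        push_cast
        refine mul_le_mul_of_nonneg_left ?_ (by positivity)
        refine mul_le_mul ?_ (mul_le_mul_of_nonneg_right (hR x) (add_nonneg p1 p2))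
          (mul_nonneg (dot_self_nonneg _) (add_nonneg p1 p2)) zero_le_two
        rw [abs_mul, abs_two]
        linarith [ha x]
      refine (mul_le_mul_of_nonneg_left h2 hfac).trans ?_
      have k1 : 1 - μ x ^ 2 ≤ 2 * (1 + μ x) := by nlinarith
      have k2 : 1 - μ x ^ 2 ≤ 2 * (1 - μ x) := by nlinarith
      calc (1 - μ x ^ 2) / 2 * ((2 * (m : ℝ) + 1) * (2 * (R *
            (q m x (Function.update σ x true) + q m x (Function.update σ x false)))))
          = (2 * (m : ℝ) + 1) * R * ((1 - μ x ^ 2) * q m x (Function.update σ x true) +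
              (1 - μ x ^ 2) * q m x (Function.update σ x false)) := by ring
        _ ≤ (2 * (m : ℝ) + 1) * R * (2 * (1 + μ x) * q m x (Function.update σ x true) +
              2 * (1 - μ x) * q m x (Function.update σ x false)) := by
            refine mul_le_mul_of_nonneg_left ?_ (by positivity)
            exact add_le_add (mul_le_mul_of_nonneg_right k1 p1)
              (mul_le_mul_of_nonneg_right k2 p2)
        _ = _ := by ring
    have hle : ∀ t : ℝ, a x * t ≤ |t| := fun t => by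
      refine (le_abs_self _).trans ?_
      rw [abs_mul]
      exact mul_le_of_le_one_left (abs_nonneg t) (ha x)
    rw [hsplit]
    refine (add_le_add ((hle _).trans hA) ((hle _).trans hB)).trans_eq ?_
    rw [Finset.mul_sum, ← Finset.sum_add_distrib]
    exact Finset.sum_congr rfl fun σ _ => by ring
  have hT : ∑ σ, bw μ σ * (frameMat v a σ ^ (2 * (m + 1))).trace ≤
      (η ^ 2 / 2 + 4 * (2 * m + 1) * R) * ∑ σ, bw μ σ * (frameMat v a σ ^ (2 * m)).trace +
        1 / 2 * ∑ σ, bw μ σ * (frameMat v a σ ^ (2 * (m + 1))).trace := by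
    calc ∑ σ, bw μ σ * (frameMat v a σ ^ (2 * (m + 1))).trace
        = ∑ x, ∑ σ, bw μ σ * (a x * sgn (σ x) * g x σ) := by
          rw [Finset.sum_comm]
          refine Finset.sum_congr rfl fun σ _ => ?_
          rw [show 2 * (m + 1) = 2 * m + 1 + 1 by ring, trace_pow_succ, Finset.mul_sum]
      _ ≤ ∑ x, ∑ σ, bw μ σ *
            ((η ^ 2 / 2 + 4 * (2 * m + 1) * R) * q m x σ + 1 / 2 * q (m + 1) x σ) :=
          Finset.sum_le_sum fun x _ => hpt x
      _ = (η ^ 2 / 2 + 4 * (2 * m + 1) * R) * ∑ σ, bw μ σ * ∑ x, q m x σ +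
            1 / 2 * ∑ σ, bw μ σ * ∑ x, q (m + 1) x σ := by
          rw [Finset.sum_comm, Finset.mul_sum, Finset.mul_sum, ← Finset.sum_add_distrib]
          refine Finset.sum_congr rfl fun σ _ => ?_
          rw [Finset.mul_sum, Finset.mul_sum, Finset.mul_sum, Finset.mul_sum,
            ← Finset.sum_add_distrib]
          exact Finset.sum_congr rfl fun x _ => by ring
      _ ≤ _ := by
          refine add_le_add
            (mul_le_mul_of_nonneg_left (Finset.sum_le_sum fun σ _ => ?_) (by positivity))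
            (mul_le_mul_of_nonneg_left (Finset.sum_le_sum fun σ _ => ?_) (by norm_num))
          · exact mul_le_mul_of_nonneg_left (frame_trace (frameMat_symm v a σ) v hv m) (hw σ)
          · exact mul_le_mul_of_nonneg_left
              (frame_trace (frameMat_symm v a σ) v hv (m + 1)) (hw σ)
  linarith

end Vale.Agent.P047.Disproof.Moment
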