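import Vale.Agent.P047.Disproof.Gauss

/-!
Orthogonality to low-degree polynomials in Fourier terms.
-/

namespace Vale.Agent.P047.Disproof

open Finset

lemma chi_cons {n : ℕ} (S : Finset (Fin (n + 1))) (b : Bool) (y : Cube n) :
    chi S (Fin.cons b y) = (if (0 : Fin (n + 1)) ∈ S then sgn b else 1) *
      chi (univ.filter fun i : Fin n => i.succ ∈ S) y := by
  classical
  calc chi S (Fin.cons b y)
      = ∏ i : Fin (n + 1), if i ∈ S then sgn ((Fin.cons b y : Cube (n + 1)) i) else 1 := by
        rw [chi, Finset.prod_ite_mem, Finset.univ_inter]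
    _ = _ := by rw [Fin.prod_univ_succ, chi, Finset.prod_filter]; simp

lemma orth_succ_iff {n k : ℕ} (h : Cube (n + 1) → ℝ) :
    Orth (n + 1) (k + 1) h ↔
      Orth n (k + 1) (fun y => h (Fin.cons false y) + h (Fin.cons true y)) ∧
        Orth n k (fun y => h (Fin.cons true y)) := by
  constructor
  · intro H
    constructor
    · intro a
      have := H (Sum.elim a 0)
      simp only [sum_cube_succ, ev_elim_false, ev_elim_true, ev_zero, add_zero] at this
      simpa only [add_mul, sum_add_distrib] using this
    · intro D
      have := H (Sum.elim 0 D)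
      simpa only [sum_cube_succ, ev_elim_false, ev_elim_true, ev_zero, zero_add, mul_zero,
        sum_const_zero] using this
  · rintro ⟨H1, H2⟩ θ
    obtain ⟨a, D, rfl⟩ : ∃ a D, θ = Sum.elim a D := ⟨_, _, (Sum.elim_comp_inl_inr θ).symm⟩
    have e1 := H1 a
    have e2 := H2 D
    simp only [add_mul, sum_add_distrib] at e1
    simp only [sum_cube_succ, ev_elim_false, ev_elim_true, mul_add, sum_add_distrib]
    linarith

/-- Orthogonality to polynomials of degree `< k` means no Fourier coefficient below level `k`. -/
lemma orth_iff_fhat : ∀ (n k : ℕ) (h : Cube n → ℝ),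
    Orth n k h ↔ ∀ S : Finset (Fin n), S.card < k → fhat h S = 0
  | n, 0, h => by simp [Orth]
  | 0, k + 1, h => by
    simp only [Orth, fhat, chi, ev_n_zero]
    constructor
    · intro H S _
      rw [show S = ∅ from Subsingleton.elim _ _]
      simpa using H fun _ => 1
    · intro H θ
      have := H ∅ (by simp)
      simp only [prod_empty, mul_one, pow_zero, div_one] at this
      rw [← sum_mul, this, zero_mul]
  | n + 1, k + 1, h => by
    rw [orth_succ_iff, orth_iff_fhat n (k + 1), orth_iff_fhat n k]
    have hp : (2 : ℝ) ^ n ≠ 0 := by positivity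
    have hp' : (2 : ℝ) ^ (n + 1) ≠ 0 := by positivity
    have key : ∀ S : Finset (Fin (n + 1)), fhat h S * 2 ^ (n + 1) =
        (if (0 : Fin (n + 1)) ∈ S then
          2 * ∑ y, h (Fin.cons true y) * chi (univ.filter fun i : Fin n => i.succ ∈ S) y
          - ∑ y, (h (Fin.cons false y) + h (Fin.cons true y)) *
              chi (univ.filter fun i : Fin n => i.succ ∈ S) y
        else ∑ y, (h (Fin.cons false y) + h (Fin.cons true y)) *
              chi (univ.filter fun i : Fin n => i.succ ∈ S) y) := by
      intro S
      rw [fhat, div_mul_cancel₀ _ hp', sum_cube_succ]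
      simp only [chi_cons]
      split_ifs with h0
      · rw [mul_sum, ← sum_sub_distrib, ← sum_add_distrib]
        exact sum_congr rfl fun y _ => by simp [sgn]; ring
      · rw [← sum_add_distrib]
        exact sum_congr rfl fun y _ => by ring
    constructor
    · rintro ⟨H1, H2⟩ S hS
      set S' := univ.filter fun i : Fin n => i.succ ∈ S with hS'
      have hc : S'.card + (if (0 : Fin (n + 1)) ∈ S then 1 else 0) = S.card := by
        rw [hS', card_filter, ← Finset.univ_inter S, ← Finset.filter_mem_eq_inter, card_filter,
          Fin.sum_univ_succ, add_comm]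
        simp
      have h1 := H1 S' (by split_ifs at hc <;> omega)
      rw [fhat, div_eq_zero_iff, or_iff_left hp] at h1
      have h3 := key S
      rw [← hS', h1] at h3
      split_ifs at hc h3 with h0
      · have h2 := H2 S' (by omega)
        rw [fhat, div_eq_zero_iff, or_iff_left hp] at h2
        rw [h2, mul_zero, sub_zero] at h3
        exact (mul_eq_zero.1 h3).resolve_right hp'
      · exact (mul_eq_zero.1 h3).resolve_right hp'
    · intro H
      have hmap : ∀ T : Finset (Fin n),
          (univ.filter fun i : Fin n => i.succ ∈ T.map (Fin.succEmb n)) = T := fun T => by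
        ext i; simp
      have hins : ∀ T : Finset (Fin n),
          (univ.filter fun i : Fin n => i.succ ∈ insert 0 (T.map (Fin.succEmb n))) = T := fun T => by
        ext i; simp [Fin.succ_ne_zero]
      have h0 : ∀ T : Finset (Fin n), (0 : Fin (n + 1)) ∉ T.map (Fin.succEmb n) := fun T => by
        simp [Fin.succ_ne_zero]
      have H1 : ∀ T : Finset (Fin n), T.card < k + 1 →
          ∑ y, (h (Fin.cons false y) + h (Fin.cons true y)) * chi T y = 0 := fun T hT => by
        have := key (T.map (Fin.succEmb n))
        rw [if_neg (h0 T), hmap, H _ (by simpa using hT), zero_mul] at this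
        exact this.symm
      refine ⟨fun T hT => by rw [fhat, H1 T hT, zero_div], fun T hT => ?_⟩
      have := key (insert 0 (T.map (Fin.succEmb n)))
      rw [if_pos (mem_insert_self _ _), hins, H _ (by simp [card_insert_of_notMem (h0 T)]; omega),
        H1 T (by omega), zero_mul, sub_zero] at this
      rw [fhat, show ∑ y, h (Fin.cons true y) * chi T y = 0 by linarith, zero_div]

lemma chi_univ_mul_chi {n : ℕ} (T : Finset (Fin n)) (x : Cube n) :
    chi univ x * chi T x = chi Tᶜ x := by
  rw [chi, ← prod_compl_mul_prod T, mul_assoc, chi, ← prod_mul_distrib]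
  simp [sgn_mul_self, chi]

lemma fhat_chi_univ_mul {n : ℕ} (h : Cube n → ℝ) (T : Finset (Fin n)) :
    fhat (fun x => chi univ x * h x) T = fhat h Tᶜ := by
  rw [fhat, fhat]
  congr 1
  exact sum_congr rfl fun x _ => by rw [← chi_univ_mul_chi]; ring

/-- Orthogonal functions, twisted by the full character, have low degree. -/
lemma orth_iff_degLE {n k : ℕ} (hk : k ≤ n) (h : Cube n → ℝ) :
    Orth n k h ↔ DegLE (fun x => chi univ x * h x) (n - k) := by
  rw [orth_iff_fhat]
  constructor
  · intro H T hT
    rw [fhat_chi_univ_mul]
    refine H _ ?_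
    rw [card_compl, Fintype.card_fin]
    have := card_le_univ T
    rw [Fintype.card_fin] at this
    omega
  · intro H S hS
    have := H Sᶜ (by rw [card_compl, Fintype.card_fin]; omega)
    rwa [fhat_chi_univ_mul, compl_compl] at this

end Vale.Agent.P047.Disproof
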