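import Vale.Agent.P047.Disproof.Integrals
import Vale.Agent.P047.Disproof.Moment
import Mathlib.Analysis.InnerProductSpace.PiL2

/-!
# P047: the kept points carry a positive proportion of every energy, with high probability
-/

namespace Vale.Agent.P047.Disproof

open MeasureTheory Finset Real Matrix

variable {n k : ℕ}

/-- Evaluation into Euclidean space. -/
noncomputable def evE (n k : ℕ) : (Idx n k → ℝ) →ₗ[ℝ] EuclideanSpace ℝ (Cube n) :=
  (WithLp.linearEquiv 2 ℝ (Cube n → ℝ)).symm.toLinearMap.comp (evLin n k)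

lemma evE_apply (u : Idx n k → ℝ) (x : Cube n) : evE n k u x = ev n k u x := rfl

/-- An orthonormal frame for the polynomials of degree `< k`. -/
lemma exists_frame (n k : ℕ) : ∃ (d : ℕ) (v : Cube n → Fin d → ℝ), d ≤ Fintype.card (Idx n k) ∧
    (∀ w : Fin d → ℝ, ∑ x, (v x ⬝ᵥ w) ^ 2 ≤ w ⬝ᵥ w) ∧
    (∀ x, v x ⬝ᵥ v x ≤ Rk n k) ∧
    ∀ u : Idx n k → ℝ, ∃ w : Fin d → ℝ, w ⬝ᵥ w = energy n k u ∧ ∀ x, v x ⬝ᵥ w = ev n k u x := by
  set V := LinearMap.range (evE n k) with hV
  set b := stdOrthonormalBasis ℝ V with hb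
  set v : Cube n → Fin (Module.finrank ℝ V) → ℝ :=
    fun x i => (b i : EuclideanSpace ℝ (Cube n)) x with hv
  have hdot : ∀ (x : Cube n) (w : Fin (Module.finrank ℝ V) → ℝ),
      v x ⬝ᵥ w = ((∑ i, w i • b i : V) : EuclideanSpace ℝ (Cube n)) x := by
    intro x w
    simp only [AddSubmonoidClass.coe_finsetSum, SetLike.val_smul, WithLp.ofLp_sum,
      Finset.sum_apply, PiLp.smul_apply, smul_eq_mul, dotProduct, hv]
    exact sum_congr rfl fun i _ => mul_comm _ _
  have hnorm : ∀ w : Fin (Module.finrank ℝ V) → ℝ,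
      ∑ x, (v x ⬝ᵥ w) ^ 2 = w ⬝ᵥ w := by
    intro w
    simp only [hdot]
    rw [← EuclideanSpace.real_norm_sq_eq, Submodule.norm_coe, ← b.repr.norm_map,
      EuclideanSpace.real_norm_sq_eq]
    refine sum_congr rfl fun i _ => ?_
    rw [OrthonormalBasis.repr_apply_apply, b.orthonormal.inner_right_fintype, sq]
  refine ⟨Module.finrank ℝ V, v, ?_, fun w => (hnorm w).le, fun x => ?_, fun u => ?_⟩
  · exact (LinearMap.finrank_range_le (evE n k)).trans_eq (Module.finrank_fintype_fun_eq_card ℝ)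
  · obtain ⟨u, hu⟩ := (∑ i, v x i • b i : V).2
    have hev : ∀ y, ev n k u y = v y ⬝ᵥ v x := fun y => by rw [hdot, ← evE_apply, hu]
    have h := sq_ev_le n k u x
    rw [hev, energy, show ∑ y, ev n k u y ^ 2 = v x ⬝ᵥ v x by simp only [hev]; exact hnorm _] at h
    have h0 : 0 ≤ v x ⬝ᵥ v x := Moment.dot_self_nonneg _
    rcases h0.eq_or_lt with h1 | h1
    · rw [← h1]; exact Rk_nonneg n k
    · exact le_of_mul_le_mul_right (by rw [← sq]; exact h) h1
  · set p : V := ⟨evE n k u, LinearMap.mem_range_self _ u⟩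
    have hev : ∀ x, v x ⬝ᵥ (fun i => b.repr p i) = ev n k u x := fun x => by
      rw [hdot, b.sum_repr]; exact evE_apply u x
    refine ⟨fun i => b.repr p i, ?_, hev⟩
    rw [← hnorm]
    simp only [hev, energy]

lemma frame_quadratic {d : ℕ} (v : Cube n → Fin d → ℝ) (α : Cube n → ℝ) (a : Cube n → Bool)
    (w : Fin d → ℝ) :
    w ⬝ᵥ (frameMat v α a).mulVec w = ∑ x, α x * sgn (a x) * (v x ⬝ᵥ w) ^ 2 := by
  rw [frameMat, sum_mulVec, dotProduct_sum]
  refine sum_congr rfl fun x _ => ?_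
  rw [smul_mulVec, vecMulVec_mulVec, op_smul_eq_smul, smul_smul, dotProduct_smul, smul_eq_mul,
    dotProduct_comm w]
  ring

lemma abs_tan_pi_mul_le {t ρ : ℝ} (ht : |t| ≤ ρ) (hρ : ρ ≤ 1 / 20) : |tan (π * t)| ≤ 5 * ρ := by
  have h0 := pi_pos
  have h4 := pi_lt_four
  have hx : |π * t| ≤ 1 / 5 := by
    rw [abs_mul, abs_of_pos h0]
    nlinarith [abs_nonneg t]
  have hc : (49 / 50 : ℝ) ≤ cos (π * t) := by
    have h1 := one_sub_sq_div_two_le_cos (x := π * t)
    have h2 : (π * t) ^ 2 ≤ (1 / 5) ^ 2 := by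
      rw [← sq_abs]; exact pow_le_pow_left₀ (abs_nonneg _) hx 2
    linarith
  rw [tan_eq_sin_div_cos, abs_div, abs_of_pos (show 0 < cos (π * t) by linarith),
    div_le_iff₀ (by linarith)]
  calc |sin (π * t)| ≤ |π * t| := abs_sin_le_abs
    _ = π * |t| := by rw [abs_mul, abs_of_pos h0]
    _ ≤ 4 * ρ := mul_le_mul h4.le ht (abs_nonneg t) (by norm_num)
    _ ≤ _ := by nlinarith [abs_nonneg t]

open Classical in
/-- With high probability the kept points carry a quarter of the energy bound. -/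
theorem spectral_le {r : ℕ} (hr : 0 < r) : ∃ K : ℝ, 0 ≤ K ∧
    ∀ (n k : ℕ) (γ₀ c₀ δ γ ρ : ℝ) (C : Cover n k γ₀ c₀ δ) (S : Finset (Cube n))
      (s : Cube n → Bool),
    EvenOn k S → C.Good γ S → 0 < γ → c₀ ≤ γ → γ ≤ 1 → 0 ≤ δ → 0 < Rk n k → Rk n k ≤ 1 →
      0 ≤ ρ → ρ ≤ 1 / 20 →
    hitAvg k S (fun a => if ∀ u : Idx n k → ℝ, γ / 4 * energy n k u ≤
        ∑ x ∈ keep S s a, ev n k u x ^ 2 then 0 else 1)
      ≤ (2 / γ) ^ (2 * r) *
          (K * Fintype.card (Idx n k) * (5 * ρ + √(Rk n k)) ^ (2 * r) +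
            (16 * 2 ^ n) ^ (2 * r) *
              (2 ^ (n + 1) * Real.exp (-(γ * ρ ^ 2 / Rk n k)) + δ)) * J k S := by
  obtain ⟨Cm, hCm⟩ := matrixMoment r hr
  refine ⟨max Cm 0, le_max_right _ _, ?_⟩
  intro n k γ₀ c₀ δ γ ρ C S s hS hG hγ hγ₀ hγ₁ hδ hR0 hR1 hρ0 hρ1
  obtain ⟨d, v, hd, hfr, hvR, hrep⟩ := exists_frame n k
  set α : Cube n → ℝ := fun x => if x ∈ S then sgn (s x) else 0 with hα
  have hα1 : ∀ x, |α x| ≤ 1 := fun x => by
    simp only [hα]; split_ifs
    · cases s x <;> simp [sgn]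
    · simp
  set Φ : (Cube n → Bool) → ℝ := fun a => (frameMat v α a ^ (2 * r)).trace with hΦ
  have hΦ0 : ∀ a, 0 ≤ Φ a := fun a => by
    obtain ⟨ev', hev', -⟩ := Moment.exists_spectrum (Moment.frameMat_symm v α a)
    simp only [hΦ, hev']
    exact sum_nonneg fun i _ => Even.pow_nonneg ⟨r, two_mul r⟩ _
  have hpd := hG.pd hγ
  have hJ := (J_pos hpd).le
  obtain ⟨-, ⟨coef, hcoef, hexp⟩, hq⟩ := hCm (Cube n) (Fin d) v α 0 (Rk n k) 0 hfr hvR hR1 hα1
    le_rfl zero_le_one (fun _ => by simp)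
  -- the bad event has large trace
  have hbad : ∀ a, (if ∀ u : Idx n k → ℝ, γ / 4 * energy n k u ≤
      ∑ x ∈ keep S s a, ev n k u x ^ 2 then (0 : ℝ) else 1) ≤ (2 / γ) ^ (2 * r) * Φ a := by
    intro a
    split_ifs with h
    · exact mul_nonneg (by positivity) (hΦ0 a)
    push Not at h
    obtain ⟨u, hu⟩ := h
    have hE : 0 < energy n k u := by
      have : 0 ≤ ∑ x ∈ keep S s a, ev n k u x ^ 2 := sum_nonneg fun _ _ => sq_nonneg _
      nlinarith
    rw [sum_keep] at hu
    obtain ⟨w, hw, hwv⟩ := hrep u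
    have hX : w ⬝ᵥ (frameMat v α a).mulVec w =
        ∑ x ∈ S, sgn (s x) * sgn (a x) * ev n k u x ^ 2 := by
      simp only [frame_quadratic, hwv, hα, ite_mul, zero_mul, sum_ite_mem, univ_inter]
    have hlt : w ⬝ᵥ (frameMat v α a).mulVec w < -(γ / 2 * energy n k u) := by
      rw [hX]; linarith [hG.1 u]
    have hp : (γ / 2 * energy n k u) ^ (2 * r) ≤ energy n k u ^ (2 * r) * Φ a := by
      refine le_trans ?_ (by simpa only [hw] using hq a w)
      rw [← Even.pow_abs (⟨r, two_mul r⟩ : Even (2 * r)) (w ⬝ᵥ (frameMat v α a).mulVec w)]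
      refine pow_le_pow_left₀ (by positivity) ?_ _
      rw [le_abs]; right; linarith
    rw [mul_pow, mul_comm ((γ / 2) ^ (2 * r))] at hp
    have h2 := le_of_mul_le_mul_left hp (pow_pos hE _)
    calc (1 : ℝ) = (2 / γ) ^ (2 * r) * (γ / 2) ^ (2 * r) := by
          rw [← mul_pow, show 2 / γ * (γ / 2) = 1 by field_simp, one_pow]
      _ ≤ _ := mul_le_mul_of_nonneg_left h2 (by positivity)
  -- the crude bound on phase averages
  set B : ℝ := (16 * 2 ^ n) ^ (2 * r) with hB
  have hB0 : 0 ≤ B := by positivity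
  have hglob : ∀ t : Cube n → ℝ, (∀ x ∈ S, |t x| ≤ 13 / 25) →
      ‖avgPhase S Φ t‖ ≤ B * wt S t := by
    intro t ht
    have e : avgPhase S Φ t =
        ∑ y, (coef y : ℂ) * avgPhase S (fun a => ∏ j, sgn (a (y j))) t := by
      simp only [avgPhase, avg, ← mul_div_assoc, ← sum_div, mul_sum]
      rw [sum_comm]
      congr 1
      refine sum_congr rfl fun a _ => ?_
      simp only [hΦ, hexp, Complex.ofReal_sum, Complex.ofReal_mul, sum_mul, mul_assoc]
    rw [e]
    refine (norm_sum_le _ _).trans ?_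
    refine (sum_le_sum (g := fun _ => 16 ^ (2 * r) * wt S t) fun y _ => ?_).trans_eq ?_
    · rw [norm_mul, Complex.norm_real, Real.norm_eq_abs, ← one_mul (16 ^ (2 * r) * wt S t)]
      exact mul_le_mul (hcoef y) (norm_avgPhase_monomial_le S y t ht) (norm_nonneg _) zero_le_one
    · rw [sum_const, card_univ, nsmul_eq_mul, Fintype.card_fun, Fintype.card_fin,
        Fintype.card_fun, Fintype.card_bool, Fintype.card_fin, hB, mul_pow]
      push_cast
      ring
  -- the central box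
  set A : ℝ := max Cm 0 * Fintype.card (Idx n k) * (5 * ρ + √(Rk n k)) ^ (2 * r) with hA
  have hA0 : 0 ≤ A := by positivity
  set W : (Idx n k → ℝ) → ℝ := fun u => wt S (ev n k u) with hW
  have hWi : Integrable W := integrable_wt_ev hpd
  have hW0 : ∀ u, 0 ≤ W u := fun u => (wt_pos _ _).le
  have hout : MeasurableSet (box n k ρ)ᶜ := (isCompact_box ρ).isClosed.measurableSet.compl
  have hcore : ∀ u ∈ box n k (1 / 5), ‖avgPhase S Φ (ev n k u)‖ ≤
      A * W u + B * (box n k ρ)ᶜ.indicator W u := by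
    intro u hu
    by_cases hu' : u ∈ box n k ρ
    · rw [Set.indicator_of_notMem (by simp [hu']), mul_zero, add_zero,
        avgPhase_eq_bias S Φ _ (fun x _ => hu x), norm_mul, Complex.norm_real, Real.norm_eq_abs,
        abs_of_pos (wt_pos _ _), mul_comm A]
      refine mul_le_mul_of_nonneg_left ?_ (hW0 u)
      have hτ : ∀ x, |(if x ∈ S then tan (π * ev n k u x) else 0 : ℝ)| ≤ 5 * ρ := fun x => by
        split_ifs
        · exact abs_tan_pi_mul_le (hu' x) hρ1
        · rw [abs_zero]; linarith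
      refine ((hCm (Cube n) (Fin d) v α (fun x => if x ∈ S then tan (π * ev n k u x) else 0)
        (Rk n k) (5 * ρ) hfr hvR hR1 hα1 (by linarith) (by linarith) hτ).1).trans ?_
      rw [hA, Fintype.card_fin]
      refine mul_le_mul_of_nonneg_right ?_ (by positivity)
      exact mul_le_mul (le_max_left _ _) (by exact_mod_cast hd) (Nat.cast_nonneg _)
        (le_max_right _ _)
    · rw [Set.indicator_of_mem (by simpa using hu')]
      exact (hglob _ fun x _ => (hu x).trans (by norm_num)).trans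
        (le_add_of_nonneg_left (mul_nonneg hA0 (hW0 u)))
  have hIi : Integrable fun u => A * W u + B * (box n k ρ)ᶜ.indicator W u :=
    (hWi.const_mul A).add ((hWi.indicator hout).const_mul B)
  have hmain : ‖∫ u in box n k (1 / 5), avgPhase S Φ (ev n k u)‖ ≤
      A * J k S + B * (2 ^ (n + 1) * Real.exp (-(γ * ρ ^ 2 / Rk n k)) * J k S) := by
    calc _ ≤ ∫ u in box n k (1 / 5), (A * W u + B * (box n k ρ)ᶜ.indicator W u) :=
          norm_integral_le_of_norm_le hIi.integrableOn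
            ((ae_restrict_mem (isCompact_box _).isClosed.measurableSet).mono hcore)
      _ ≤ ∫ u, (A * W u + B * (box n k ρ)ᶜ.indicator W u) :=
          setIntegral_le_integral hIi (.of_forall fun u => add_nonneg (mul_nonneg hA0 (hW0 u))
            (mul_nonneg hB0 (Set.indicator_nonneg (fun u _ => hW0 u) u)))
      _ = A * J k S + B * ∫ u in (box n k ρ)ᶜ, W u := by
          rw [integral_add (hWi.const_mul A) ((hWi.indicator hout).const_mul B), integral_const_mul,
            integral_const_mul, integral_indicator hout]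
          rfl
      _ ≤ _ := add_le_add le_rfl (mul_le_mul_of_nonneg_left
          (setIntegral_tail_le hpd hR0 hρ0 hout fun u hu => by
            simp only [Set.mem_compl_iff, box, Set.mem_ofPred_eq, not_forall, not_le] at hu
            obtain ⟨x, hx⟩ := hu
            exact ⟨x, hx.le⟩) hB0)
  have hΦavg : hitAvg k S Φ ≤
      A * J k S + B * (2 ^ (n + 1) * Real.exp (-(γ * ρ ^ 2 / Rk n k)) * J k S) +
        B * δ * J k S := by
    have h := (norm_le_norm_sub_add (hitAvg k S Φ : ℂ) _).trans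
      (add_le_add (abs_hitAvg_sub_le C hS hG hγ hγ₀ hγ₁ hB0 hglob) hmain)
    rw [Complex.norm_real, Real.norm_eq_abs] at h
    linarith [le_abs_self (hitAvg k S Φ)]
  calc _ ≤ hitAvg k S (fun a => (2 / γ) ^ (2 * r) * Φ a) := hitAvg_mono hbad
    _ = (2 / γ) ^ (2 * r) * hitAvg k S Φ := hitAvg_const_mul _ _
    _ ≤ (2 / γ) ^ (2 * r) * _ := mul_le_mul_of_nonneg_left hΦavg (by positivity)
    _ = _ := by ring

end Vale.Agent.P047.Disproof
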