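import Vale.Agent.P047.Disproof.Stage
import Vale.Agent.P047.Disproof.Spectral
import Mathlib.Analysis.Complex.ExponentialBounds

/-!
The numerical conditions of a stage, at `n = 30 q` and `k = 11 q`.
-/

namespace Vale.Agent.P047.Disproof

open Real

/-- The exponent of the accuracy asked from the cover. -/
def accuracy : ℝ := 130000

lemma card_idx_bound (q : ℕ) :
    (Fintype.card (Idx (30 * q) (11 * q)) : ℝ) ≤ exp (22 * q) ∧
      Rk (30 * q) (11 * q) ≤ exp (-(q : ℝ) / 14) := by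
  have h := card_idx_le (30 * q) (11 * q)
  constructor
  · refine h.trans ?_
    calc (3 : ℝ) ^ (11 * q) * (4 / 3) ^ (30 * q) = ((3 : ℝ) ^ 11 * (4 / 3) ^ 30) ^ q := by
          rw [mul_pow, ← pow_mul, ← pow_mul]
      _ ≤ (exp 1 ^ 22) ^ q := by
          refine pow_le_pow_left₀ (by positivity) ?_ q
          refine le_trans ?_ (pow_le_pow_left₀ (by norm_num : (0 : ℝ) ≤ 2.7)
            (by linarith [exp_one_gt_d9]) 22)
          norm_num
      _ = exp (22 * q) := by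
          rw [exp_one_pow, ← exp_nat_mul]; push_cast; ring_nf
  · calc Rk (30 * q) (11 * q) ≤ (3 : ℝ) ^ (11 * q) * (4 / 3) ^ (30 * q) / 2 ^ (30 * q) :=
          div_le_div_of_nonneg_right h (by positivity)
      _ = ((3 : ℝ) ^ 11 * (4 / 3) ^ 30 / 2 ^ 30) ^ q := by
          rw [pow_mul (3 : ℝ), pow_mul ((4 : ℝ) / 3), pow_mul (2 : ℝ), ← mul_pow, ← div_pow]
      _ ≤ exp (-1 / 14) ^ q := by
          refine pow_le_pow_left₀ (by positivity) ?_ q
          refine le_trans ?_ (add_one_le_exp _)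
          norm_num
      _ = exp (-(q : ℝ) / 14) := by rw [← exp_nat_mul]; ring_nf

lemma rk_pos {q : ℕ} (hq : 0 < q) : 0 < Rk (30 * q) (11 * q) := by
  obtain ⟨m, hm⟩ : ∃ m, 11 * q = m + 1 := ⟨11 * q - 1, by omega⟩
  rw [hm]
  exact div_pos (Nat.cast_pos.2 (card_idx_pos _ _)) (by positivity)

lemma two_pow_le_exp (m : ℕ) : (2 : ℝ) ^ m ≤ exp m := by
  rw [← exp_one_pow]
  exact pow_le_pow_left₀ zero_le_two (by linarith [add_one_le_exp (1 : ℝ)]) m

/-- Exponential growth beats every linear term. -/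
lemma linear_le_exp {q : ℝ} (hq : 10 ^ 15 ≤ q) {A : ℝ} (hA : A ≤ 10 ^ 8) :
    A * q ≤ exp (q / 25) / 400 := by
  have h0 : 0 ≤ q := le_trans (by norm_num) hq
  have h := quadratic_le_exp_of_nonneg (x := q / 25) (by positivity)
  have h1 := mul_le_mul_of_nonneg_right hA h0
  have h2 := mul_le_mul_of_nonneg_right hq h0
  nlinarith

/-- The tail at the radius of the spectral estimate is tiny. -/
lemma tail_tiny {q : ℕ} {γ R : ℝ} (hq : 10 ^ 15 ≤ (q : ℝ))
    (hγ : exp (-(q : ℝ) / 20000) ≤ γ) (hR0 : 0 < R) (hR : R ≤ exp (-(q : ℝ) / 14)) {A : ℝ}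
    (hA : A ≤ 10 ^ 7) :
    2 ^ (30 * q + 1) * exp (-(γ * (exp (-(q : ℝ) / 100) / 20) ^ 2 / R)) ≤ exp (-(A * q)) := by
  have hRe : exp (q / 14) ≤ 1 / R := by
    rw [le_div_iff₀ hR0]
    calc exp (q / 14) * R ≤ exp (q / 14) * exp (-(q : ℝ) / 14) :=
          mul_le_mul_of_nonneg_left hR (exp_pos _).le
      _ = 1 := by rw [← exp_add]; ring_nf; simp
  have hγ0 : 0 ≤ γ := (exp_pos _).le.trans hγ
  have hexp : exp (q / 25) / 400 ≤ γ * (exp (-(q : ℝ) / 100) / 20) ^ 2 / R := by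
    have h1 : exp (q / 25) ≤
        exp (-(q : ℝ) / 20000) * exp (-(q : ℝ) / 100) ^ 2 * exp (q / 14) := by
      rw [sq, ← exp_add, ← exp_add, ← exp_add]
      exact exp_le_exp.2 (by linarith)
    have h2 : exp (-(q : ℝ) / 20000) * exp (-(q : ℝ) / 100) ^ 2 * exp (q / 14) ≤
        γ * exp (-(q : ℝ) / 100) ^ 2 * (1 / R) := by
      gcongr
    calc exp (q / 25) / 400 ≤ γ * exp (-(q : ℝ) / 100) ^ 2 * (1 / R) / 400 :=
          div_le_div_of_nonneg_right (h1.trans h2) (by norm_num)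
      _ = _ := by ring
  refine (mul_le_mul_of_nonneg_right (two_pow_le_exp _) (exp_pos _).le).trans ?_
  rw [← exp_add, exp_le_exp]
  push_cast
  have := linear_le_exp hq (A := A + 31) (by linarith)
  linarith

lemma exp_le_small {E : ℝ} (hE : E ≤ -64) : exp E ≤ 1 / 64 := by
  rw [show E = -(-E) by ring, exp_neg, one_div]
  exact inv_anti₀ (by norm_num) (by linarith [add_one_le_exp (-E)])

/-- The bound in the spectral estimate. -/
lemma spectral_numeric {q m : ℕ} (hm : (m : ℝ) = 4000) {K N γ R : ℝ} (hq : 10 ^ 15 ≤ (q : ℝ))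
    (hK0 : 0 ≤ K) (hK : K ≤ q) (hγ : exp (-(q : ℝ) / 20000) ≤ γ) (hR0 : 0 < R)
    (hR : R ≤ exp (-(q : ℝ) / 14)) (hN0 : 0 ≤ N) (hN : N ≤ exp (22 * q)) :
    (2 / γ) ^ m * (K * N * (5 * (exp (-(q : ℝ) / 100) / 20) + √R) ^ m +
      (16 * 2 ^ (30 * q)) ^ m *
        (2 ^ (30 * q + 1) * exp (-(γ * (exp (-(q : ℝ) / 100) / 20) ^ 2 / R)) +
          exp (-accuracy * q))) ≤ 1 / 16 := by
  have hγ0 : 0 < γ := (exp_pos _).trans_le hγ
  have hdiv : 2 / γ ≤ exp (1 + q / 20000) := by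
    rw [exp_add, div_le_iff₀ hγ0, mul_assoc]
    calc (2 : ℝ) = 2 * (exp (q / 20000) * exp (-(q : ℝ) / 20000)) := by
          rw [← exp_add]; ring_nf; simp
      _ ≤ exp 1 * (exp (q / 20000) * γ) := by
          gcongr; linarith [add_one_le_exp (1 : ℝ)]
  have hsmall : 5 * (exp (-(q : ℝ) / 100) / 20) + √R ≤ exp (-(q : ℝ) / 100) := by
    have h1 : √R ≤ exp (-(q : ℝ) / 28) := by
      refine (Real.sqrt_le_sqrt hR).trans (le_of_eq ?_)
      rw [← exp_half]; ring_nf
    have h2 : exp (-(q : ℝ) / 28) ≤ exp (-(q : ℝ) / 100) * (1 / 4) := by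
      rw [show -(q : ℝ) / 28 = -(q : ℝ) / 100 + -((q : ℝ) / 28 - q / 100) by ring, exp_add]
      gcongr
      rw [exp_neg, one_div]
      exact inv_anti₀ (by norm_num) (by linarith [add_one_le_exp ((q : ℝ) / 28 - q / 100)])
    linarith [exp_pos (-(q : ℝ) / 100)]
  have h16 : (16 : ℝ) * 2 ^ (30 * q) ≤ exp (30 * q + 4) := by
    rw [exp_add, mul_comm (16 : ℝ)]
    refine mul_le_mul ?_ ?_ (by norm_num) (exp_pos _).le
    · exact (two_pow_le_exp _).trans_eq (by push_cast; rfl)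
    · have := two_pow_le_exp 4
      norm_num at this ⊢
      linarith
  have e : ∀ x : ℝ, exp x ^ m = exp (4000 * x) := fun x => by rw [← exp_nat_mul, hm]
  have hp := (pow_le_pow_left₀ (by positivity) hdiv m).trans_eq (e _)
  have hp' := (pow_le_pow_left₀ (by positivity) hsmall m).trans_eq (e _)
  have hp16 := (pow_le_pow_left₀ (by positivity) h16 m).trans_eq (e _)
  have hT := tail_tiny hq hγ hR0 hR (A := accuracy) (by rw [accuracy]; norm_num)
  have hKq : K ≤ exp q := by linarith [add_one_le_exp (q : ℝ)]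
  have hA : (2 / γ) ^ m * (K * N * (5 * (exp (-(q : ℝ) / 100) / 20) + √R) ^ m) ≤ 1 / 64 := by
    calc _ ≤ exp (4000 * (1 + q / 20000)) *
          (exp q * exp (22 * q) * exp (4000 * (-(q : ℝ) / 100))) := by
          refine mul_le_mul hp ?_ (by positivity) (exp_pos _).le
          exact mul_le_mul (mul_le_mul hKq hN hN0 (exp_pos _).le) hp' (by positivity) (by positivity)
      _ ≤ 1 / 64 := by
          simp only [← exp_add]
          exact exp_le_small (by linarith)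
  have hB : (2 / γ) ^ m * ((16 * 2 ^ (30 * q)) ^ m *
      (2 ^ (30 * q + 1) * exp (-(γ * (exp (-(q : ℝ) / 100) / 20) ^ 2 / R)) +
        exp (-accuracy * q))) ≤ 1 / 32 := by
    calc _ ≤ exp (4000 * (1 + q / 20000)) *
          (exp (4000 * (30 * q + 4)) * (2 * exp (-(accuracy * q)))) := by
          refine mul_le_mul hp ?_ (by positivity) (exp_pos _).le
          refine mul_le_mul hp16 ?_ (by positivity) (exp_pos _).le
          rw [neg_mul]
          linarith
      _ = 2 * exp (4000 * (1 + q / 20000) + 4000 * (30 * q + 4) + -(accuracy * q)) := by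
          rw [exp_add, exp_add]; ring
      _ ≤ 1 / 32 := by
          have := exp_le_small
            (E := 4000 * (1 + (q : ℝ) / 20000) + 4000 * (30 * q + 4) + -(accuracy * q))
            (by rw [accuracy]; linarith)
          linarith
  rw [mul_add]
  linarith

/-- A small enough `q`-free threshold works for all the estimates. -/
theorem exists_stageParams : ∃ K : ℝ, 0 ≤ K ∧ ∀ (q : ℕ) (γ γ₀ : ℝ)
    (C : Cover (30 * q) (11 * q) γ₀ (exp (-(q : ℝ) / 2000)) (exp (-accuracy * q))),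
    10 ^ 15 + K ≤ (q : ℝ) → exp (-(q : ℝ) / 20000) ≤ γ → γ ≤ 1 → StageParams C γ := by
  obtain ⟨r, hr, hm⟩ : ∃ r : ℕ, 0 < r ∧ ((2 * r : ℕ) : ℝ) = 4000 := ⟨2000, by norm_num, by norm_num⟩
  obtain ⟨K, hK0, hK⟩ := spectral_le hr
  refine ⟨K, hK0, fun q γ γ₀ C hq hγlo hγ1 => ?_⟩
  have hq15 : (10 : ℝ) ^ 15 ≤ q := by linarith
  have hqpos : 0 < q := by exact_mod_cast (lt_of_lt_of_le (by norm_num) hq15 : (0 : ℝ) < q)
  obtain ⟨hN, hR⟩ := card_idx_bound q
  have hRpos := rk_pos hqpos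
  have hγ : 0 < γ := (exp_pos _).trans_le hγlo
  refine ⟨hγ, ?_, hγ1, (exp_pos _).le, ?_, hRpos, ?_, ?_, ?_⟩
  · calc exp (-(q : ℝ) / 2000) = exp (-(q : ℝ) / 20000) ^ 2 * exp (-(q : ℝ) / 2500) := by
          rw [← exp_nat_mul, ← exp_add]; ring_nf
      _ ≤ γ ^ 2 * (1 / 65536) := by
          gcongr
          rw [neg_div, exp_neg, one_div]
          exact inv_anti₀ (by norm_num) (by linarith [add_one_le_exp ((q : ℝ) / 2500)])
      _ = γ ^ 2 / 65536 := by ring
  · exact exp_le_small (by rw [accuracy]; linarith)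
  · calc Rk (30 * q) (11 * q) ≤ exp (-(q : ℝ) / 14) := hR
      _ ≤ exp (-(q : ℝ) / 20000) * (1 / 16384) := by
          rw [show -(q : ℝ) / 14 = -(q : ℝ) / 20000 + -((q : ℝ) / 14 - q / 20000) by ring, exp_add]
          gcongr
          rw [exp_neg, one_div]
          exact inv_anti₀ (by norm_num)
            (by linarith [add_one_le_exp ((q : ℝ) / 14 - q / 20000)])
      _ ≤ γ * (1 / 16384) := by gcongr
      _ = γ / 16384 := by ring
  · have h1 : (exp (-(q : ℝ) / 100) / 20) ^ 2 ≤ (1 / 5 : ℝ) ^ 2 := by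
      refine pow_le_pow_left₀ (by positivity) ?_ 2
      have : exp (-(q : ℝ) / 100) ≤ 1 := exp_le_one_iff.2 (by linarith)
      linarith
    calc _ ≤ 2 ^ (30 * q + 1) *
          exp (-(γ * (exp (-(q : ℝ) / 100) / 20) ^ 2 / Rk (30 * q) (11 * q))) := by gcongr
      _ ≤ exp (-(1 * q)) := tail_tiny hq15 hγlo hRpos hR (by norm_num)
      _ ≤ 1 / 16 := (exp_le_small (by linarith)).trans (by norm_num)
  · intro S hS hG s
    have hcγ : exp (-(q : ℝ) / 2000) ≤ γ :=
      le_trans (exp_le_exp.2 (by linarith)) hγlo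
    have hρ1 : exp (-(q : ℝ) / 100) / 20 ≤ 1 / 20 := by
      have : exp (-(q : ℝ) / 100) ≤ 1 := exp_le_one_iff.2 (by linarith)
      linarith
    refine le_trans (le_of_eq ?_) ((hK _ _ _ _ _ γ _ C S s hS hG hγ hcγ hγ1 (exp_pos _).le hRpos
      (hR.trans (exp_le_one_iff.2 (by linarith))) (by positivity) hρ1).trans
      (mul_le_mul_of_nonneg_right (spectral_numeric hm hq15 hK0 (by linarith) hγlo hRpos hR
        (Nat.cast_nonneg _) hN) (J_pos (hG.pd hγ)).le))
    unfold specFail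
    congr!

/-- The threshold in `exists_stageParams` holds for all large `q`. -/
lemma eventually_large (K γ₀ : ℝ) (h : 0 < γ₀) :
    ∀ᶠ q : ℕ in Filter.atTop,
      10 ^ 15 + K ≤ (q : ℝ) ∧ exp (-(q : ℝ) / 40000) ≤ γ₀ := by
  filter_upwards [Filter.eventually_ge_atTop ⌈max (10 ^ 15 + K) (40000 / γ₀)⌉₊] with q hq
  have hq' := (Nat.ceil_le).1 hq
  refine ⟨(le_max_left _ _).trans hq', ?_⟩
  have h1 := (le_max_right _ _).trans hq'
  rw [div_le_iff₀ h] at h1
  rw [neg_div, exp_neg, inv_le_iff_one_le_mul₀ (exp_pos _)]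
  have h2 := mul_le_mul_of_nonneg_left (add_one_le_exp ((q : ℝ) / 40000)) h.le
  nlinarith

end Vale.Agent.P047.Disproof
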