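import Vale.Agent.P047.Disproof.Real
import Mathlib.Analysis.Complex.Trigonometric

/-!
Averages of test functions against the phases `exp (π i ∑ a x * t x)` over random signs on `S`.
-/

namespace Vale.Agent.P047.Disproof

open Finset Real
open scoped Real

variable {n : ℕ}

/-- The signs of `a` on `S`, zero elsewhere. -/
def sgnS (S : Finset (Cube n)) (a : Cube n → Bool) (x : Cube n) : ℝ :=
  if x ∈ S then sgn (a x) else 0

/-- The phase of `t` at the signs `a`. -/
noncomputable def phase (S : Finset (Cube n)) (t : Cube n → ℝ) (a : Cube n → Bool) : ℂ :=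
  ∏ x, Complex.exp ((π * sgnS S a x * t x : ℝ) * Complex.I)

/-- The average over all signs. -/
noncomputable def avg {R : Type*} [Field R] (Φ : (Cube n → Bool) → R) : R :=
  (∑ a, Φ a) / Fintype.card (Cube n → Bool)

/-- The average of `Φ` against the phase of `t`. -/
noncomputable def avgPhase (S : Finset (Cube n)) (Φ : (Cube n → Bool) → ℝ) (t : Cube n → ℝ) : ℂ :=
  avg fun a => (Φ a : ℂ) * phase S t a

lemma avg_prod {R : Type*} [Field R] (g : Cube n → Bool → R) :
    avg (fun a => ∏ x, g x (a x)) = ∏ x, (g x true + g x false) / 2 := by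
  rw [avg, ← Fintype.prod_sum, prod_div_distrib, Fintype.card_fun, Fintype.card_bool,
    prod_const, Finset.card_univ]
  congr 1
  · exact prod_congr rfl fun x _ => Fintype.sum_bool (g x)
  · push_cast; ring

lemma avgPhase_prod (S : Finset (Cube n)) (φ : Cube n → Bool → ℝ) (hφ : ∀ x ∉ S, ∀ b, φ x b = 1)
    (t : Cube n → ℝ) :
    avgPhase S (fun a => ∏ x, φ x (a x)) t = ∏ x ∈ S,
      ((φ x true : ℂ) * Complex.exp ((π * t x : ℝ) * Complex.I) +
        φ x false * Complex.exp ((-(π * t x) : ℝ) * Complex.I)) / 2 := by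
  have h : (fun a : Cube n → Bool => ((∏ x, φ x (a x) : ℝ) : ℂ) * phase S t a) =
      fun a => ∏ x, (φ x (a x) : ℂ) *
        Complex.exp ((π * (if x ∈ S then sgn (a x) else 0) * t x : ℝ) * Complex.I) := by
    funext a
    rw [prod_mul_distrib, Complex.ofReal_prod]
    rfl
  rw [avgPhase, h, avg_prod fun x b => (φ x b : ℂ) *
    Complex.exp ((π * (if x ∈ S then sgn b else 0) * t x : ℝ) * Complex.I)]
  refine ((prod_subset (Finset.subset_univ S) fun x _ hx => ?_).symm.trans
    (prod_congr rfl fun x hx => ?_))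
  · simp [hx, hφ x hx]
  · simp [hx, sgn]

lemma phase_sub_int (S : Finset (Cube n)) (t : Cube n → ℝ) (z : Cube n → ℤ) (a : Cube n → Bool) :
    phase S (fun x => t x - z x) a = (∏ x ∈ S, (-1 : ℂ) ^ z x) * phase S t a := by
  have h : ∀ x, Complex.exp ((π * sgnS S a x * (t x - z x) : ℝ) * Complex.I) =
      (if x ∈ S then (-1 : ℂ) ^ z x else 1) * Complex.exp ((π * sgnS S a x * t x : ℝ) * Complex.I) := by
    intro x
    by_cases hx : x ∈ S
    · simp only [sgnS, if_pos hx]
      rw [show ((π * sgn (a x) * (t x - z x) : ℝ) : ℂ) * Complex.I =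
        ((π * sgn (a x) * t x : ℝ) : ℂ) * Complex.I + ((if a x then -z x else z x : ℤ) : ℂ) *
          (π * Complex.I) by
        cases a x <;> simp [sgn] <;> ring, Complex.exp_add, Complex.exp_int_mul,
        Complex.exp_pi_mul_I]
      rw [mul_comm]
      congr 1
      cases a x
      · simp
      · simp [zpow_neg, ← inv_zpow]
    · simp [sgnS, hx]
  simp only [phase, h, prod_mul_distrib]
  congr 1
  rw [prod_ite_mem, univ_inter]

lemma norm_avgPhase_sub_int (S : Finset (Cube n)) (Φ : (Cube n → Bool) → ℝ) (t : Cube n → ℝ)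
    (z : Cube n → ℤ) : ‖avgPhase S Φ (fun x => t x - z x)‖ = ‖avgPhase S Φ t‖ := by
  simp only [avgPhase, avg, phase_sub_int, mul_left_comm _ (∏ x ∈ S, (-1 : ℂ) ^ z x), ← mul_sum,
    mul_div_assoc, norm_mul, norm_prod, norm_zpow, norm_neg, norm_one, one_zpow, prod_const_one,
    one_mul]

lemma factor_eq (b t : ℝ) :
    ((exp b : ℂ) * Complex.exp ((π * t : ℝ) * Complex.I) +
      exp (-b) * Complex.exp ((-(π * t) : ℝ) * Complex.I)) / 2 =
      ((cosh b * cos (π * t) : ℝ) : ℂ) + (sinh b * sin (π * t) : ℝ) * Complex.I := by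
  rw [Complex.exp_mul_I, Complex.exp_mul_I, ← Complex.ofReal_cos, ← Complex.ofReal_sin,
    ← Complex.ofReal_cos, ← Complex.ofReal_sin, cos_neg, sin_neg, cosh_eq, sinh_eq]
  push_cast
  ring

lemma prod_exp_sgn (S : Finset (Cube n)) (b : Cube n → ℝ) (a : Cube n → Bool) :
    exp (∑ x ∈ S, b x * sgn (a x)) = ∏ x, if x ∈ S then exp (b x * sgn (a x)) else 1 := by
  rw [prod_ite_mem, univ_inter, exp_sum]

/-- Exponential tilts: the average is at most the log-concave weight. -/
lemma norm_avgPhase_tilt_le (S : Finset (Cube n)) (b t : Cube n → ℝ)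
    (ht : ∀ x ∈ S, |t x| ≤ 13 / 25) :
    ‖avgPhase S (fun a => exp (∑ x ∈ S, b x * sgn (a x))) t‖ ≤
      exp (128 * ∑ x ∈ S, b x ^ 2) * wt S t := by
  simp only [prod_exp_sgn]
  rw [avgPhase_prod S (fun x s => if x ∈ S then exp (b x * sgn s) else 1)
    (fun x hx _ => if_neg hx), norm_prod, wt, mul_sum, ← sum_neg_distrib, exp_sum, exp_sum,
    ← prod_mul_distrib]
  refine Finset.prod_le_prod (fun x _ => norm_nonneg _) fun x hx => ?_
  simp only [if_pos hx, sgn, if_true, if_false, mul_one, mul_neg, Bool.false_eq_true]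
  rw [factor_eq, Complex.norm_add_mul_I]
  refine (Real.sqrt_le_left (by positivity)).2 ?_
  calc (cosh (b x) * cos (π * t x)) ^ 2 + (sinh (b x) * sin (π * t x)) ^ 2
      = sinh (b x) ^ 2 + cos (π * t x) ^ 2 := by
        rw [mul_pow, mul_pow, cosh_sq, sin_sq]; ring
    _ ≤ exp (256 * b x ^ 2) * exp (-F (t x)) ^ 2 := tilt_le (ht x hx) _
    _ = _ := by rw [mul_pow, ← exp_nat_mul, ← exp_nat_mul]; push_cast; ring_nf

/-- Near the origin the average of `1` is exactly the weight. -/
lemma avgPhase_one (S : Finset (Cube n)) (t : Cube n → ℝ) (ht : ∀ x ∈ S, |t x| ≤ 1 / 5) :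
    avgPhase S (fun _ => 1) t = (wt S t : ℂ) := by
  have h : (fun _ : Cube n → Bool => (1 : ℝ)) = fun a => exp (∑ x ∈ S, (0 : ℝ) * sgn (a x)) := by
    simp
  rw [h]
  simp only [prod_exp_sgn]
  rw [avgPhase_prod S (fun x s => if x ∈ S then exp ((0 : ℝ) * sgn s) else 1)
    (fun x hx _ => if_neg hx), wt, ← sum_neg_distrib, exp_sum, Complex.ofReal_prod]
  refine prod_congr rfl fun x hx => ?_
  simp only [if_pos hx, zero_mul]
  have := factor_eq 0 (t x)
  rw [neg_zero] at this
  rw [this, exp_neg_F_eq (ht x hx)]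
  simp

/-- Monomials in the signs. -/
lemma norm_avgPhase_monomial_le (S : Finset (Cube n)) {m : ℕ} (y : Fin m → Cube n)
    (t : Cube n → ℝ) (ht : ∀ x ∈ S, |t x| ≤ 13 / 25) :
    ‖avgPhase S (fun a => ∏ j, sgn (a (y j))) t‖ ≤ 16 ^ m * wt S t := by
  classical
  have hy : ∀ a : Cube n → Bool, ∏ j, sgn (a (y j)) =
      ∏ x, sgn (a x) ^ (univ.filter fun j => y j = x).card := fun a => by
    rw [← prod_fiberwise_of_maps_to' (t := univ) (g := y) (fun _ _ => mem_univ _)
      (fun x => sgn (a x))]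
    simp only [prod_const]
  have hg : ∀ x, ‖((sgn true ^ (univ.filter fun j => y j = x).card : ℝ) : ℂ) *
        Complex.exp ((π * (if x ∈ S then sgn true else 0) * t x : ℝ) * Complex.I) +
      (sgn false ^ (univ.filter fun j => y j = x).card : ℝ) *
        Complex.exp ((π * (if x ∈ S then sgn false else 0) * t x : ℝ) * Complex.I)‖ / 2 ≤
      16 ^ (univ.filter fun j => y j = x).card * (if x ∈ S then exp (-F (t x)) else 1) := by
    intro x
    rcases Nat.eq_zero_or_pos (univ.filter fun j => y j = x).card with h0 | h0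
    · rw [h0, pow_zero, pow_zero, pow_zero, one_mul, Complex.ofReal_one, one_mul, one_mul]
      split_ifs with hx
      · have := factor_eq 0 (t x)
        rw [neg_zero, exp_zero, Complex.ofReal_one, one_mul, one_mul] at this
        rw [← Complex.norm_two, ← norm_div, show π * sgn true * t x = π * t x by simp [sgn],
          show π * sgn false * t x = -(π * t x) by simp [sgn], this]
        rw [cosh_zero, sinh_zero, one_mul, zero_mul, Complex.ofReal_zero, zero_mul, add_zero,
          Complex.norm_real, Real.norm_eq_abs]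
        exact abs_cos_le_exp_neg_F (ht x hx)
      · simp; norm_num
    · refine le_trans (b := 1) ?_ ?_
      · rw [div_le_one two_pos]
        refine (norm_add_le _ _).trans ?_
        simp [Complex.norm_exp_ofReal_mul_I, sgn]
        norm_num
      · split_ifs with hx
        · calc (1 : ℝ) ≤ 16 * exp (-F (t x)) := one_le_mul_exp_neg_F (ht x hx)
            _ ≤ _ := mul_le_mul_of_nonneg_right (le_self_pow₀ (by norm_num) h0.ne') (exp_pos _).le
        · rw [mul_one]; exact one_le_pow₀ (by norm_num)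
  have h : (fun a : Cube n → Bool => ((∏ j, sgn (a (y j)) : ℝ) : ℂ) * phase S t a) =
      fun a => ∏ x, ((sgn (a x) ^ (univ.filter fun j => y j = x).card : ℝ) : ℂ) *
        Complex.exp ((π * (if x ∈ S then sgn (a x) else 0) * t x : ℝ) * Complex.I) := by
    funext a
    rw [prod_mul_distrib, hy, Complex.ofReal_prod]
    rfl
  rw [avgPhase, h, avg_prod fun x b => ((sgn b ^ (univ.filter fun j => y j = x).card : ℝ) : ℂ) *
    Complex.exp ((π * (if x ∈ S then sgn b else 0) * t x : ℝ) * Complex.I), norm_prod]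
  refine (Finset.prod_le_prod (fun x _ => norm_nonneg _) fun x _ => ?_).trans_eq ?_ (b := ∏ x,
    (16 : ℝ) ^ (univ.filter fun j => y j = x).card * (if x ∈ S then exp (-F (t x)) else 1))
  · rw [norm_div, Complex.norm_two]; exact hg x
  · rw [prod_mul_distrib, prod_ite_mem, univ_inter, wt, ← sum_neg_distrib, exp_sum,
      prod_pow_eq_pow_sum, ← card_eq_sum_card_fiberwise (fun _ _ => mem_univ _), card_univ,
      Fintype.card_fin]

/-- Near the origin the phase turns into an imaginary bias of the signs. -/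
lemma avgPhase_eq_bias (S : Finset (Cube n)) (Φ : (Cube n → Bool) → ℝ) (t : Cube n → ℝ)
    (ht : ∀ x ∈ S, |t x| ≤ 1 / 5) :
    avgPhase S Φ t = (wt S t : ℂ) * ∑ a : Cube n → Bool,
      (∏ x, (1 + (sgn (a x) : ℂ) *
        (Complex.I * ((if x ∈ S then tan (π * t x) else 0 : ℝ) : ℂ))) / 2) * (Φ a : ℂ) := by
  have hw : wt S t = ∏ x ∈ S, cos (π * t x) := by
    rw [wt, ← sum_neg_distrib, exp_sum]
    exact prod_congr rfl fun x hx => exp_neg_F_eq (ht x hx)
  have hc : ∀ x ∈ S, cos (π * t x) ≠ 0 := fun x hx =>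
    (cos_pi_mul_pos (lt_of_le_of_lt (ht x hx) (by norm_num))).ne'
  rw [avgPhase, avg, hw, Complex.ofReal_prod, mul_sum, sum_div]
  refine sum_congr rfl fun a _ => ?_
  rw [mul_comm (Φ a : ℂ), mul_div_right_comm, ← mul_assoc]
  congr 1
  rw [phase, Fintype.card_fun, Fintype.card_bool, Nat.cast_pow, ← Finset.card_univ, ← prod_const,
    ← prod_div_distrib, ← univ_inter S, ← prod_ite_mem, ← prod_mul_distrib]
  refine prod_congr rfl fun x _ => ?_
  simp only [univ_inter, sgnS]
  by_cases hx : x ∈ S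
  · simp only [if_pos hx, tan_eq_sin_div_cos]
    have hcx := hc x hx
    rw [Complex.exp_mul_I, ← Complex.ofReal_cos, ← Complex.ofReal_sin]
    have hne := Complex.ofReal_ne_zero.2 hcx
    cases a x <;> simp only [sgn, Bool.false_eq_true, if_true, if_false, mul_one, mul_neg,
      neg_mul, cos_neg, sin_neg, Complex.ofReal_one, Complex.ofReal_neg, Complex.ofReal_div,
      one_mul] <;>
      field_simp <;> ring
  · simp [hx]

end Vale.Agent.P047.Disproof
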