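import Mathlib.MeasureTheory.Integral.Layercake
import Mathlib.MeasureTheory.Constructions.Pi
import Mathlib.MeasureTheory.Measure.Lebesgue.EqHaar
import Mathlib.Analysis.SpecialFunctions.Pow.Real

/-!
# P047: the Prékopa–Leindler inequality at the midpoint, by induction on the dimension
-/

namespace Vale.Agent.P047.Disproof

open MeasureTheory Set Pointwise
open scoped ENNReal

/-- The one dimensional Brunn–Minkowski inequality for compact sets. -/
theorem volume_add_compact {K L : Set ℝ} (hK : IsCompact K) (hL : IsCompact L) (hKne : K.Nonempty)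
    (hLne : L.Nonempty) : volume K + volume L ≤ volume (K + L) := by
  have hs := hK.sSup_mem hKne
  have hr := hL.sInf_mem hLne
  set s := sSup K
  set r := sInf L
  set A := (fun x => x + -r) ⁻¹' K with hA
  set B := (fun x => -s + x) ⁻¹' L with hB
  have hsub : A ∪ B ⊆ K + L := by
    rintro x (hx | hx)
    · exact ⟨x + -r, hx, r, hr, by simp⟩
    · exact ⟨s, hs, -s + x, hx, by simp⟩
  have hint : volume (A ∩ B) = 0 := by
    refine measure_mono_null (t := {s + r}) (fun x hx => ?_) (measure_singleton _)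
    have h1 : x + -r ≤ s := le_csSup hK.bddAbove hx.1
    have h2 : r ≤ -s + x := csInf_le hL.bddBelow hx.2
    simp only [mem_singleton_iff]
    linarith
  calc volume K + volume L = volume A + volume B := by
        rw [hA, hB, measure_preimage_add_right, measure_preimage_add]
    _ = volume (A ∪ B) + volume (A ∩ B) :=
        (measure_union_add_inter _ ((measurable_const_add (-s)) hL.measurableSet)).symm
    _ ≤ volume (K + L) := by rw [hint, add_zero]; exact measure_mono hsub

/-- The midpoint form for measurable sets. -/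
theorem volume_add_le_midpoint {A B C : Set ℝ} (hA : MeasurableSet A) (hB : MeasurableSet B)
    (hAne : A.Nonempty) (hBne : B.Nonempty) (h : ∀ a ∈ A, ∀ b ∈ B, (a + b) / 2 ∈ C) :
    volume A + volume B ≤ 2 * volume C := by
  obtain ⟨a, ha⟩ := hAne
  obtain ⟨b, hb⟩ := hBne
  rw [hA.measure_eq_iSup_isCompact, hB.measure_eq_iSup_isCompact]
  refine ENNReal.iSup_add_iSup_le fun K L => ?_
  by_cases hK : K ⊆ A ∧ IsCompact K
  swap
  · have : (⨆ (_ : K ⊆ A) (_ : IsCompact K), volume K) = 0 := by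
      simp only [ENNReal.iSup_eq_zero]
      exact fun h1 h2 => absurd ⟨h1, h2⟩ hK
    rw [this, zero_add]
    refine iSup₂_le fun hLB hLc => ?_
    have h1 := volume_add_compact (K := {a}) isCompact_singleton (hLc.insert b) (singleton_nonempty a)
      ⟨b, mem_insert _ _⟩
    refine le_trans ?_ (le_trans (h1.trans (measure_mono (t := (fun x => 2⁻¹ * x) ⁻¹' C) ?_)) ?_)
    · exact le_add_left (measure_mono (subset_insert _ _))
    · rintro _ ⟨x, rfl, y, hy, rfl⟩
      have hy' : y ∈ B := hy.elim (fun e => e ▸ hb) fun h' => hLB h'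
      show 2⁻¹ * (x + y) ∈ C
      rw [inv_mul_eq_div]
      exact h x ha y hy'
    · rw [Real.volume_preimage_mul_left (by norm_num : (2⁻¹ : ℝ) ≠ 0)]
      norm_num
  · rw [iSup_pos hK.1, iSup_pos hK.2]
    by_cases hL : L ⊆ B ∧ IsCompact L
    · rw [iSup_pos hL.1, iSup_pos hL.2]
      have h1 := volume_add_compact (hK.2.insert a) (hL.2.insert b) ⟨a, mem_insert _ _⟩
        ⟨b, mem_insert _ _⟩
      refine le_trans (add_le_add (measure_mono (subset_insert a K))
        (measure_mono (subset_insert b L))) (le_trans (h1.trans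
          (measure_mono (t := (fun x => 2⁻¹ * x) ⁻¹' C) ?_)) ?_)
      · rintro _ ⟨x, hx, y, hy, rfl⟩
        have hx' : x ∈ A := hx.elim (fun e => e ▸ ha) fun h' => hK.1 h'
        have hy' : y ∈ B := hy.elim (fun e => e ▸ hb) fun h' => hL.1 h'
        show 2⁻¹ * (x + y) ∈ C
        rw [inv_mul_eq_div]
        exact h x hx' y hy'
      · rw [Real.volume_preimage_mul_left (by norm_num : (2⁻¹ : ℝ) ≠ 0)]
        norm_num
    · have : (⨆ (_ : L ⊆ B) (_ : IsCompact L), volume L) = 0 := by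
        simp only [ENNReal.iSup_eq_zero]
        exact fun h1 h2 => absurd ⟨h1, h2⟩ hL
      rw [this, add_zero]
      have h1 := volume_add_compact (L := {b}) (hK.2.insert a) isCompact_singleton
        ⟨a, mem_insert _ _⟩ (singleton_nonempty b)
      refine le_trans ?_ (le_trans (h1.trans (measure_mono (t := (fun x => 2⁻¹ * x) ⁻¹' C) ?_)) ?_)
      · exact le_add_right (measure_mono (subset_insert _ _))
      · rintro _ ⟨x, hx, y, rfl, rfl⟩
        have hx' : x ∈ A := hx.elim (fun e => e ▸ ha) fun h' => hK.1 h'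
        show 2⁻¹ * (x + y) ∈ C
        rw [inv_mul_eq_div]
        exact h x hx' y hb
      · rw [Real.volume_preimage_mul_left (by norm_num : (2⁻¹ : ℝ) ≠ 0)]
        norm_num

theorem ennreal_mul_le_sq {x y z : ℝ≥0∞} (h : x + y ≤ 2 * z) : x * y ≤ z ^ 2 := by
  rcases eq_or_ne z ⊤ with rfl | hz
  · simp
  have hxy : x + y ≠ ⊤ := ne_top_of_le_ne_top (ENNReal.mul_ne_top ENNReal.ofNat_ne_top hz) h
  obtain ⟨hx, hy⟩ := ENNReal.add_ne_top.1 hxy
  lift x to NNReal using hx
  lift y to NNReal using hy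
  lift z to NNReal using hz
  have h' : (x : ℝ) + y ≤ 2 * z := by exact_mod_cast h
  have : (x : ℝ) * y ≤ (z : ℝ) ^ 2 := by
    nlinarith [sq_nonneg ((x : ℝ) - y),
      pow_le_pow_left₀ (show (0 : ℝ) ≤ x + y by positivity) h' 2]
  exact_mod_cast this

/-- The normalised one dimensional inequality. -/
theorem prekopa_unit {f g h : ℝ → ℝ} (hf : Measurable f) (hg : Measurable g) (hh : Measurable h)
    (hf0 : ∀ x, 0 ≤ f x) (hg0 : ∀ x, 0 ≤ g x) (hh0 : ∀ x, 0 ≤ h x)
    (hf1 : ∀ x, f x ≤ 1) (hg1 : ∀ x, g x ≤ 1) (hfs : ∀ t < 1, ∃ x, t < f x)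
    (hgs : ∀ t < 1, ∃ x, t < g x) (H : ∀ u v, f u * g v ≤ h ((u + v) / 2) ^ 2) :
    (∫⁻ x, ENNReal.ofReal (f x)) + ∫⁻ x, ENNReal.ofReal (g x) ≤
      2 * ∫⁻ x, ENNReal.ofReal (h x) := by
  rw [lintegral_eq_lintegral_meas_lt volume (.of_forall hf0) hf.aemeasurable,
    lintegral_eq_lintegral_meas_lt volume (.of_forall hg0) hg.aemeasurable,
    lintegral_eq_lintegral_meas_lt volume (.of_forall hh0) hh.aemeasurable,
    ← lintegral_const_mul' _ _ ENNReal.ofNat_ne_top, ← lintegral_add_left]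
  swap
  · have : Antitone fun t => volume {a | t < f a} :=
      fun t t' ht => measure_mono fun a (ha : t' < f a) => show t < f a from ht.trans_lt ha
    exact this.measurable
  refine setLIntegral_mono' measurableSet_Ioi fun t (ht : 0 < t) => ?_
  rcases lt_or_ge t 1 with ht1 | ht1
  · refine volume_add_le_midpoint (measurableSet_lt measurable_const hf)
      (measurableSet_lt measurable_const hg) (hfs t ht1) (hgs t ht1) fun a ha b hb => ?_
    have ha' : t < f a := ha
    have hb' : t < g b := hb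
    show t < h ((a + b) / 2)
    by_contra hc
    push Not at hc
    have h1 := H a b
    have h2 : h ((a + b) / 2) ^ 2 ≤ t ^ 2 := pow_le_pow_left₀ (hh0 _) hc 2
    nlinarith [mul_lt_mul'' ha' hb' ht.le ht.le]
  · rw [show {a | t < f a} = ∅ from eq_empty_of_forall_notMem fun a ha =>
      absurd ((hf1 a).trans ht1) (not_le.2 ha),
      show {a | t < g a} = ∅ from eq_empty_of_forall_notMem fun a ha =>
      absurd ((hg1 a).trans ht1) (not_le.2 ha)]
    simp

/-- The bounded one dimensional inequality. -/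
theorem prekopa_bounded {f g h : ℝ → ℝ≥0∞} (hf : Measurable f) (hg : Measurable g)
    (hh : Measurable h) {M : ℝ≥0∞} (hM : M ≠ ⊤) (hfM : ∀ x, f x ≤ M) (hgM : ∀ x, g x ≤ M)
    (H : ∀ u v, f u * g v ≤ h ((u + v) / 2) ^ 2) :
    (∫⁻ x, f x) * ∫⁻ x, g x ≤ (∫⁻ x, h x) ^ 2 := by
  rcases eq_or_ne (⨆ x, f x) 0 with h0 | h0
  · simp [ENNReal.iSup_eq_zero.1 h0]
  rcases eq_or_ne (⨆ x, g x) 0 with h0' | h0'
  · simp [ENNReal.iSup_eq_zero.1 h0']
  have haT : (⨆ x, f x) ≠ ⊤ := ne_top_of_le_ne_top hM (iSup_le hfM)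
  have hbT : (⨆ x, g x) ≠ ⊤ := ne_top_of_le_ne_top hM (iSup_le hgM)
  set a := (⨆ x, f x).toReal with ha
  set b := (⨆ x, g x).toReal with hb
  have a0 : 0 < a := ENNReal.toReal_pos h0 haT
  have b0 : 0 < b := ENNReal.toReal_pos h0' hbT
  set m := √(a * b) with hm
  have m0 : 0 < m := Real.sqrt_pos.2 (mul_pos a0 b0)
  have hm2 : m * m = a * b := Real.mul_self_sqrt (mul_pos a0 b0).le
  have hfT : ∀ x, f x ≠ ⊤ := fun x => ne_top_of_le_ne_top hM (hfM x)
  have hgT : ∀ x, g x ≠ ⊤ := fun x => ne_top_of_le_ne_top hM (hgM x)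
  set F := fun x => (f x).toReal / a with hF
  set G := fun x => (g x).toReal / b with hG
  set K := fun x => (min (h x) (ENNReal.ofReal m)).toReal / m with hK
  have hF1 : ∀ x, F x ≤ 1 := fun x =>
    (div_le_one a0).2 (ENNReal.toReal_mono haT (le_iSup f x))
  have hG1 : ∀ x, G x ≤ 1 := fun x =>
    (div_le_one b0).2 (ENNReal.toReal_mono hbT (le_iSup g x))
  have hsup : ∀ (φ : ℝ → ℝ≥0∞), (⨆ x, φ x) ≠ ⊤ → 0 < (⨆ x, φ x).toReal → ∀ t < (1 : ℝ),
      ∃ x, t < (φ x).toReal / (⨆ x, φ x).toReal := by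
    intro φ hφ hpos t ht
    have hlt : ENNReal.ofReal (t * (⨆ x, φ x).toReal) < ⨆ x, φ x := by
      conv_rhs => rw [← ENNReal.ofReal_toReal hφ]
      rw [ENNReal.ofReal_lt_ofReal_iff hpos]
      exact mul_lt_of_lt_one_left hpos ht
    obtain ⟨x, hx⟩ := lt_iSup_iff.1 hlt
    refine ⟨x, (lt_div_iff₀ hpos).2 ?_⟩
    rcases lt_or_ge (t * (⨆ x, φ x).toReal) 0 with h' | h'
    · exact h'.trans_le ENNReal.toReal_nonneg
    · exact (ENNReal.ofReal_lt_iff_lt_toReal h' (ne_top_of_le_ne_top hφ (le_iSup φ x))).1 hx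
  have key := prekopa_unit (f := F) (g := G) (h := K) (hf.ennreal_toReal.div_const _)
    (hg.ennreal_toReal.div_const _) ((hh.min measurable_const).ennreal_toReal.div_const _)
    (fun x => div_nonneg ENNReal.toReal_nonneg a0.le)
    (fun x => div_nonneg ENNReal.toReal_nonneg b0.le)
    (fun x => div_nonneg ENNReal.toReal_nonneg m0.le) hF1 hG1 (hsup f haT a0) (hsup g hbT b0) ?_
  swap
  · intro u v
    by_cases hc : ENNReal.ofReal m ≤ h ((u + v) / 2)
    · rw [hK]
      simp only [min_eq_right hc, ENNReal.toReal_ofReal m0.le, div_self m0.ne', one_pow]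
      exact mul_le_one₀ (hF1 u) (div_nonneg ENNReal.toReal_nonneg b0.le) (hG1 v)
    · push Not at hc
      rw [hK, hF, hG]
      simp only [min_eq_left hc.le]
      rw [div_mul_div_comm, div_pow, sq m, hm2]
      refine div_le_div_of_nonneg_right ?_ (mul_pos a0 b0).le
      rw [← ENNReal.toReal_mul, ← ENNReal.toReal_pow]
      exact ENNReal.toReal_mono (ENNReal.pow_ne_top hc.ne_top) (H u v)
  have h1 := ennreal_mul_le_sq key
  have e : ∀ (φ : ℝ → ℝ≥0∞) (c : ℝ), (∀ x, φ x ≠ ⊤) → 0 < c →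
      ∫⁻ x, φ x = ENNReal.ofReal c * ∫⁻ x, ENNReal.ofReal ((φ x).toReal / c) := by
    intro φ c hφ hc
    rw [← lintegral_const_mul' _ _ ENNReal.ofReal_ne_top]
    refine lintegral_congr fun x => ?_
    rw [← ENNReal.ofReal_mul hc.le, mul_div_cancel₀ _ hc.ne', ENNReal.ofReal_toReal (hφ x)]
  have hKint : ENNReal.ofReal m * ∫⁻ x, ENNReal.ofReal (K x) ≤ ∫⁻ x, h x := by
    rw [← e (fun x => min (h x) (ENNReal.ofReal m)) m
      (fun x => ne_top_of_le_ne_top ENNReal.ofReal_ne_top (min_le_right _ _)) m0]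
    exact lintegral_mono fun x => min_le_left _ _
  rw [e f a hfT a0, e g b hgT b0, mul_mul_mul_comm, ← ENNReal.ofReal_mul a0.le, ← hm2,
    ENNReal.ofReal_mul m0.le, ← sq]
  refine le_trans ?_ (pow_le_pow_left' hKint 2)
  rw [mul_pow]
  exact mul_le_mul_right h1 _

/-- The one dimensional inequality. -/
theorem prekopa_real {f g h : ℝ → ℝ≥0∞} (hf : Measurable f) (hg : Measurable g) (hh : Measurable h)
    (H : ∀ u v, f u * g v ≤ h ((u + v) / 2) ^ 2) :
    (∫⁻ x, f x) * ∫⁻ x, g x ≤ (∫⁻ x, h x) ^ 2 := by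
  have e : ∀ φ : ℝ → ℝ≥0∞, Measurable φ → ∫⁻ x, φ x = ⨆ n : ℕ, ∫⁻ x, min (φ x) n := by
    intro φ hφ
    rw [← lintegral_iSup (fun n => hφ.min measurable_const)
      (fun i j hij x => min_le_min_left _ (Nat.cast_le.2 hij))]
    refine lintegral_congr fun x => le_antisymm ?_ (iSup_le fun n => min_le_left _ _)
    rcases eq_or_ne (φ x) ⊤ with ht | ht
    · simp [ht, ENNReal.iSup_natCast]
    · obtain ⟨n, hn⟩ := ENNReal.exists_nat_gt ht
      exact le_trans (le_min le_rfl hn.le) (le_iSup (fun n : ℕ => min (φ x) n) n)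
  rw [e f hf, e g hg, ENNReal.iSup_mul]
  refine iSup_le fun n => ?_
  rw [ENNReal.mul_iSup]
  refine iSup_le fun k => ?_
  refine prekopa_bounded (hf.min measurable_const) (hg.min measurable_const) hh
    (M := max n k) (by simp) (fun x => (min_le_right _ _).trans (le_max_left _ _))
    (fun x => (min_le_right _ _).trans (le_max_right _ _)) fun u v => ?_
  exact (mul_le_mul' (min_le_left _ _) (min_le_left _ _)).trans (H u v)

/-- The inequality on `Fin n → ℝ`. -/
theorem prekopa_fin : ∀ (n : ℕ) {f g h : (Fin n → ℝ) → ℝ≥0∞}, Measurable f → Measurable g →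
    Measurable h → (∀ u v, f u * g v ≤ h (fun i => (u i + v i) / 2) ^ 2) →
    (∫⁻ x, f x) * ∫⁻ x, g x ≤ (∫⁻ x, h x) ^ 2 := by
  intro n
  induction n with
  | zero =>
    intro f g h _ _ _ H
    simp only [volume_pi, Measure.pi_of_empty _ (default : Fin 0 → ℝ), lintegral_dirac]
    refine (H default default).trans (le_of_eq ?_)
    rw [Subsingleton.elim (fun i => (_ : ℝ)) (default : Fin 0 → ℝ)]
  | succ n ih =>
    intro f g h hf hg hh H
    have mp := (volume_preserving_piFinSuccAbove (fun _ : Fin (n + 1) => ℝ) 0).symm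
    have e : ∀ φ : (Fin (n + 1) → ℝ) → ℝ≥0∞, Measurable φ →
        ∫⁻ x, φ x = ∫⁻ t : ℝ, ∫⁻ u : Fin n → ℝ, φ (Fin.cons t u) := by
      intro φ hφ
      rw [← mp.lintegral_comp hφ, Measure.volume_eq_prod,
        lintegral_prod (fun p => φ ((MeasurableEquiv.piFinSuccAbove
          (fun _ : Fin (n + 1) => ℝ) 0).symm p))
          (hφ.comp (MeasurableEquiv.piFinSuccAbove _ 0).symm.measurable).aemeasurable]
      refine lintegral_congr fun t => lintegral_congr fun u => ?_
      simp [MeasurableEquiv.piFinSuccAbove, Fin.insertNthEquiv]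
    have hc : Measurable fun p : ℝ × (Fin n → ℝ) =>
        (Fin.cons p.1 p.2 : Fin (n + 1) → ℝ) := by
      refine measurable_pi_lambda _ fun i => ?_
      refine Fin.cases ?_ (fun j => ?_) i
      · simpa using measurable_fst
      · simp only [Fin.cons_succ]
        exact (measurable_pi_apply j).comp measurable_snd
    rw [e f hf, e g hg, e h hh]
    refine prekopa_real (hf.comp hc).lintegral_prod_right' (hg.comp hc).lintegral_prod_right'
      (hh.comp hc).lintegral_prod_right' fun s t => ?_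
    refine ih (hf.comp (hc.comp measurable_prodMk_left)) (hg.comp (hc.comp measurable_prodMk_left))
      (hh.comp (hc.comp measurable_prodMk_left)) fun u v => ?_
    refine (H (Fin.cons s u) (Fin.cons t v)).trans (le_of_eq ?_)
    congr 1
    congr 1
    funext i
    refine Fin.cases ?_ (fun j => ?_) i <;> simp

/-- The inequality on `κ → ℝ`. -/
theorem prekopa_pi {κ : Type*} [Fintype κ] {f g h : (κ → ℝ) → ℝ≥0∞} (hf : Measurable f)
    (hg : Measurable g) (hh : Measurable h)
    (H : ∀ u v, f u * g v ≤ h (fun i => (u i + v i) / 2) ^ 2) :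
    (∫⁻ x, f x) * ∫⁻ x, g x ≤ (∫⁻ x, h x) ^ 2 := by
  let σ := (Fintype.equivFin κ).symm
  have hm : Measurable fun u : Fin (Fintype.card κ) → ℝ => fun i => u (σ.symm i) :=
    measurable_pi_lambda _ fun i => measurable_pi_apply _
  have mp := volume_measurePreserving_piCongrLeft (fun _ : κ => ℝ) σ
  have e : ∀ φ : (κ → ℝ) → ℝ≥0∞, Measurable φ →
      ∫⁻ x, φ x = ∫⁻ u : Fin (Fintype.card κ) → ℝ, φ fun i => u (σ.symm i) := by
    intro φ hφ
    rw [← mp.lintegral_comp hφ]
    refine lintegral_congr fun u => congrArg φ (funext fun i => ?_)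
    simp [MeasurableEquiv.piCongrLeft, Equiv.piCongrLeft, Equiv.piCongrLeft']
  rw [e f hf, e g hg, e h hh]
  exact prekopa_fin _ (hf.comp hm) (hg.comp hm) (hh.comp hm) fun u v => H _ _

end Vale.Agent.P047.Disproof
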