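import Vale.Agent.P047.Disproof.Defs
import Vale.Agent.P047.Disproof.Prekopa
import Mathlib.Analysis.Convex.Continuous
import Mathlib.MeasureTheory.Group.Integral

/-!
# P047: the shift lemma
-/

namespace Vale.Agent.P047.Disproof

open MeasureTheory

/-- An even log-concave product integrates most along the central subspace. -/
theorem shiftLemma : ShiftLemma := by
  intro ι κ _ _ T F w C α hconv heven hw hlow hα hT a
  have hcF : ∀ x, Continuous (F x) := fun x =>
    continuousOn_univ.1 ((hconv x).continuousOn isOpen_univ)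
  have hcT : Continuous T := T.continuous_of_finiteDimensional
  set Φ : (ι → ℝ) → (κ → ℝ) → ℝ := fun b θ => ∑ x, F x (T θ x + b x) with hΦ
  have hcΦ : ∀ b, Continuous (Φ b) := fun b =>
    continuous_finsetSum _ fun x _ =>
      (hcF x).comp (((continuous_apply x).comp hcT).add continuous_const)
  have hlower : ∀ b θ, α / 2 * ∑ i, θ i ^ 2 - ((∑ x, w x * b x ^ 2) + Fintype.card ι * C) ≤
      Φ b θ := by
    intro b θ
    have h1 : ∑ x, (w x / 2 * T θ x ^ 2 - w x * b x ^ 2 - C) ≤ Φ b θ := by
      refine Finset.sum_le_sum fun x _ => le_trans ?_ (hlow x _)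
      nlinarith [mul_nonneg (hw x) (sq_nonneg (T θ x + 2 * b x))]
    refine le_trans ?_ h1
    rw [Finset.sum_sub_distrib, Finset.sum_sub_distrib, Finset.sum_const, Finset.card_univ,
      nsmul_eq_mul]
    have h2 : ∑ x, w x / 2 * T θ x ^ 2 = (∑ x, w x * T θ x ^ 2) / 2 := by
      rw [Finset.sum_div]
      exact Finset.sum_congr rfl fun x _ => by ring
    nlinarith [hT θ]
  have hint : ∀ b, Integrable fun θ => Real.exp (-Φ b θ) := by
    intro b
    have h1 : Integrable (fun θ : κ → ℝ => ∏ i, Real.exp (-(α / 2) * θ i ^ 2)) :=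
      Integrable.fintype_prod (f := fun _ t => Real.exp (-(α / 2) * t ^ 2))
        fun _ => integrable_exp_neg_mul_sq (half_pos hα)
    refine (h1.const_mul (Real.exp ((∑ x, w x * b x ^ 2) + Fintype.card ι * C))).mono'
      (Real.continuous_exp.comp (hcΦ b).neg).aestronglyMeasurable (.of_forall fun θ => ?_)
    rw [Real.norm_eq_abs, Real.abs_exp, ← Real.exp_sum, ← Real.exp_add, Real.exp_le_exp,
      ← Finset.mul_sum]
    linarith [hlower b θ]
  have hneg : ∫ θ, Real.exp (-Φ (-a) θ) = ∫ θ, Real.exp (-Φ a θ) := by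
    rw [← integral_neg_eq_self]
    refine integral_congr_ae (.of_forall fun θ => ?_)
    simp only [hΦ, map_neg, Pi.neg_apply]
    congr 2
    refine Finset.sum_congr rfl fun x _ => ?_
    rw [← neg_add, heven]
  have hmid : ∀ u v : κ → ℝ,
      2 * Φ 0 (fun i => (u i + v i) / 2) ≤ Φ a u + Φ (-a) v := by
    intro u v
    simp only [hΦ, Pi.zero_apply, Pi.neg_apply, add_zero]
    rw [Finset.mul_sum, ← Finset.sum_add_distrib]
    refine Finset.sum_le_sum fun x _ => ?_
    have hc := (hconv x).2 (Set.mem_univ (T u x + a x)) (Set.mem_univ (T v x + -a x))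
      (by norm_num : (0 : ℝ) ≤ 1 / 2) (by norm_num : (0 : ℝ) ≤ 1 / 2) (by norm_num)
    have he : T (fun i => (u i + v i) / 2) x =
        (1 / 2 : ℝ) • (T u x + a x) + (1 / 2 : ℝ) • (T v x + -a x) := by
      rw [show (fun i => (u i + v i) / 2) = (1 / 2 : ℝ) • (u + v) by
        funext i; simp; ring, map_smul, map_add]
      simp
      ring
    rw [he]
    simp only [smul_eq_mul] at hc ⊢
    linarith
  refine ⟨hint a, ?_⟩
  have hm : ∀ b, Measurable fun θ => ENNReal.ofReal (Real.exp (-Φ b θ)) := fun b =>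
    (Real.continuous_exp.comp (hcΦ b).neg).measurable.ennreal_ofReal
  have key := prekopa_pi (hm a) (hm (-a)) (hm 0) fun u v => by
    rw [← ENNReal.ofReal_mul (Real.exp_pos _).le, ← ENNReal.ofReal_pow (Real.exp_pos _).le,
      ← Real.exp_add, ← Real.exp_nat_mul]
    refine ENNReal.ofReal_le_ofReal (Real.exp_le_exp.2 ?_)
    push_cast
    linarith [hmid u v]
  rw [← ofReal_integral_eq_lintegral_ofReal (hint a) (.of_forall fun θ => (Real.exp_pos _).le),
    ← ofReal_integral_eq_lintegral_ofReal (hint (-a)) (.of_forall fun θ => (Real.exp_pos _).le),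
    ← ofReal_integral_eq_lintegral_ofReal (hint 0) (.of_forall fun θ => (Real.exp_pos _).le),
    ← ENNReal.ofReal_mul (integral_nonneg fun θ => (Real.exp_pos _).le),
    ← ENNReal.ofReal_pow (integral_nonneg fun θ => (Real.exp_pos _).le),
    ENNReal.ofReal_le_ofReal_iff (sq_nonneg _), hneg, ← sq] at key
  have h := abs_le_of_sq_le_sq key (integral_nonneg fun θ => (Real.exp_pos _).le)
  rw [abs_of_nonneg (integral_nonneg fun θ => (Real.exp_pos _).le)] at h
  simpa only [hΦ, Pi.zero_apply, add_zero] using h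

end Vale.Agent.P047.Disproof
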