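import Vale.Agent.P047.Disproof.Geom
import Vale.Agent.P047.Disproof.HFun
import Vale.Agent.P047.Disproof.Shift

/-!
Log-concave weights on real polynomials of degree `< k`, restricted to a set `S` of points.
-/

namespace Vale.Agent.P047.Disproof

open MeasureTheory Finset Real
open scoped ENNReal

variable {n k : ℕ}

/-- The dimension per point. -/
noncomputable def Rk (n k : ℕ) : ℝ := Fintype.card (Idx n k) / (2 : ℝ) ^ n

lemma Rk_nonneg (n k : ℕ) : 0 ≤ Rk n k := by unfold Rk; positivity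

/-- Positive definiteness on `S`. -/
def PD (γ : ℝ) (S : Finset (Cube n)) (k : ℕ) : Prop :=
  0 < γ ∧ ∀ u : Idx n k → ℝ, γ * energy n k u ≤ ∑ x ∈ S, ev n k u x ^ 2

/-- The log-concave weight. -/
noncomputable def wt (S : Finset (Cube n)) (t : Cube n → ℝ) : ℝ := exp (-∑ x ∈ S, F (t x))

/-- The total weight of the real polynomials. -/
noncomputable def J (k : ℕ) (S : Finset (Cube n)) : ℝ := ∫ u : Idx n k → ℝ, wt S (ev n k u)

lemma wt_pos (S : Finset (Cube n)) (t : Cube n → ℝ) : 0 < wt S t := exp_pos _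

lemma E_nonneg (t : ℝ) : 0 ≤ E t := by
  have := sq_le_F t
  simp only [F] at this
  linarith

lemma continuous_wt_shift (S : Finset (Cube n)) (p : Cube n → ℝ) :
    Continuous fun u : Idx n k → ℝ => wt S fun x => p x + ev n k u x :=
  Real.continuous_exp.comp (continuous_finsetSum _ fun x _ =>
    continuous_F.comp (continuous_const.add (continuous_ev n k x))).neg

variable {γ : ℝ} {S : Finset (Cube n)}

/-- The shift lemma for the two parts of the potential, shifted independently. -/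
lemma shift_two (h : PD γ S k) (a b : Cube n → ℝ) :
    Integrable (fun u : Idx n k → ℝ =>
      exp (-(∑ x ∈ S, (ev n k u x + a x) ^ 2 + ∑ x ∈ S, E (ev n k u x + b x)))) ∧
    ∫ u : Idx n k → ℝ, exp (-(∑ x ∈ S, (ev n k u x + a x) ^ 2 + ∑ x ∈ S, E (ev n k u x + b x)))
      ≤ J k S := by
  classical
  obtain ⟨α, hα, hα'⟩ := exists_energy_ge n k
  let Fx : Cube n ⊕ Cube n → ℝ → ℝ :=
    Sum.elim (fun x t => if x ∈ S then t ^ 2 else 0) (fun x t => if x ∈ S then E t else 0)
  let w : Cube n ⊕ Cube n → ℝ := Sum.elim (fun x => if x ∈ S then 1 else 0) 0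
  let T : (Idx n k → ℝ) →ₗ[ℝ] Cube n ⊕ Cube n → ℝ :=
    LinearMap.pi fun i => (LinearMap.proj (i.elim id id)).comp (evLin n k)
  have hT : ∀ u i, T u i = ev n k u (i.elim id id) := fun u i => rfl
  have key := shiftLemma _ _ T Fx w 0 (γ * α)
    (by
      rintro (x | x) <;> by_cases hx : x ∈ S <;>
        simp only [Fx, Sum.elim_inl, Sum.elim_inr, hx, if_true, if_false]
      · exact even_two.convexOn_pow
      · exact convexOn_const 0 convex_univ
      · exact convexOn_E
      · exact convexOn_const 0 convex_univ)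
    (by rintro (x | x) t <;> by_cases hx : x ∈ S <;> simp [Fx, hx, E_neg])
    (by rintro (x | x) <;> by_cases hx : x ∈ S <;> simp [w, hx])
    (by rintro (x | x) t <;> by_cases hx : x ∈ S <;> simp [Fx, w, hx, E_nonneg])
    (mul_pos h.1 hα)
    (fun u => by
      rw [Fintype.sum_sum_type]
      simp only [hT, w, Sum.elim_inl, Sum.elim_inr, Pi.zero_apply, zero_mul, sum_const_zero,
        add_zero, id_eq, ite_mul, one_mul]
      rw [← sum_filter, filter_mem_eq_inter, univ_inter, mul_assoc]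
      exact (mul_le_mul_of_nonneg_left (hα' u) h.1.le).trans (h.2 u))
    (Sum.elim a b)
  have e : ∀ (u : Idx n k → ℝ) (a b : Cube n → ℝ), ∑ i, Fx i (T u i + Sum.elim a b i)
      = ∑ x ∈ S, (ev n k u x + a x) ^ 2 + ∑ x ∈ S, E (ev n k u x + b x) := fun u a b => by
    rw [Fintype.sum_sum_type]
    simp only [hT, Fx, Sum.elim_inl, Sum.elim_inr, id_eq, ← sum_filter, filter_mem_eq_inter,
      univ_inter]
  simp only [e] at key
  refine ⟨key.1, key.2.trans_eq (integral_congr_ae (.of_forall fun u => ?_))⟩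
  have := e u 0 0
  simp only [Sum.elim_zero_zero, Pi.zero_apply, add_zero] at this
  simp only [this, wt, F, sum_add_distrib]

lemma wt_shift_eq (S : Finset (Cube n)) (p : Cube n → ℝ) (u : Idx n k → ℝ) :
    wt S (fun x => p x + ev n k u x) =
      exp (-(∑ x ∈ S, (ev n k u x + p x) ^ 2 + ∑ x ∈ S, E (ev n k u x + p x))) := by
  simp only [wt, F, sum_add_distrib, add_comm (p _)]

lemma integrable_wt (h : PD γ S k) (p : Cube n → ℝ) :
    Integrable fun u : Idx n k → ℝ => wt S fun x => p x + ev n k u x := by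
  simpa only [wt_shift_eq] using (shift_two h p p).1

lemma integrable_wt_ev (h : PD γ S k) : Integrable fun u : Idx n k → ℝ => wt S (ev n k u) := by
  simpa using integrable_wt h (0 : Cube n → ℝ)

lemma J_pos (h : PD γ S k) : 0 < J k S := integral_exp_pos (integrable_wt_ev h)

/-- Exponential moments of linear forms. -/
lemma integral_wt_exp_le (h : PD γ S k) (w : Cube n → ℝ) :
    Integrable (fun u : Idx n k → ℝ => wt S (ev n k u) * exp (∑ x ∈ S, w x * ev n k u x)) ∧
      ∫ u : Idx n k → ℝ, wt S (ev n k u) * exp (∑ x ∈ S, w x * ev n k u x)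
        ≤ exp ((∑ x ∈ S, w x ^ 2) / 4) * J k S := by
  obtain ⟨hi, hle⟩ := shift_two h (fun x => -(w x / 2)) 0
  have e : ∀ u : Idx n k → ℝ, wt S (ev n k u) * exp (∑ x ∈ S, w x * ev n k u x) =
      exp ((∑ x ∈ S, w x ^ 2) / 4) *
        exp (-(∑ x ∈ S, (ev n k u x + -(w x / 2)) ^ 2 + ∑ x ∈ S, E (ev n k u x + 0))) := fun u => by
    rw [wt, ← exp_add, ← exp_add]
    congr 1
    simp only [F, add_zero, sum_div, ← sum_add_distrib, ← sum_neg_distrib]
    exact sum_congr rfl fun x _ => by ring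
  simp only [e, integral_const_mul]
  exact ⟨hi.const_mul _, mul_le_mul_of_nonneg_left hle (exp_pos _).le⟩

/-- The first-order condition at a point minimising the energy on `S` over a box. -/
lemma inner_nonneg_of_isMinOn (S : Finset (Cube n)) (p : Cube n → ℝ) {r : ℝ} {u₀ u : Idx n k → ℝ}
    (hu₀ : u₀ ∈ box n k r) (hu : u ∈ box n k r)
    (hmin : ∀ v ∈ box n k r,
      ∑ x ∈ S, (p x + ev n k u₀ x) ^ 2 ≤ ∑ x ∈ S, (p x + ev n k v x) ^ 2) :
    0 ≤ ∑ x ∈ S, (p x + ev n k u₀ x) * (ev n k u x - ev n k u₀ x) := by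
  set c := ∑ x ∈ S, (p x + ev n k u₀ x) * (ev n k u x - ev n k u₀ x) with hc
  set D := ∑ x ∈ S, (ev n k u x - ev n k u₀ x) ^ 2 with hD'
  by_contra hneg
  push Not at hneg
  have hD : 0 ≤ D := sum_nonneg fun _ _ => sq_nonneg _
  set t := min 1 (-c / (D + 1))
  have ht0 : 0 < t := lt_min one_pos (div_pos (by linarith) (by linarith))
  have hv := hmin _ (convex_box r hu₀ hu (sub_nonneg.2 (min_le_left 1 (-c / (D + 1))))
    ht0.le (sub_add_cancel 1 t))
  have hexp : ∑ x ∈ S, (p x + ev n k ((1 - t) • u₀ + t • u) x) ^ 2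
      = ∑ x ∈ S, (p x + ev n k u₀ x) ^ 2 + (2 * t * c + t ^ 2 * D) := by
    rw [hc, hD', mul_sum, mul_sum, ← sum_add_distrib, ← sum_add_distrib]
    refine sum_congr rfl fun x _ => ?_
    rw [ev_add, ev_smul, ev_smul]
    ring
  rw [hexp] at hv
  have h2 : t * D ≤ -c := by
    calc t * D ≤ -c / (D + 1) * D := mul_le_mul_of_nonneg_right (min_le_right _ _) hD
      _ ≤ -c := by rw [div_mul_eq_mul_div, div_le_iff₀ (by linarith)]; nlinarith
  nlinarith [mul_le_mul_of_nonneg_left h2 ht0.le, mul_neg_of_pos_of_neg ht0 hneg]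

/-- The weight of a box is small when all its points have large energy on `S`. -/
lemma setIntegral_box_le (h : PD γ S k) (p : Cube n → ℝ) {r B : ℝ} (hr : 0 ≤ r)
    (hB : ∀ u ∈ box n k r, B ≤ ∑ x ∈ S, (p x + ev n k u x) ^ 2) :
    ∫ u in box n k r, wt S (fun x => p x + ev n k u x) ≤ exp (-B) * J k S := by
  have hcont : Continuous fun u : Idx n k → ℝ => ∑ x ∈ S, (p x + ev n k u x) ^ 2 :=
    continuous_finsetSum S fun x _ =>
      ((continuous_const (y := p x)).add (continuous_ev n k x)).pow 2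
  have hne : (box n k r).Nonempty := ⟨0, zero_mem_box hr⟩
  obtain ⟨u₀, hu₀, hmin⟩ :=
    (isCompact_box (n := n) (k := k) r).exists_isMinOn hne hcont.continuousOn
  obtain ⟨hi, hle⟩ := shift_two h (fun x => -ev n k u₀ x) p
  calc ∫ u in box n k r, wt S (fun x => p x + ev n k u x)
      ≤ ∫ u in box n k r, exp (-B) *
          exp (-(∑ x ∈ S, (ev n k u x + -ev n k u₀ x) ^ 2 + ∑ x ∈ S, E (ev n k u x + p x))) := by
        refine setIntegral_mono_on (integrable_wt h p).integrableOn (hi.const_mul _).integrableOn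
          (isCompact_box r).isClosed.measurableSet fun u hu => ?_
        rw [wt_shift_eq, ← exp_add, exp_le_exp]
        have h1 : ∑ x ∈ S, (ev n k u x + p x) ^ 2 = ∑ x ∈ S, (ev n k u x + -ev n k u₀ x) ^ 2
            + 2 * (∑ x ∈ S, (p x + ev n k u₀ x) * (ev n k u x - ev n k u₀ x))
            + ∑ x ∈ S, (p x + ev n k u₀ x) ^ 2 := by
          rw [mul_sum, ← sum_add_distrib, ← sum_add_distrib]
          exact sum_congr rfl fun x _ => by ring
        have h2 := hB u₀ hu₀
        have h3 := inner_nonneg_of_isMinOn S p hu₀ hu fun v hv => hmin hv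
        linarith
    _ ≤ ∫ u, exp (-B) *
          exp (-(∑ x ∈ S, (ev n k u x + -ev n k u₀ x) ^ 2 + ∑ x ∈ S, E (ev n k u x + p x))) :=
        setIntegral_le_integral (hi.const_mul _) (.of_forall fun _ => by positivity)
    _ ≤ _ := by
        rw [integral_const_mul]; exact mul_le_mul_of_nonneg_left hle (exp_pos _).le

lemma sum_mul_ev (S : Finset (Cube n)) (b : Cube n → ℝ) (u : Idx n k → ℝ) :
    ∑ x ∈ S, b x * ev n k u x =
      ∑ i, u i * ∑ x ∈ S, b x * ev n k (fun j => if i = j then 1 else 0) x := by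
  have := fun x => LinearMap.pi_apply_eq_sum_univ ((LinearMap.proj x).comp (evLin n k)) u
  simp only [LinearMap.coe_comp, LinearMap.coe_proj, Function.comp_apply, evLin_apply,
    Function.eval, smul_eq_mul] at this
  simp only [this, mul_sum]
  rw [sum_comm]
  exact sum_congr rfl fun i _ => sum_congr rfl fun x _ => by ring

/-- Linear forms are represented by polynomials. -/
lemma exists_rep (S : Finset (Cube n)) (w : Cube n → ℝ)
    (hpd : ∀ u : Idx n k → ℝ, ∑ x ∈ S, w x * ev n k u x ^ 2 = 0 → u = 0) (b : Cube n → ℝ) :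
    ∃ p : Idx n k → ℝ, ∀ u : Idx n k → ℝ,
      ∑ x ∈ S, w x * ev n k p x * ev n k u x = ∑ x, b x * ev n k u x := by
  let M : (Idx n k → ℝ) →ₗ[ℝ] Idx n k → ℝ :=
    { toFun := fun p i => ∑ x ∈ S, w x * ev n k p x * ev n k (fun j => if i = j then 1 else 0) x
      map_add' := fun p p' => by
        funext i; simp only [ev_add, Pi.add_apply, ← sum_add_distrib]
        exact sum_congr rfl fun x _ => by ring
      map_smul' := fun c p => by
        funext i; simp only [ev_smul, Pi.smul_apply, RingHom.id_apply, smul_eq_mul, mul_sum]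
        exact sum_congr rfl fun x _ => by ring }
  have hM : ∀ p u, ∑ x ∈ S, w x * ev n k p x * ev n k u x = ∑ i, u i * M p i := fun p u =>
    sum_mul_ev S (fun x => w x * ev n k p x) u
  have hinj : Function.Injective M := (injective_iff_map_eq_zero M).2 fun p hp => by
    refine hpd p ?_
    have := hM p p
    simp only [hp, Pi.zero_apply, mul_zero, sum_const_zero] at this
    simpa only [sq, mul_assoc] using this
  obtain ⟨p, hp⟩ := LinearMap.surjective_of_injective hinj
    fun i => ∑ x, b x * ev n k (fun j => if i = j then 1 else 0) x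
  exact ⟨p, fun u => by rw [hM, hp, sum_mul_ev univ b u]⟩

lemma exists_rep_point (h : PD γ S k) (x₀ : Cube n) :
    ∃ w : Cube n → ℝ, (∀ u : Idx n k → ℝ, ∑ x ∈ S, w x * ev n k u x = ev n k u x₀) ∧
      ∑ x ∈ S, w x ^ 2 ≤ Rk n k / γ := by
  obtain ⟨p, hp⟩ := exists_rep S (fun _ => 1) (fun u hu => energy_eq_zero (le_antisymm
    (nonpos_of_mul_nonpos_right (by simpa using (h.2 u).trans_eq (by simpa using hu)) h.1)
    (sum_nonneg fun _ _ => sq_nonneg _))) fun x => if x = x₀ then 1 else 0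
  simp only [one_mul, ite_mul, zero_mul, Finset.sum_ite_eq', Finset.mem_univ, if_true] at hp
  refine ⟨ev n k p, hp, ?_⟩
  have h1 : ∑ x ∈ S, ev n k p x ^ 2 = ev n k p x₀ := by simpa only [sq] using hp p
  have h2 := sq_ev_le n k p x₀
  rcases (sum_nonneg fun x (_ : x ∈ S) => sq_nonneg (ev n k p x)).eq_or_lt with h0 | hpos
  · rw [← h0]; exact div_nonneg (Rk_nonneg n k) h.1.le
  rw [le_div_iff₀ h.1]
  refine le_of_mul_le_mul_right ?_ hpos
  calc _ = γ * ev n k p x₀ ^ 2 := by rw [← h1]; ring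
    _ ≤ γ * (Rk n k * energy n k p) := mul_le_mul_of_nonneg_left h2 h.1.le
    _ = Rk n k * (γ * energy n k p) := by ring
    _ ≤ _ := mul_le_mul_of_nonneg_left (h.2 p) (Rk_nonneg n k)

/-- Tail bound for the weight. -/
lemma setIntegral_tail_le (h : PD γ S k) (hR : 0 < Rk n k) {ρ : ℝ} (hρ : 0 ≤ ρ)
    {A : Set (Idx n k → ℝ)} (hA : MeasurableSet A)
    (hout : ∀ u ∈ A, ∃ x, ρ ≤ |ev n k u x|) :
    ∫ u in A, wt S (ev n k u) ≤ 2 ^ (n + 1) * exp (-(γ * ρ ^ 2 / Rk n k)) * J k S := by
  classical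
  choose w hw hw2 using exists_rep_point (k := k) h
  set l := 2 * ρ * γ / Rk n k with hl
  have hl0 : 0 ≤ l := by have := h.1; positivity
  set g : Cube n → Bool → (Idx n k → ℝ) → ℝ := fun x₀ s u =>
    wt S (ev n k u) * exp (∑ x ∈ S, (sgn s * l * w x₀ x) * ev n k u x) with hg
  have hgi : ∀ x₀ s, Integrable (g x₀ s) := fun x₀ s => (integral_wt_exp_le h _).1
  have hgle : ∀ x₀ s, ∫ u, exp (-(l * ρ)) * g x₀ s u ≤ exp (-(γ * ρ ^ 2 / Rk n k)) * J k S := by
    intro x₀ s
    rw [integral_const_mul]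
    refine (mul_le_mul_of_nonneg_left (integral_wt_exp_le h _).2 (exp_pos _).le).trans ?_
    rw [← mul_assoc, ← exp_add]
    refine mul_le_mul_of_nonneg_right (exp_le_exp.2 ?_) (J_pos h).le
    have hsq : ∑ x ∈ S, (sgn s * l * w x₀ x) ^ 2 = l ^ 2 * ∑ x ∈ S, w x₀ x ^ 2 := by
      rw [mul_sum]; exact sum_congr rfl fun x _ => by cases s <;> simp [sgn] <;> ring
    rw [hsq]
    have := mul_le_mul_of_nonneg_left (hw2 x₀) (sq_nonneg l)
    have e1 : l ^ 2 * (Rk n k / γ) = 4 * (γ * ρ ^ 2 / Rk n k) := by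
      rw [hl]; field_simp [h.1.ne', hR.ne']; ring
    have e2 : l * ρ = 2 * (γ * ρ ^ 2 / Rk n k) := by rw [hl]; ring
    linarith
  have hsum : Integrable fun u => ∑ x₀, ∑ s, exp (-(l * ρ)) * g x₀ s u :=
    integrable_finsetSum _ fun x₀ _ => integrable_finsetSum _ fun s _ => (hgi x₀ s).const_mul _
  calc ∫ u in A, wt S (ev n k u) ≤ ∫ u in A, ∑ x₀, ∑ s, exp (-(l * ρ)) * g x₀ s u := by
        refine setIntegral_mono_on (integrable_wt_ev h).integrableOn hsum.integrableOn hA
          fun u hu => ?_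
        obtain ⟨x₀, hx₀⟩ := hout u hu
        refine le_trans ?_ (single_le_sum (s := univ) (a := x₀) (fun x _ => sum_nonneg fun s _ =>
          mul_nonneg (exp_pos _).le (mul_pos (wt_pos _ _) (exp_pos _)).le) (Finset.mem_univ x₀))
        refine le_trans ?_ (single_le_sum (s := univ) (a := decide (0 ≤ ev n k u x₀)) (fun s _ =>
          mul_nonneg (exp_pos _).le (mul_pos (wt_pos _ _) (exp_pos _)).le) (Finset.mem_univ _))
        simp only [mul_assoc (sgn _ * l), ← mul_sum, hw]
        rw [mul_left_comm, ← exp_add]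
        refine le_mul_of_one_le_right (wt_pos _ _).le (one_le_exp ?_)
        by_cases h0 : 0 ≤ ev n k u x₀ <;> simp only [h0, decide_true, decide_false, sgn, if_true]
        · rw [abs_of_nonneg h0] at hx₀; nlinarith
        · rw [abs_of_neg (not_le.1 h0)] at hx₀; simp; nlinarith
    _ ≤ ∫ u, ∑ x₀, ∑ s, exp (-(l * ρ)) * g x₀ s u :=
        setIntegral_le_integral hsum (.of_forall fun u => sum_nonneg fun x _ => sum_nonneg fun s _ =>
          mul_nonneg (exp_pos _).le (mul_pos (wt_pos _ _) (exp_pos _)).le)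
    _ ≤ ∑ _x₀ : Cube n, ∑ _s : Bool, exp (-(γ * ρ ^ 2 / Rk n k)) * J k S := by
        rw [integral_finsetSum _ fun x₀ _ => integrable_finsetSum _ fun s _ =>
          (hgi x₀ s).const_mul _]
        refine sum_le_sum fun x₀ _ => ?_
        rw [integral_finsetSum _ fun s _ => (hgi x₀ s).const_mul _]
        exact sum_le_sum fun s _ => hgle x₀ s
    _ = _ := by simp; ring

end Vale.Agent.P047.Disproof
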