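import Vale.Agent.P047.Disproof.BoxEvent
import Vale.Agent.P047.Disproof.Orth
import Vale.Agent.P047.Compose

/-!
One rounding stage: an integer function of low degree is halved, keeping low degree.
-/

namespace Vale.Agent.P047.Disproof

open MeasureTheory Finset

variable {n k : ℕ} {γ₀ c₀ δ γ : ℝ} {S : Finset (Cube n)}

open Classical in
/-- The indicator that halving `S` along `s` spoils the quadratic form. -/
noncomputable def specFail (k : ℕ) (γ : ℝ) (S : Finset (Cube n)) (s a : Cube n → Bool) : ℝ :=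
  if ∀ u : Idx n k → ℝ, γ / 4 * energy n k u ≤ ∑ x ∈ keep S s a, ev n k u x ^ 2 then 0 else 1

/-- What a stage needs about the parameters. -/
structure StageParams (C : Cover n k γ₀ c₀ δ) (γ : ℝ) : Prop where
  pos : 0 < γ
  lo : c₀ ≤ γ ^ 2 / 65536
  le_one : γ ≤ 1
  delta_nonneg : 0 ≤ δ
  delta_le : δ ≤ 1 / 64
  rk_pos : 0 < Rk n k
  rk_le : Rk n k ≤ γ / 16384
  tail_le : 2 ^ (n + 1) * Real.exp (-(γ * (1 / 5) ^ 2 / Rk n k)) ≤ 1 / 16
  spec_le : ∀ S : Finset (Cube n), EvenOn k S → C.Good γ S → ∀ s : Cube n → Bool,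
    hitAvg k S (specFail k γ S s) ≤ 1 / 16 * J k S

/-- A random choice of signs is orthogonal and good with positive probability. -/
lemma hitAvg_one_ge (C : Cover n k γ₀ c₀ δ) (P : StageParams C γ) (hS : EvenOn k S)
    (hG : C.Good γ S) : 7 / 8 * J k S ≤ hitAvg k S fun _ => 1 := by
  have hpd := hG.pd P.pos
  have hc : c₀ ≤ γ := P.lo.trans (by nlinarith [P.pos, P.le_one])
  have hB : ∀ t : Cube n → ℝ, (∀ x ∈ S, |t x| ≤ 13 / 25) →
      ‖avgPhase S (fun _ => 1) t‖ ≤ 1 * wt S t := fun t ht => by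
    have := norm_avgPhase_tilt_le S 0 t ht
    simpa using this
  have h := abs_hitAvg_sub_le C hS hG P.pos hc P.le_one zero_le_one hB
  set A : Set (Idx n k → ℝ) := (box n k (1 / 5))ᶜ
  have hA : MeasurableSet A := (isCompact_box _).isClosed.measurableSet.compl
  have htail := setIntegral_tail_le hpd P.rk_pos (ρ := 1 / 5) (by norm_num) hA fun u hu => by
    obtain ⟨x, hx⟩ := not_forall.1 hu
    exact ⟨x, (not_le.1 hx).le⟩
  have hsplit := integral_add_compl (isCompact_box (n := n) (k := k) (1 / 5)).isClosed.measurableSet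
    (integrable_wt_ev hpd)
  have hmain : ∫ u in box n k (1 / 5), avgPhase S (fun _ => 1) (ev n k u) =
      ((∫ u in box n k (1 / 5), wt S (ev n k u) : ℝ) : ℂ) := by
    rw [← integral_complex_ofReal]
    exact setIntegral_congr_fun (isCompact_box _).isClosed.measurableSet fun u hu =>
      avgPhase_one S _ fun x _ => hu x
  rw [hmain, ← Complex.ofReal_sub, Complex.norm_real, Real.norm_eq_abs, one_mul] at h
  have h1 := (abs_le.1 h).1
  have hJ := (J_pos hpd).le
  have h2 := mul_le_mul_of_nonneg_right P.delta_le hJ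
  have h3 := mul_le_mul_of_nonneg_right P.tail_le hJ
  have h4 : J k S = ∫ u : Idx n k → ℝ, wt S (ev n k u) := rfl
  linarith

/-- Signs that are orthogonal and keep both halvings good. -/
lemma exists_signs (C : Cover n k γ₀ c₀ δ) (P : StageParams C γ) (hS : EvenOn k S)
    (hG : C.Good γ S) (s₁ s₂ : Cube n → Bool) :
    ∃ a, hit k S a ∧ C.Good (γ / 8) (keep S s₁ a) ∧ C.Good (γ / 8) (keep S s₂ a) := by
  classical
  by_contra hcon
  push Not at hcon
  set bad : (Cube n → Bool) → (Cube n → Bool) → ℝ := fun s a => specFail k γ S s a +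
    if (∀ u : Idx n k → ℝ, γ / 4 * energy n k u ≤ ∑ x ∈ keep S s a, ev n k u x ^ 2) ∧
      ∃ j, ∃ u ∈ box n k (C.r j),
        ∑ x ∈ keep S s a, (C.p j x + ev n k u x) ^ 2 < γ / 8 * C.W j then 1 else 0 with hbad
  have hbad0 : ∀ s a, 0 ≤ bad s a := fun s a => by
    simp only [hbad, specFail]; split_ifs <;> norm_num
  have hone : ∀ s a, ¬C.Good (γ / 8) (keep S s a) → 1 ≤ bad s a := by
    intro s a hng
    simp only [hbad, specFail]
    by_cases hsp : ∀ u : Idx n k → ℝ,
        γ / 4 * energy n k u ≤ ∑ x ∈ keep S s a, ev n k u x ^ 2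
    · have hex : ∃ j, ∃ u ∈ box n k (C.r j),
          ∑ x ∈ keep S s a, (C.p j x + ev n k u x) ^ 2 < γ / 8 * C.W j := by
        by_contra hb
        push Not at hb
        refine hng ⟨fun u => le_trans ?_ (hsp u), hb⟩
        exact mul_le_mul_of_nonneg_right (by linarith [P.pos]) (sum_nonneg fun _ _ => sq_nonneg _)
      rw [if_pos hsp, if_pos ⟨hsp, hex⟩, zero_add]
    · rw [if_neg hsp]; split_ifs <;> norm_num
  have hle : hitAvg k S (fun _ => 1) ≤ hitAvg k S fun a => bad s₁ a + bad s₂ a := by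
    refine div_le_div_of_nonneg_right (sum_le_sum fun a _ => ?_) (Nat.cast_nonneg _)
    split_ifs with h
    · by_cases h1 : C.Good (γ / 8) (keep S s₁ a)
      · linarith [hone s₂ a (hcon a h h1), hbad0 s₁ a]
      · linarith [hone s₁ a h1, hbad0 s₂ a]
    · rfl
  have hb : ∀ s, hitAvg k S (bad s) ≤ 1 / 16 * J k S + 2 * δ * (1 + δ) * J k S := fun s => by
    rw [hbad, hitAvg_add]
    exact add_le_add (P.spec_le S hS hG s)
      (box_le C hS hG P.pos P.lo P.le_one P.delta_nonneg P.rk_le s)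
  have hJ := J_pos (hG.pd P.pos)
  have h1 := hitAvg_one_ge C P hS hG
  rw [hitAvg_add] at hle
  have h2 : 2 * δ * (1 + δ) ≤ 1 / 8 := by nlinarith [P.delta_le, P.delta_nonneg]
  have h3 := mul_le_mul_of_nonneg_right h2 hJ.le
  linarith [hb s₁, hb s₂]

/-- The points where `f / 2` and `2 ^ j` differ in parity. -/
def oddSet (j : ℕ) (f : Cube n → ℤ) : Finset (Cube n) :=
  univ.filter fun x => ¬(2 : ℤ) ∣ f x / 2 - 2 ^ j

/-- The invariant of the rounding. -/
structure Inv (C : Cover n k γ₀ c₀ δ) (γ : ℝ) (j : ℕ) (f : Cube n → ℤ) : Prop where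
  even : ∀ x, (2 : ℤ) ∣ f x
  bound : ∀ x, |f x| ≤ 2 ^ (j + 1)
  deg : DegLE (fun x => (f x : ℝ)) (n - k)
  good : C.Good γ (oddSet j f)

lemma fhat_add (f g : Cube n → ℝ) (T : Finset (Fin n)) :
    fhat (fun x => f x + g x) T = fhat f T + fhat g T := by
  simp only [fhat, add_mul, sum_add_distrib, add_div]

lemma fhat_const_mul (c : ℝ) (f : Cube n → ℝ) (T : Finset (Fin n)) :
    fhat (fun x => c * f x) T = c * fhat f T := by
  simp only [fhat, mul_assoc, ← mul_sum, mul_div_assoc]

lemma level1_add (f g : Cube n → ℝ) : level1 (fun x => f x + g x) = level1 f + level1 g := by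
  simp only [level1, fhat_add, sum_add_distrib]

lemma level1_const_mul (c : ℝ) (f : Cube n → ℝ) : level1 (fun x => c * f x) = c * level1 f := by
  simp only [level1, fhat_const_mul, ← mul_sum]

/-- The full character with integer values. -/
def chiZ (x : Cube n) : ℤ := ∏ i, if x i then 1 else -1

lemma chiZ_cast (x : Cube n) : (chiZ x : ℝ) = chi univ x := by
  simp only [chiZ, chi, Int.cast_prod]
  exact prod_congr rfl fun i _ => by cases x i <;> simp [sgn]

lemma chiZ_eq (x : Cube n) : chiZ x = 1 ∨ chiZ x = -1 :=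
  prod_induction _ (fun z : ℤ => z = 1 ∨ z = -1)
    (by rintro a b (rfl | rfl) (rfl | rfl) <;> simp) (Or.inl rfl) fun i _ => by
      split_ifs <;> simp

/-- Parity from the degree of `f`. -/
lemma evenOn_oddSet {j : ℕ} {f : Cube n → ℤ} (hkn : k ≤ n) (he : ∀ x, (2 : ℤ) ∣ f x)
    (hd : DegLE (fun x => (f x : ℝ)) (n - k)) : EvenOn k (oddSet j f) := by
  classical
  set h : Cube n → ℤ := fun x => f x / 2 - 2 ^ j with hh
  have hh' : (fun x => (h x : ℝ)) = fun x => (1 / 2 : ℝ) * (f x : ℝ) + (-(2 : ℝ) ^ j) * 1 := by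
    funext x
    obtain ⟨c, hc⟩ := he x
    simp [hh, hc]
    ring
  have hdeg : DegLE (fun x => (h x : ℝ)) (n - k) := by
    intro T hT
    rw [hh', fhat_add, fhat_const_mul, fhat_const_mul, hd T hT]
    have : fhat (fun _ : Cube n => (1 : ℝ)) T = 0 := by
      simp only [fhat, one_mul]
      rw [sum_chi, if_neg (fun h0 => by simp [h0] at hT), zero_div]
    rw [this]; ring
  have horth : Orth n k fun x => chi univ x * (h x : ℝ) := by
    rw [orth_iff_degLE hkn]
    have : (fun x => chi univ x * (chi univ x * (h x : ℝ))) = fun x => (h x : ℝ) := by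
      funext x
      rw [← mul_assoc, ← chiZ_cast]
      rcases chiZ_eq x with hz | hz <;> simp [hz]
    rwa [this]
  intro θ
  have h0 : ∑ x, chiZ x * h x * ev n k θ x = 0 := by
    have h1 := horth fun i => (θ i : ℝ)
    have h2 : ∀ x, ev n k (fun i => (θ i : ℝ)) x = ((ev n k θ x : ℤ) : ℝ) := fun x =>
      (map_ev (Int.castAddHom ℝ) n k θ x).symm
    simp only [h2, ← chiZ_cast] at h1
    exact_mod_cast h1
  have h3 : (2 : ℤ) ∣ ∑ x, ((if x ∈ oddSet j f then ev n k θ x else 0) - chiZ x * h x * ev n k θ x) := by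
    refine dvd_sum fun x _ => ?_
    by_cases hx : x ∈ oddSet j f
    · rw [if_pos hx]
      have hodd : ¬(2 : ℤ) ∣ h x := by simpa [oddSet, hh] using hx
      have : (2 : ℤ) ∣ 1 - chiZ x * h x := by
        rcases chiZ_eq x with hz | hz <;> rw [hz] <;> omega
      rw [← one_sub_mul]
      exact this.mul_right _
    · rw [if_neg hx]
      have hev : (2 : ℤ) ∣ h x := by simpa [oddSet, hh] using hx
      exact dvd_sub (dvd_zero _) ((hev.mul_left _).mul_right _)
  rw [sum_sub_distrib, h0, sub_zero, sum_ite_mem, univ_inter] at h3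
  exact h3

/-- The rounded function. -/
def round (j : ℕ) (f : Cube n → ℤ) (a : Cube n → Bool) (x : Cube n) : ℤ :=
  f x / 2 + if x ∈ oddSet j f then chiZ x * (if a x then 1 else -1) else 0

lemma round_cast {j : ℕ} {f : Cube n → ℤ} (he : ∀ x, (2 : ℤ) ∣ f x) (a : Cube n → Bool) :
    (fun x => (round j f a x : ℝ)) =
      fun x => (1 / 2 : ℝ) * (f x : ℝ) + chi univ x * sgnS (oddSet j f) a x := by
  funext x
  obtain ⟨c, hc⟩ := he x
  rw [round, sgnS, ← chiZ_cast]
  split_ifs <;> simp [sgn, *]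

lemma round_spec {C : Cover n k γ₀ c₀ δ} {j : ℕ} {f : Cube n → ℤ} (hkn : k ≤ n)
    (hI : Inv C γ j f) {a : Cube n → Bool} (ha : hit k (oddSet j f) a) :
    (∀ x, |round j f a x| ≤ 2 ^ j) ∧ (∀ x, (2 : ℤ) ∣ round j f a x - 2 ^ j) ∧
      DegLE (fun x => (round j f a x : ℝ)) (n - k) := by
  have hx : ∀ x, |round j f a x| ≤ 2 ^ j ∧ (2 : ℤ) ∣ round j f a x - 2 ^ j := by
    intro x
    have hb := abs_le.1 (hI.bound x)
    have he := hI.even x
    rw [pow_succ] at hb
    have hm : x ∈ oddSet j f ↔ ¬(2 : ℤ) ∣ f x / 2 - 2 ^ j := by simp [oddSet]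
    rw [round, abs_le]
    rcases chiZ_eq x with hz | hz <;> rw [hz] <;> cases a x <;> by_cases h : x ∈ oddSet j f <;>
      simp only [h, if_true, if_false, Bool.false_eq_true] <;>
      first
        | (have := hm.1 h; constructor <;> [constructor; skip] <;> omega)
        | (have := not_not.1 (mt hm.2 h); constructor <;> [constructor; skip] <;> omega)
  refine ⟨fun x => (hx x).1, fun x => (hx x).2, fun T hT => ?_⟩
  rw [round_cast hI.even, fhat_add, fhat_const_mul, hI.deg T hT, mul_zero, zero_add]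
  exact (orth_iff_degLE hkn _).1 ha T hT

lemma hit_not {S : Finset (Cube n)} {a : Cube n → Bool} (h : hit k S a) :
    hit k S fun x => !a x := fun θ => by
  have h' : sgnS S (fun x => !a x) = fun x => -sgnS S a x := by
    funext x; simp only [sgnS]; split_ifs <;> simp [sgn_not]
  simp only [h', neg_mul, sum_neg_distrib, h θ, neg_zero]

/-- The sign making `round` stay in the odd set one level down. -/
def target (j : ℕ) (f : Cube n → ℤ) (x : Cube n) : Bool :=
  decide (¬(2 : ℤ) ∣ (f x / 2 + chiZ x) / 2 - 2 ^ j)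

lemma keep_subset_oddSet {j : ℕ} {f : Cube n → ℤ} (a : Cube n → Bool) :
    keep (oddSet (j + 1) f) (target j f) a ⊆ oddSet j (round (j + 1) f a) := by
  intro x hx
  obtain ⟨hS, ha⟩ := mem_filter.1 hx
  have hS' : ¬(2 : ℤ) ∣ f x / 2 - 2 ^ (j + 1) := by simpa [oddSet] using hS
  rw [oddSet, mem_filter, round, if_pos hS, ha, target]
  refine ⟨Finset.mem_univ x, ?_⟩
  rw [pow_succ] at hS'
  rcases chiZ_eq x with hz | hz <;> rw [hz] <;> split_ifs with h <;>
    simp only [decide_eq_true_eq, not_not] at h <;> omega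

lemma level1_round {j : ℕ} {f : Cube n → ℤ} (he : ∀ x, (2 : ℤ) ∣ f x) (a : Cube n → Bool) :
    level1 (fun x => (round j f a x : ℝ)) =
      level1 (fun x => (f x : ℝ)) / 2 +
        level1 (fun x => chi univ x * sgnS (oddSet j f) a x) := by
  rw [round_cast he, level1_add, level1_const_mul]; ring

lemma level1_sgnS_not (S : Finset (Cube n)) (a : Cube n → Bool) :
    level1 (fun x => chi univ x * sgnS S (fun y => !a y) x) =
      -level1 (fun x => chi univ x * sgnS S a x) := by
  rw [← neg_one_mul, ← level1_const_mul]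
  congr 1
  funext x
  simp only [sgnS]
  split_ifs <;> simp [sgn_not]

/-- Both signs are allowed, so the first level can only grow. -/
lemma exists_round_sign (C : Cover n k γ₀ c₀ δ) (P : StageParams C γ) (hkn : k ≤ n) {j : ℕ}
    {f : Cube n → ℤ} (hI : Inv C γ j f) (s : Cube n → Bool) :
    ∃ a, hit k (oddSet j f) a ∧ C.Good (γ / 8) (keep (oddSet j f) s a) ∧
      level1 (fun x => (f x : ℝ)) / 2 ≤ level1 (fun x => (round j f a x : ℝ)) := by
  obtain ⟨a, ha, h1, h2⟩ := exists_signs C P (evenOn_oddSet hkn hI.even hI.deg) hI.good s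
    fun x => !s x
  have hk : keep (oddSet j f) s (fun x => !a x) = keep (oddSet j f) (fun x => !s x) a :=
    filter_congr fun x _ => by cases ha' : a x <;> cases hs : s x <;> simp [ha', hs]
  rcases le_total 0 (level1 fun x => chi univ x * sgnS (oddSet j f) a x) with h | h
  · exact ⟨a, ha, h1, by rw [level1_round hI.even]; linarith⟩
  · refine ⟨fun x => !a x, hit_not ha, hk ▸ h2, ?_⟩
    rw [level1_round hI.even, level1_sgnS_not]; linarith

/-- All the stages. -/
lemma rounding (C : Cover n k γ₀ c₀ δ) (hkn : k ≤ n) :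
    ∀ (j : ℕ) (γ : ℝ) (f : Cube n → ℤ), Inv C γ j f →
      (∀ i ≤ j, StageParams C (γ / 8 ^ i)) →
      ∃ g : Cube n → ℝ, IsBool g ∧ DegLE g (n - k) ∧
        level1 (fun x => (f x : ℝ) / 2 ^ (j + 1)) ≤ level1 g := by
  intro j
  induction j with
  | zero =>
    intro γ f hI hP
    have P := hP 0 le_rfl
    rw [pow_zero, div_one] at P
    obtain ⟨a, ha, -, hL⟩ := exists_round_sign C P hkn hI fun _ => true
    obtain ⟨hb, hp, hd⟩ := round_spec hkn hI ha
    refine ⟨fun x => (round 0 f a x : ℝ), fun x => ?_, hd, ?_⟩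
    · have h1 := abs_le.1 (hb x)
      have h2 := hp x
      have : round 0 f a x = 1 ∨ round 0 f a x = -1 := by simp only [pow_zero] at h1 h2; omega
      rcases this with h | h <;> simp [h]
    · refine le_trans (le_of_eq ?_) hL
      rw [show (fun x => (f x : ℝ) / 2 ^ (0 + 1)) = fun x => (1 / 2 : ℝ) * (f x : ℝ) by
        funext x; ring, level1_const_mul]
      ring
  | succ j ih =>
    intro γ f hI hP
    have P := hP 0 (Nat.zero_le _)
    rw [pow_zero, div_one] at P
    obtain ⟨a, ha, hg, hL⟩ := exists_round_sign C P hkn hI (target j f)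
    obtain ⟨hb, hp, hd⟩ := round_spec hkn hI ha
    have hI' : Inv C (γ / 8) j (round (j + 1) f a) :=
      ⟨fun x => by
        have := hp x
        rw [pow_succ] at this
        omega, hb, hd, hg.mono (keep_subset_oddSet a)⟩
    obtain ⟨g, hg1, hg2, hg3⟩ := ih (γ / 8) _ hI' fun i hi => by
      rw [div_div, ← pow_succ']; exact hP (i + 1) (by omega)
    refine ⟨g, hg1, hg2, le_trans ?_ hg3⟩
    rw [show (fun x => (f x : ℝ) / 2 ^ (j + 1 + 1)) = fun x => (1 / 2 ^ (j + 2) : ℝ) * (f x : ℝ) by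
        funext x; ring,
      show (fun x => (round (j + 1) f a x : ℝ) / 2 ^ (j + 1)) =
          fun x => (1 / 2 ^ (j + 1) : ℝ) * (round (j + 1) f a x : ℝ) by funext x; ring,
      level1_const_mul, level1_const_mul]
    calc 1 / 2 ^ (j + 2) * level1 (fun x => (f x : ℝ))
        = 1 / 2 ^ (j + 1) * (level1 (fun x => (f x : ℝ)) / 2) := by ring
      _ ≤ _ := mul_le_mul_of_nonneg_left hL (by positivity)

end Vale.Agent.P047.Disproof
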